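import Crest.Agent.R113.Orbit1

/-! Row 113, S0149: measure estimates for the wall system. -/

set_option autoImplicit false

noncomputable section

namespace Crest.Agent.R113

open Finset MeasureTheory

namespace Seq

variable {θ : ℝ} (S : Seq θ)

namespace CovAux

instance instProb : IsProbabilityMeasure (volume : Measure TT) := ⟨UnitAddCircle.measure_univ⟩

theorem measurable_fr_smul (m : ℕ) : Measurable fun y : TT => fr (m • y) :=
  measurable_fr.comp (continuous_nsmul m).measurable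

theorem measurableSet_tail {A : ℕ → Set TT} (hA : ∀ j, MeasurableSet (A j)) (i : ℕ) :
    MeasurableSet {y | ∃ j, i ≤ j ∧ y ∈ A j} := by
  have : {y | ∃ j, i ≤ j ∧ y ∈ A j} = ⋃ j, ⋃ (_ : i ≤ j), A j := by
    ext y
    simp
  rw [this]
  exact MeasurableSet.iUnion fun j => MeasurableSet.iUnion fun _ => hA j

theorem measurableSet_orbit {A : Set TT} (hA : MeasurableSet A) (t : ℕ) (z : TT) :
    MeasurableSet {y | ∃ l : ℕ, l < t ∧ y + l • z ∈ A} := by
  have : {y | ∃ l : ℕ, l < t ∧ y + l • z ∈ A} = ⋃ l, ⋃ (_ : l < t), (fun y => y + l • z) ⁻¹' A := by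
    ext y
    simp
  rw [this]
  exact MeasurableSet.iUnion fun l => MeasurableSet.iUnion fun _ =>
    (measurable_add_const _) hA

theorem measurable_ind {A : Set TT} (hA : MeasurableSet A) : Measurable (ind A) :=
  measurable_one.indicator hA

theorem measurableSet_wall1 (j : ℕ) : MeasurableSet (S.wall1 j) :=
  measurableSet_le (measurable_const.sub (measurable_fr_smul _)) measurable_const

theorem measurableSet_zone1 (j : ℕ) : MeasurableSet (S.zone1 j) :=
  measurableSet_le (measurable_const.sub (measurable_fr_smul _)) measurable_const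

theorem measurableSet_Base (i : ℕ) : MeasurableSet (S.Base i) :=
  measurableSet_lt measurable_norm measurable_const

theorem measurable_P (i : ℕ) (h : ∀ t, MeasurableSet (S.Aset i t)) : Measurable (S.P i) := by
  refine measurable_of_Iic fun t => ?_
  have : S.P i ⁻¹' Set.Iic t = S.Aset i t := by
    ext y
    simp [S.mem_Aset_iff]
  rw [this]
  exact h t

/-- A geometric union bound. -/
theorem volume_tail_le {A : ℕ → Set TT} {c q : ℝ} (hc : 0 ≤ c) (hq0 : 0 ≤ q) (hq : q < 1)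
    (hA : ∀ j, volume (A j) ≤ ENNReal.ofReal (c * q ^ j)) (i : ℕ) :
    volume {y | ∃ j, i ≤ j ∧ y ∈ A j} ≤ ENNReal.ofReal (c * q ^ i / (1 - q)) := by
  have h1 : {y | ∃ j, i ≤ j ∧ y ∈ A j} ⊆ ⋃ k, A (i + k) := by
    rintro y ⟨j, hj, hy⟩
    obtain ⟨k, rfl⟩ := Nat.exists_eq_add_of_le hj
    exact Set.mem_iUnion.2 ⟨k, hy⟩
  have h2 : HasSum (fun k : ℕ => c * q ^ (i + k)) (c * q ^ i / (1 - q)) := by
    have := (hasSum_geometric_of_lt_one hq0 hq).mul_left (c * q ^ i)
    simpa only [pow_add, mul_assoc, div_eq_mul_inv] using this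
  calc _ ≤ volume (⋃ k, A (i + k)) := measure_mono h1
    _ ≤ ∑' k, volume (A (i + k)) := measure_iUnion_le _
    _ ≤ ∑' k, ENNReal.ofReal (c * q ^ (i + k)) := ENNReal.tsum_le_tsum fun k => hA _
    _ = ENNReal.ofReal (∑' k, c * q ^ (i + k)) :=
        (ENNReal.ofReal_tsum_of_nonneg (fun k => by positivity) h2.summable).symm
    _ = _ := by rw [h2.tsum_eq]

end CovAux

open CovAux

theorem measurableSet_Wall (i : ℕ) : MeasurableSet (S.Wall i) := by
  exact measurableSet_tail (measurableSet_wall1 S) i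

theorem measurableSet_Zone (i : ℕ) : MeasurableSet (S.Zone i) := by
  exact measurableSet_tail (measurableSet_zone1 S) i

theorem measurableSet_Aset (i t : ℕ) : MeasurableSet (S.Aset i t) := by
  exact measurableSet_orbit (S.measurableSet_Wall i) t _

theorem measurableSet_Xset (i t : ℕ) : MeasurableSet (S.Xset i t) := by
  exact (S.measurableSet_Zone i).union ((measurable_add_const _ (S.measurableSet_Zone i)).union
    ((measurable_sub_const _ (S.measurableSet_Zone i)).union
      (measurableSet_orbit (measurableSet_Base S i) t _)))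

theorem measurableSet_BadSet (s e1 : ℕ) : MeasurableSet (S.BadSet s e1) := by
  have hbad : ∀ i, MeasurableSet (S.bad i) := fun i => S.measurableSet_Aset _ _
  have hfr : ∀ t e, Measurable (S.frac t e) := fun t e =>
    (Finset.measurable_sum _ fun i _ => measurable_ind (hbad i)).div_const _
  have h1 : MeasurableSet {y | ∃ e, 27 ≤ e ∧ e ≤ e1 ∧ 1 / 8 ≤ S.frac (max s (e + 1)) e y} := by
    have : {y | ∃ e, 27 ≤ e ∧ e ≤ e1 ∧ 1 / 8 ≤ S.frac (max s (e + 1)) e y} =
        ⋃ e, ⋃ (_ : 27 ≤ e), ⋃ (_ : e ≤ e1), {y | 1 / 8 ≤ S.frac (max s (e + 1)) e y} := by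
      ext y
      simp only [Set.mem_ofPred_eq, Set.mem_iUnion, exists_prop]
    rw [this]
    exact MeasurableSet.iUnion fun e => MeasurableSet.iUnion fun _ => MeasurableSet.iUnion fun _ =>
      measurableSet_le measurable_const (hfr _ _)
  have h2 : MeasurableSet {y | ∃ i, 2 ^ s ≤ i ∧ i ≤ 2 ^ s + 2 ^ 28 + 1 ∧ y ∈ S.bad i} := by
    have : {y | ∃ i, 2 ^ s ≤ i ∧ i ≤ 2 ^ s + 2 ^ 28 + 1 ∧ y ∈ S.bad i} =
        ⋃ i, ⋃ (_ : 2 ^ s ≤ i), ⋃ (_ : i ≤ 2 ^ s + 2 ^ 28 + 1), S.bad i := by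
      ext y
      simp only [Set.mem_ofPred_eq, Set.mem_iUnion, exists_prop]
    rw [this]
    exact MeasurableSet.iUnion fun e => MeasurableSet.iUnion fun _ => MeasurableSet.iUnion fun _ =>
      hbad _
  have h3 : MeasurableSet {y | (S.P (2 ^ s) y : ℝ) ≤ 2 * S.δ * S.N (2 ^ s)} :=
    measurableSet_le (measurable_from_nat.comp (measurable_P S _ (S.measurableSet_Aset _)))
      measurable_const
  exact h1.union (h2.union h3)

theorem measurable_NN (m M : ℕ) : Measurable (S.NN m M) := by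
  exact Finset.measurable_sum _ fun i _ => measurable_const.mul
    ((Finset.measurable_sum _ fun t _ => measurable_ind (S.measurableSet_Aset i t)).div_const _)

theorem measurable_Xi (m M : ℕ) : Measurable (S.Xi m M) := by
  exact Finset.measurable_sum _ fun i _ => measurable_const.mul
    ((Finset.measurable_sum _ fun t _ => (measurable_ind (S.measurableSet_Aset i t)).sub
      ((measurable_ind (S.measurableSet_Aset i t)).comp (measurable_sub_const _))).div_const _)

theorem measurable_Exc (m M : ℕ) : Measurable (S.Exc m M) := by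
  exact Finset.measurable_sum _ fun i _ =>
    (Finset.measurable_sum _ fun t _ => measurable_ind (S.measurableSet_Xset i t)).div_const _

/-- The representative is distributed according to Lebesgue measure. -/
theorem volume_smul_fr_mem_le (m : ℕ) (hm : 0 < m) (A : Set ℝ) (hA : MeasurableSet A) :
    volume {y : TT | fr (m • y) ∈ A} ≤ volume (A ∩ Set.Ico 0 1) := by
  have hB : MeasurableSet (fr ⁻¹' A) := measurable_fr hA
  have h1 : MeasurePreserving (fun y : TT => (m : ℤ) • y) volume volume :=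
    Measure.measurePreserving_zsmul volume (by exact_mod_cast hm.ne')
  have h2 : {y : TT | fr (m • y) ∈ A} = (fun y : TT => (m : ℤ) • y) ⁻¹' (fr ⁻¹' A) := by
    ext y
    simp
  rw [h2, h1.measure_preimage hB.nullMeasurableSet,
    AddCircle.add_projection_respects_measure 1 0 hB]
  have h3 : (QuotientAddGroup.mk ⁻¹' (fr ⁻¹' A) ∩ Set.Ioc (0 : ℝ) (0 + 1)) ⊆
      (A ∩ Set.Ico 0 1) ∪ {1} := by
    rintro x ⟨hx, hx0, hx1⟩
    rcases eq_or_lt_of_le hx1 with h | h
    · right
      simpa using h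
    · left
      have h4 : x < 1 := by simpa using h
      have h5 : fr (x : TT) ∈ A := hx
      rw [fr_coe, Int.fract_eq_self.2 ⟨hx0.le, h4⟩] at h5
      exact ⟨h5, hx0.le, h4⟩
  calc _ ≤ volume ((A ∩ Set.Ico 0 1) ∪ {1}) := measure_mono h3
    _ ≤ volume (A ∩ Set.Ico 0 1) + volume ({1} : Set ℝ) := measure_union_le _ _
    _ = _ := by simp

namespace CovAux

theorem volume_top_le (m : ℕ) (hm : 0 < m) (η : ℝ) :
    volume {y : TT | 1 - fr (m • y) ≤ η} ≤ ENNReal.ofReal η := by
  have h1 := volume_smul_fr_mem_le m hm (Set.Ici (1 - η)) measurableSet_Ici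
  have h2 : {y : TT | 1 - fr (m • y) ≤ η} = {y : TT | fr (m • y) ∈ Set.Ici (1 - η)} := by
    ext y
    simp only [Set.mem_ofPred_eq, Set.mem_Ici]
    constructor <;> intro h <;> linarith
  rw [h2]
  refine h1.trans ((measure_mono (t := Set.Ico (1 - η) 1) ?_).trans (by simp))
  rintro x ⟨hx, -, hx1⟩
  exact ⟨hx, hx1⟩

end CovAux

theorem volume_Zone_le (i : ℕ) : volume (S.Zone i) ≤ ENNReal.ofReal (12 / 4 ^ i) := by
  have hR : (8 : ℝ) ≤ S.R := by
    have h : 8 ≤ S.R := le_trans (by norm_num) S.R_ge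
    exact_mod_cast h
  have h := volume_tail_le (A := S.zone1) (c := 9) (q := 1 / 4) (by norm_num) (by norm_num)
    (by norm_num) (fun j => (volume_top_le _ (S.m_pos j) _).trans (ENNReal.ofReal_le_ofReal ?_)) i
  · refine h.trans (le_of_eq ?_)
    congr 1
    rw [one_div_pow]
    field_simp
    norm_num
  · have h1 : (j : ℝ) + 1 ≤ 2 ^ j := by
      have := Nat.lt_two_pow_self (n := j)
      exact_mod_cast this
    have h2 : (2 : ℝ) ^ j * 4 ^ j ≤ (S.R : ℝ) ^ j := by
      rw [← mul_pow]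
      exact pow_le_pow_left₀ (by norm_num) (by linarith) j
    have h3 := S.th_hi j
    have h4 : (0 : ℝ) < (S.R : ℝ) ^ j := by positivity
    calc 3 * ((j : ℝ) + 1) * S.th j ≤ 3 * 2 ^ j * (3 / (S.R : ℝ) ^ j) := by
          have := (S.th_pos j).le
          gcongr
      _ ≤ 3 * 2 ^ j * (3 / (2 ^ j * 4 ^ j)) := by gcongr
      _ = 9 * (1 / 4) ^ j := by
          rw [one_div_pow]
          field_simp
          norm_num

namespace CovAux

theorem volume_Wall_le' (i : ℕ) : volume (S.Wall i) ≤ ENNReal.ofReal (6 / (S.R : ℝ) ^ i) := by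
  have hR := S.two_le_R
  have hq : 1 / (S.R : ℝ) ≤ 1 / 2 := one_div_le_one_div_of_le (by norm_num) hR
  have h := volume_tail_le (A := S.wall1) (c := 3) (q := 1 / (S.R : ℝ)) (by norm_num)
    (by positivity) (by linarith)
    (fun j => (volume_top_le _ (S.m_pos j) _).trans (ENNReal.ofReal_le_ofReal ?_)) i
  · refine h.trans (ENNReal.ofReal_le_ofReal ?_)
    rw [div_le_iff₀ (by linarith), one_div_pow]
    have h1 : (0 : ℝ) ≤ 1 / (S.R : ℝ) ^ i := by positivity
    have h2 : 6 / (S.R : ℝ) ^ i = 6 * (1 / (S.R : ℝ) ^ i) := by ring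
    rw [h2]
    nlinarith
  · rw [one_div_pow, mul_one_div]
    exact S.th_hi j

end CovAux

theorem volume_Aset_le (i t : ℕ) :
    volume (S.Aset i t) ≤ ENNReal.ofReal (t * (6 / (S.R : ℝ) ^ i)) := by
  have h1 : S.Aset i t ⊆ ⋃ l ∈ range t, (fun y => y + l • (θ : TT)) ⁻¹' S.Wall i := by
    rintro y ⟨l, hl, hy⟩
    exact Set.mem_biUnion (Finset.mem_coe.2 (mem_range.2 hl)) hy
  refine (measure_mono h1).trans ((measure_biUnion_finset_le _ _).trans ?_)
  refine (Finset.sum_le_card_nsmul _ _ (ENNReal.ofReal (6 / (S.R : ℝ) ^ i)) fun l _ => ?_).trans ?_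
  · rw [measure_preimage_add_right]
    exact volume_Wall_le' S i
  · rw [card_range, ENNReal.ofReal_mul (Nat.cast_nonneg _), ENNReal.ofReal_natCast, nsmul_eq_mul]

theorem volume_Wall_le (i : ℕ) : volume (S.Wall i) ≤ ENNReal.ofReal (6 / (S.R : ℝ) ^ i) := by
  exact volume_Wall_le' S i

/-- `F` only depends on the walls of class `≥ i` within distance `3 R ^ i`. -/
def Local (i : ℕ) (F : TT → ℝ) : Prop :=
  ∀ y y' : TT, (∀ l : ℤ, |(l : ℝ)| ≤ 3 * (S.R : ℝ) ^ i →
    (y + l • (θ : TT) ∈ S.Wall i ↔ y' + l • (θ : TT) ∈ S.Wall i)) → F y = F y'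

namespace CovAux

theorem integrable_of_bound {F : TT → ℝ} (hF : Measurable F) {c : ℝ} (hb : ∀ y, |F y| ≤ c) :
    Integrable F :=
  Integrable.of_bound hF.aestronglyMeasurable c (Filter.Eventually.of_forall hb)

theorem abs_mul_le_one {a b : ℝ} (ha : |a| ≤ 1) (hb : |b| ≤ 1) : |a * b| ≤ 1 := by
  rw [abs_mul]
  exact mul_le_one₀ ha (abs_nonneg _) hb

/-- Torsion points of order `m i` preserve the walls of class `≥ i`. -/
theorem Local_add {i : ℕ} {F : TT → ℝ} (hl : S.Local i F) {z : TT} (hz : S.m i • z = 0) (y : TT) :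
    F (y + z) = F y := by
  refine hl _ _ fun l _ => ?_
  have key : ∀ j, i ≤ j → (y + z + l • (θ : TT) ∈ S.wall1 j ↔ y + l • (θ : TT) ∈ S.wall1 j) := by
    intro j hj
    obtain ⟨k, hk⟩ := S.m_dvd_of_le hj
    have h1 : S.m j • z = 0 := by rw [hk, mul_comm, mul_nsmul', hz, nsmul_zero]
    have h2 : S.m j • (y + z + l • (θ : TT)) = S.m j • (y + l • (θ : TT)) := by
      rw [add_right_comm, smul_add, h1, add_zero]
    simp only [wall1, Set.mem_ofPred_eq, h2]
  constructor
  · rintro ⟨j, hj, hy⟩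
    exact ⟨j, hj, (key j hj).1 hy⟩
  · rintro ⟨j, hj, hy⟩
    exact ⟨j, hj, (key j hj).2 hy⟩

/-- A small shift rarely changes the class `j` wall status. -/
theorem volume_diff_wall1 (j : ℕ) {η : ℝ} (hη : 0 ≤ η) :
    volume {y : TT | ¬ (y + (η : TT) ∈ S.wall1 j ↔ y ∈ S.wall1 j)} ≤
      ENNReal.ofReal (2 * (S.m j * η)) := by
  set ε : ℝ := S.m j * η with hε
  have hε0 : 0 ≤ ε := by positivity
  have h1 : {y : TT | ¬ (y + (η : TT) ∈ S.wall1 j ↔ y ∈ S.wall1 j)} ⊆
      {y : TT | 1 - fr (S.m j • y) ≤ ε} ∪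
        {y : TT | fr (S.m j • y) ∈ Set.Ico (1 - S.th j - ε) (1 - S.th j)} := by
    intro y hy
    by_cases h : 1 - fr (S.m j • y) ≤ ε
    · exact Or.inl h
    right
    have h2 : fr (S.m j • (y + (η : TT))) = fr (S.m j • y) + ε := by
      have h0 := fr_nonneg (S.m j • y)
      rw [smul_add, ← AddCircle.coe_nsmul, nsmul_eq_mul, fr_add_coe _ _ (by linarith) (by linarith)]
    simp only [wall1, Set.mem_ofPred_eq, h2] at hy
    simp only [Set.mem_ofPred_eq, Set.mem_Ico]
    by_cases h3 : 1 - fr (S.m j • y) ≤ S.th j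
    · exact absurd ⟨fun _ => h3, fun _ => by linarith⟩ hy
    · by_cases h4 : 1 - (fr (S.m j • y) + ε) ≤ S.th j
      · constructor <;> linarith
      · exact absurd ⟨fun h => absurd h h4, fun h => absurd h h3⟩ hy
  have h2 := volume_smul_fr_mem_le _ (S.m_pos j) (Set.Ico (1 - S.th j - ε) (1 - S.th j))
    measurableSet_Ico
  have h3 : volume (Set.Ico (1 - S.th j - ε) (1 - S.th j) ∩ Set.Ico 0 1) ≤ ENNReal.ofReal ε :=
    (measure_mono Set.inter_subset_left).trans (by simp)
  calc _ ≤ _ := measure_mono h1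
    _ ≤ _ := measure_union_le _ _
    _ ≤ ENNReal.ofReal ε + ENNReal.ofReal ε :=
        add_le_add (volume_top_le _ (S.m_pos j) _) (h2.trans h3)
    _ = _ := by rw [← ENNReal.ofReal_add hε0 hε0, two_mul]

theorem volume_diff_Wall (i i' : ℕ) {η : ℝ} (hη : 0 ≤ η) (hη' : S.m i' * η ≤ 1) :
    volume {y : TT | ¬ (y + (η : TT) ∈ S.Wall i ↔ y ∈ S.Wall i)} ≤
      ENNReal.ofReal (14 / (S.R : ℝ) ^ i') := by
  have hR := S.two_le_R
  have h1 : {y : TT | ¬ (y + (η : TT) ∈ S.Wall i ↔ y ∈ S.Wall i)} ⊆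
      (S.Wall i' ∪ (fun y => y + (η : TT)) ⁻¹' S.Wall i') ∪
        ⋃ j ∈ range i', {y : TT | ¬ (y + (η : TT) ∈ S.wall1 j ↔ y ∈ S.wall1 j)} := by
    intro y hy
    by_contra hc
    simp only [Set.mem_union, Set.mem_preimage, Set.mem_iUnion, Set.mem_ofPred_eq, not_or,
      not_exists, not_not, mem_range] at hc
    obtain ⟨⟨hc1, hc2⟩, hc3⟩ := hc
    refine hy ⟨?_, ?_⟩
    · rintro ⟨j, hj, hy⟩
      by_cases hj' : j < i'
      · exact ⟨j, hj, (hc3 j hj').1 hy⟩
      · exact absurd ⟨j, by omega, hy⟩ hc2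
    · rintro ⟨j, hj, hy⟩
      by_cases hj' : j < i'
      · exact ⟨j, hj, (hc3 j hj').2 hy⟩
      · exact absurd ⟨j, by omega, hy⟩ hc1
  have h2 : volume (S.Wall i' ∪ (fun y => y + (η : TT)) ⁻¹' S.Wall i') ≤
      ENNReal.ofReal (6 / (S.R : ℝ) ^ i') + ENNReal.ofReal (6 / (S.R : ℝ) ^ i') := by
    refine (measure_union_le _ _).trans (add_le_add (S.volume_Wall_le i') ?_)
    rw [measure_preimage_add_right]
    exact S.volume_Wall_le i'
  have h3 : volume (⋃ j ∈ range i', {y : TT | ¬ (y + (η : TT) ∈ S.wall1 j ↔ y ∈ S.wall1 j)}) ≤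
      ENNReal.ofReal (2 / (S.R : ℝ) ^ i') := by
    refine (measure_biUnion_finset_le _ _).trans
      ((Finset.sum_le_sum fun j _ => volume_diff_wall1 S j hη).trans ?_)
    rw [← ENNReal.ofReal_sum_of_nonneg fun j _ => by positivity]
    refine ENNReal.ofReal_le_ofReal ?_
    have h4 : (S.R : ℝ) ^ i' * 2 ^ i' * ∑ j ∈ range i', (S.m j : ℝ) ≤ S.m i' := by
      exact_mod_cast S.m_grow i'
    have h5 : (0 : ℝ) ≤ ∑ j ∈ range i', (S.m j : ℝ) := Finset.sum_nonneg fun _ _ => by positivity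
    have h6 : (1 : ℝ) ≤ 2 ^ i' := one_le_pow₀ (by norm_num)
    have h7 : (0 : ℝ) < (S.R : ℝ) ^ i' := by positivity
    rw [← Finset.mul_sum, ← Finset.sum_mul, le_div_iff₀ h7]
    have h8 : (S.R : ℝ) ^ i' * ∑ j ∈ range i', (S.m j : ℝ) ≤ S.m i' := by
      refine le_trans ?_ h4
      rw [mul_assoc]
      exact mul_le_mul_of_nonneg_left (le_mul_of_one_le_left h5 h6) h7.le
    have h9 := mul_le_mul_of_nonneg_right h8 hη
    nlinarith
  calc _ ≤ _ := measure_mono h1
    _ ≤ _ := measure_union_le _ _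
    _ ≤ _ := add_le_add h2 h3
    _ = _ := by
      rw [← ENNReal.ofReal_add (by positivity) (by positivity),
        ← ENNReal.ofReal_add (by positivity) (by positivity)]
      congr 1
      ring

theorem volume_ne_le {i i' : ℕ} (h : i ≤ i') {F : TT → ℝ} (hl : S.Local i F) {η : ℝ} (hη : 0 ≤ η)
    (hη' : S.m i' * η ≤ 1) :
    volume {y : TT | F (y + (η : TT)) ≠ F y} ≤ ENNReal.ofReal (98 / (S.R : ℝ) ^ (i' - i)) := by
  have hR := S.two_le_R
  set L : ℕ := 3 * S.R ^ i with hL
  have h1 : {y : TT | F (y + (η : TT)) ≠ F y} ⊆ ⋃ l ∈ Icc (-(L : ℤ)) L,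
      (fun y => y + l • (θ : TT)) ⁻¹' {y : TT | ¬ (y + (η : TT) ∈ S.Wall i ↔ y ∈ S.Wall i)} := by
    intro y hy
    by_contra hc
    simp only [Set.mem_iUnion, Set.mem_preimage, Set.mem_ofPred_eq, not_exists, not_not,
      mem_Icc] at hc
    refine hy (hl _ _ fun l hl' => ?_)
    have h2 : |l| ≤ L := by
      have : ((|l| : ℤ) : ℝ) ≤ ((L : ℤ) : ℝ) := by
        push_cast [hL]
        exact hl'
      exact_mod_cast this
    rw [add_right_comm]
    exact hc l (abs_le.1 h2)
  refine (measure_mono h1).trans ((measure_biUnion_finset_le _ _).trans ?_)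
  refine (Finset.sum_le_card_nsmul _ _ (ENNReal.ofReal (14 / (S.R : ℝ) ^ i')) fun l _ => ?_).trans ?_
  · rw [measure_preimage_add_right]
    exact volume_diff_Wall S i i' hη hη'
  · have h2 : (Icc (-(L : ℤ)) L).card = 2 * L + 1 := by
      rw [Int.card_Icc]
      omega
    rw [h2, nsmul_eq_mul, ← ENNReal.ofReal_natCast, ← ENNReal.ofReal_mul (Nat.cast_nonneg _)]
    refine ENNReal.ofReal_le_ofReal ?_
    obtain ⟨d, rfl⟩ := Nat.exists_eq_add_of_le h
    have h3 : (1 : ℝ) ≤ (S.R : ℝ) ^ i := one_le_pow₀ (by linarith)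
    have h4 : (0 : ℝ) < (S.R : ℝ) ^ d := by positivity
    rw [Nat.add_sub_cancel_left, pow_add, hL, mul_div_assoc', div_le_div_iff₀ (by positivity) h4]
    push_cast
    nlinarith

theorem abs_shift_le {i i' : ℕ} (h : i ≤ i') {F F' : TT → ℝ} (hF : Measurable F)
    (hF' : Measurable F') (hb : ∀ y, |F y| ≤ 1) (hb' : ∀ y, |F' y| ≤ 1)
    (hl : S.Local i F) (hl' : S.Local i' F') (z : TT) :
    |(∫ y, F y * F' y) - ∫ y, F (y + z) * F' y| ≤ 200 / 2 ^ (i' - i) := by
  have hR := S.two_le_R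
  have hm : (0 : ℝ) < S.m i' := by exact_mod_cast S.m_pos i'
  set η : ℝ := Int.fract (S.m i' * fr z) / S.m i' with hη
  have hη0 : 0 ≤ η := div_nonneg (Int.fract_nonneg _) hm.le
  have hη1 : S.m i' * η = Int.fract (S.m i' * fr z) := by
    rw [hη]
    field_simp
  have hz : S.m i' • ((η : TT) - z) = 0 := by
    conv_lhs => rw [← coe_fr z, ← AddCircle.coe_sub, ← AddCircle.coe_nsmul, nsmul_eq_mul, mul_sub,
      hη1, Int.fract, sub_sub_cancel_left]
    rw [AddCircle.coe_eq_zero_iff]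
    exact ⟨-⌊(S.m i' : ℝ) * fr z⌋, by simp⟩
  have h1 : ∫ y, F (y + z) * F' y = ∫ y, F (y + (η : TT)) * F' y := by
    rw [← integral_add_right_eq_self _ ((η : TT) - z)]
    congr 1
    ext y
    rw [Local_add S hl' hz]
    congr 2
    abel
  have hFη : Measurable fun y => F (y + (η : TT)) := hF.comp (measurable_add_const _)
  have hi1 : Integrable fun y => F y * F' y :=
    integrable_of_bound (hF.mul hF') fun y => abs_mul_le_one (hb _) (hb' _)
  have hi2 : Integrable fun y => F (y + (η : TT)) * F' y :=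
    integrable_of_bound (hFη.mul hF') fun y => abs_mul_le_one (hb _) (hb' _)
  rw [h1, ← integral_sub hi1 hi2]
  have hB : MeasurableSet {y : TT | F (y + (η : TT)) ≠ F y} :=
    (measurableSet_eq_fun hFη hF).compl
  rw [← setIntegral_eq_integral_of_forall_compl_eq_zero (s := {y : TT | F (y + (η : TT)) ≠ F y})
    fun y hy => by
      have : F (y + (η : TT)) = F y := by simpa using hy
      rw [this, sub_self]]
  have h2 := norm_setIntegral_le_of_norm_le_const (μ := (volume : Measure TT))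
    (s := {y : TT | F (y + (η : TT)) ≠ F y})
    (f := fun y => F y * F' y - F (y + (η : TT)) * F' y) (C := 2) (measure_lt_top _ _)
    fun y _ => by
      have := abs_mul_le_one (hb y) (hb' y)
      have := abs_mul_le_one (hb (y + (η : TT))) (hb' y)
      rw [Real.norm_eq_abs]
      linarith [abs_sub (F y * F' y) (F (y + (η : TT)) * F' y)]
  have h3 : volume.real {y : TT | F (y + (η : TT)) ≠ F y} ≤ 98 / (S.R : ℝ) ^ (i' - i) :=
    ENNReal.toReal_le_of_le_ofReal (by positivity)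
      (volume_ne_le S h hl hη0 (hη1 ▸ (Int.fract_lt_one _).le))
  have h4 : 98 / (S.R : ℝ) ^ (i' - i) ≤ 100 / 2 ^ (i' - i) := by
    gcongr
    norm_num
  rw [Real.norm_eq_abs] at h2
  have h5 : (200 : ℝ) / 2 ^ (i' - i) = 2 * (100 / 2 ^ (i' - i)) := by ring
  linarith

theorem integral_shift {F F' : TT → ℝ} (hF : Measurable F)
    (hF' : Measurable F') (hb : ∀ y, |F y| ≤ 1) (hb' : ∀ y, |F' y| ≤ 1) :
    Integrable (fun z => ∫ y, F (y + z) * F' y) ∧
      ∫ z, ∫ y, F (y + z) * F' y = (∫ y, F y) * ∫ y, F' y := by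
  have h1 : Integrable (Function.uncurry fun z y : TT => F (y + z) * F' y)
      ((volume : Measure TT).prod volume) := by
    refine Integrable.of_bound (C := 1) (Measurable.aestronglyMeasurable ?_)
      (Filter.Eventually.of_forall fun p => abs_mul_le_one (hb _) (hb' _))
    exact (hF.comp (measurable_snd.add measurable_fst)).mul (hF'.comp measurable_snd)
  refine ⟨h1.integral_prod_left, ?_⟩
  rw [integral_integral_swap h1, ← integral_const_mul]
  congr 1
  ext y
  rw [integral_mul_const, integral_add_left_eq_self]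

theorem sum_geom_le (I : Finset ℕ) (i : ℕ) :
    ∑ j ∈ I, (1 / 2 : ℝ) ^ (i - j + (j - i)) ≤ 3 := by
  have key : ∀ (J : Finset ℕ) (f : ℕ → ℕ), Set.InjOn f J → ∑ j ∈ J, (1 / 2 : ℝ) ^ f j ≤ 2 := by
    intro J f hf
    rw [← Finset.sum_image (f := fun k => (1 / 2 : ℝ) ^ k) hf]
    exact sum_le_hasSum _ (fun _ _ => by positivity) hasSum_geometric_two
  rw [← Finset.sum_filter_add_sum_filter_not I (fun j => i ≤ j)]
  have h1 := key (I.filter fun j => i ≤ j) (fun j => i - j + (j - i)) fun a ha b hb hab => by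
    simp only [coe_filter, Set.mem_ofPred_eq] at ha hb hab
    omega
  have h2 := key (I.filter fun j => ¬ i ≤ j) (fun j => i - j - 1) fun a ha b hb hab => by
    simp only [coe_filter, Set.mem_ofPred_eq] at ha hb hab
    omega
  have h3 : ∑ j ∈ I.filter (fun j => ¬ i ≤ j), (1 / 2 : ℝ) ^ (i - j + (j - i)) =
      1 / 2 * ∑ j ∈ I.filter (fun j => ¬ i ≤ j), (1 / 2 : ℝ) ^ (i - j - 1) := by
    rw [Finset.mul_sum]
    refine Finset.sum_congr rfl fun j hj => ?_
    have hj' := (mem_filter.1 hj).2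
    rw [← pow_succ']
    congr 1
    omega
  linarith

end CovAux

/-- Decay of correlations between classes. -/
theorem abs_cov_le {i i' : ℕ} (h : i ≤ i') (F F' : TT → ℝ) (hF : Measurable F)
    (hF' : Measurable F') (hb : ∀ y, |F y| ≤ 1) (hb' : ∀ y, |F' y| ≤ 1)
    (hl : S.Local i F) (hl' : S.Local i' F') :
    |∫ y, F y * F' y - (∫ y, F y) * ∫ y, F' y| ≤ 200 / 2 ^ (i' - i) := by
  obtain ⟨h1, h2⟩ := integral_shift hF hF' hb hb'
  have hi1 : Integrable fun y => F y * F' y :=
    integrable_of_bound (hF.mul hF') fun y => abs_mul_le_one (hb _) (hb' _)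
  have h3 : ∫ y, F y * F' y - (∫ y, F y) * ∫ y, F' y =
      ∫ z : TT, ((∫ y, F y * F' y) - ∫ y, F (y + z) * F' y) := by
    rw [integral_sub (integrable_const _) h1, h2, integral_sub hi1 (integrable_const _)]
    simp
  rw [h3]
  have h4 := norm_integral_le_of_norm_le_const (μ := (volume : Measure TT))
    (f := fun z : TT => (∫ y, F y * F' y) - ∫ y, F (y + z) * F' y) (C := 200 / 2 ^ (i' - i))
    (Filter.Eventually.of_forall fun z => abs_shift_le S h hF hF' hb hb' hl hl' z)
  simpa using h4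

/-- Variance bound for weighted sums of local functions. -/
theorem integral_sq_le (I : Finset ℕ) (ω : ℕ → ℝ) (F : ℕ → TT → ℝ) (hF : ∀ i ∈ I, Measurable (F i))
    (hb : ∀ i ∈ I, ∀ y, |F i y| ≤ 1) (hl : ∀ i ∈ I, S.Local i (F i)) :
    ∫ y, (∑ i ∈ I, ω i * F i y - ∑ i ∈ I, ω i * ∫ z, F i z) ^ 2 ≤ 600 * ∑ i ∈ I, ω i ^ 2 := by
  have hint : ∀ i ∈ I, Integrable (F i) := fun i hi => integrable_of_bound (hF i hi) (hb i hi)
  have hint2 : ∀ i ∈ I, ∀ j ∈ I, Integrable fun y => F i y * F j y := fun i hi j hj =>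
    integrable_of_bound ((hF i hi).mul (hF j hj)) fun y => abs_mul_le_one (hb i hi _) (hb j hj _)
  have hint3 : ∀ i ∈ I, ∀ j ∈ I, Integrable fun y =>
      F i y * F j y - (∫ z, F j z) * F i y - (∫ z, F i z) * F j y + (∫ z, F i z) * ∫ z, F j z :=
    fun i hi j hj => (((hint2 i hi j hj).sub ((hint i hi).const_mul _)).sub
      ((hint j hj).const_mul _)).add (integrable_const _)
  have h1 : ∀ y, (∑ i ∈ I, ω i * F i y - ∑ i ∈ I, ω i * ∫ z, F i z) ^ 2 =
      ∑ i ∈ I, ∑ j ∈ I, ω i * ω j * (F i y * F j y - (∫ z, F j z) * F i y - (∫ z, F i z) * F j y +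
        (∫ z, F i z) * ∫ z, F j z) := by
    intro y
    rw [← Finset.sum_sub_distrib, sq, Finset.sum_mul_sum]
    refine Finset.sum_congr rfl fun i _ => Finset.sum_congr rfl fun j _ => ?_
    ring
  have h2 : ∀ i ∈ I, ∀ j ∈ I, ∫ y, (F i y * F j y - (∫ z, F j z) * F i y - (∫ z, F i z) * F j y +
      (∫ z, F i z) * ∫ z, F j z) = ∫ y, F i y * F j y - (∫ z, F i z) * ∫ z, F j z := by
    intro i hi j hj
    have e1 : Integrable fun y => F i y * F j y - (∫ z, F j z) * F i y :=
      (hint2 i hi j hj).sub ((hint i hi).const_mul _)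
    have e2 : Integrable fun y => F i y * F j y - (∫ z, F j z) * F i y - (∫ z, F i z) * F j y :=
      e1.sub ((hint j hj).const_mul _)
    rw [integral_add e2 (integrable_const _), integral_sub e1 ((hint j hj).const_mul _),
      integral_sub (hint2 i hi j hj) ((hint i hi).const_mul _),
      integral_sub (hint2 i hi j hj) (integrable_const _), integral_const_mul, integral_const_mul]
    simp only [integral_const, probReal_univ, smul_eq_mul, one_mul]
    ring
  have h3 : ∀ i ∈ I, ∀ j ∈ I, |∫ y, F i y * F j y - (∫ z, F i z) * ∫ z, F j z| ≤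
      200 * (1 / 2 : ℝ) ^ (i - j + (j - i)) := by
    intro i hi j hj
    rw [one_div_pow, mul_one_div]
    rcases le_total i j with h | h
    · rw [Nat.sub_eq_zero_of_le h, zero_add]
      exact S.abs_cov_le h _ _ (hF i hi) (hF j hj) (hb i hi) (hb j hj) (hl i hi) (hl j hj)
    · rw [Nat.sub_eq_zero_of_le h, add_zero, mul_comm (∫ z, F i z)]
      simp_rw [mul_comm (F i _)]
      exact S.abs_cov_le h _ _ (hF j hj) (hF i hi) (hb j hj) (hb i hi) (hl j hj) (hl i hi)
  simp_rw [h1]
  rw [integral_finsetSum _ fun i hi => integrable_finsetSum _ fun j hj =>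
    (hint3 i hi j hj).const_mul _]
  have h4 : ∀ i ∈ I, ∫ y, ∑ j ∈ I, ω i * ω j * (F i y * F j y - (∫ z, F j z) * F i y -
      (∫ z, F i z) * F j y + (∫ z, F i z) * ∫ z, F j z) ≤
      ∑ j ∈ I, (100 * ω i ^ 2 * (1 / 2 : ℝ) ^ (i - j + (j - i)) +
        100 * ω j ^ 2 * (1 / 2 : ℝ) ^ (j - i + (i - j))) := by
    intro i hi
    rw [integral_finsetSum _ fun j hj => (hint3 i hi j hj).const_mul _]
    refine Finset.sum_le_sum fun j hj => ?_
    rw [integral_const_mul, h2 i hi j hj, add_comm (j - i)]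
    have h5 := h3 i hi j hj
    have h6 : |ω i * ω j| ≤ (ω i ^ 2 + ω j ^ 2) / 2 := by
      rw [abs_le]
      constructor <;> nlinarith [sq_nonneg (ω i + ω j), sq_nonneg (ω i - ω j)]
    refine (le_abs_self _).trans ?_
    rw [abs_mul]
    refine (mul_le_mul h6 h5 (abs_nonneg _) (by positivity)).trans (le_of_eq ?_)
    ring
  refine (Finset.sum_le_sum h4).trans ?_
  simp_rw [Finset.sum_add_distrib]
  rw [Finset.sum_comm (f := fun i j => 100 * ω j ^ 2 * (1 / 2 : ℝ) ^ (j - i + (i - j))),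
    ← Finset.sum_add_distrib, Finset.mul_sum]
  refine Finset.sum_le_sum fun i _ => ?_
  rw [← Finset.mul_sum]
  have h5 := sum_geom_le I i
  nlinarith [sq_nonneg (ω i)]

end Seq

end Crest.Agent.R113
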