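import Crest.Agent.R113.Cov

/-! Row 113, S0149: integral bounds for the error functionals. -/

set_option autoImplicit false

noncomputable section

namespace Crest.Agent.R113

open Finset MeasureTheory

namespace CovB

theorem measurable_ind {A : Set TT} (hA : MeasurableSet A) : Measurable (ind A) :=
  measurable_one.indicator hA

theorem abs_ind_le (A : Set TT) (y : TT) : |ind A y| ≤ 1 := by
  rw [abs_of_nonneg (ind_nonneg A y)]
  exact ind_le_one A y

theorem integrable_of_bd {F : TT → ℝ} (hF : Measurable F) (C : ℝ) (hb : ∀ y, |F y| ≤ C) :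
    Integrable F :=
  Integrable.of_bound hF.aestronglyMeasurable C (Filter.Eventually.of_forall hb)

theorem integrable_ind {A : Set TT} (hA : MeasurableSet A) : Integrable (ind A) :=
  integrable_of_bd (measurable_ind hA) 1 (abs_ind_le A)

theorem integral_ind {A : Set TT} (hA : MeasurableSet A) : ∫ y, ind A y = volume.real A := by
  unfold ind
  exact integral_indicator_one hA

theorem ind_congr {A B : Set TT} {y y' : TT} (h : y ∈ A ↔ y' ∈ B) : ind A y = ind B y' := by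
  by_cases hy : y ∈ A
  · rw [ind_of_mem hy, ind_of_mem (h.1 hy)]
  · rw [ind_of_notMem hy, ind_of_notMem fun h' => hy (h.2 h')]

theorem real_le_of_le {A : Set TT} {c : ℝ} (hc : 0 ≤ c) (h : volume A ≤ ENNReal.ofReal c) :
    volume.real A ≤ c :=
  ENNReal.toReal_le_of_le_ofReal hc h

theorem le_of_real_le {A : Set TT} {c : ℝ} (h : volume.real A ≤ c) :
    volume A ≤ ENNReal.ofReal c := by
  rw [← ofReal_measureReal (measure_ne_top _ _)]
  exact ENNReal.ofReal_le_ofReal h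

theorem real_shift (A : Set TT) (a : TT) : volume.real {y | y + a ∈ A} = volume.real A := by
  unfold Measure.real
  congr 1
  exact measure_preimage_add_right volume a A

theorem integrable_sq (I : Finset ℕ) (ω : ℕ → ℝ) (F : ℕ → TT → ℝ)
    (hF : ∀ i ∈ I, Measurable (F i)) (hb : ∀ i ∈ I, ∀ y, |F i y| ≤ 1) (c : ℝ) :
    Integrable fun y => (∑ i ∈ I, ω i * F i y - c) ^ 2 := by
  refine integrable_of_bd ?_ ((∑ i ∈ I, |ω i| + |c|) ^ 2) fun y => ?_
  · exact ((Finset.measurable_sum _ fun i hi => (hF i hi).const_mul _).sub_const _).pow_const _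
  · rw [abs_pow]
    refine pow_le_pow_left₀ (abs_nonneg _) ((abs_sub _ _).trans (add_le_add_left ?_ _)) 2
    refine (Finset.abs_sum_le_sum_abs _ _).trans (Finset.sum_le_sum fun i hi => ?_)
    rw [abs_mul]
    exact mul_le_of_le_one_right (abs_nonneg _) (hb i hi y)

theorem geom_le (a b : ℕ) (q : ℝ) (hq : 2 ≤ q) : ∑ i ∈ Icc a b, 1 / q ^ i ≤ 2 / q ^ a := by
  have hq0 : 0 < q := by linarith
  have key : ∀ n : ℕ, ∑ i ∈ Ico a (a + n), 1 / q ^ i + 2 / q ^ (a + n) ≤ 2 / q ^ a := by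
    intro n
    induction n with
    | zero => simp
    | succ n ih =>
      rw [← add_assoc, Finset.sum_Ico_succ_top (Nat.le_add_right a n)]
      have h1 : 2 / q ^ (a + n + 1) ≤ 1 / q ^ (a + n) := by
        rw [pow_succ, div_le_div_iff₀ (by positivity) (by positivity)]
        have : 0 < q ^ (a + n) := by positivity
        nlinarith
      have h2 : 2 / q ^ (a + n) = 1 / q ^ (a + n) + 1 / q ^ (a + n) := by ring
      linarith
  have h1 : Icc a b ⊆ Ico a (a + (b + 1)) := by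
    intro i hi
    rw [Finset.mem_Icc] at hi
    rw [Finset.mem_Ico]
    omega
  have h2 := Finset.sum_le_sum_of_subset_of_nonneg (f := fun i => 1 / q ^ i) h1
    fun i _ _ => by positivity
  have h3 := key (b + 1)
  have h4 : 0 ≤ 2 / q ^ (a + (b + 1)) := by positivity
  linarith

variable {θ : ℝ} (S : Seq θ)

theorem Aset_shift_iff (i t : ℕ) (k : ℤ) (y y' : TT)
    (h : ∀ l : ℤ, |(l : ℝ)| ≤ 3 * (S.R : ℝ) ^ i →
      (y + l • (θ : TT) ∈ S.Wall i ↔ y' + l • (θ : TT) ∈ S.Wall i))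
    (hk : ∀ l : ℕ, l < t → |((k + l : ℤ) : ℝ)| ≤ 3 * (S.R : ℝ) ^ i) :
    y + k • (θ : TT) ∈ S.Aset i t ↔ y' + k • (θ : TT) ∈ S.Aset i t := by
  have e : ∀ (z : TT) (l : ℕ), z + k • (θ : TT) + l • (θ : TT) = z + (k + l : ℤ) • (θ : TT) := by
    intro z l
    rw [add_zsmul, natCast_zsmul, add_assoc]
  refine exists_congr fun l => and_congr_right fun hl => ?_
  rw [e, e]
  exact h _ (hk l hl)

theorem Aset_iff (i t : ℕ) (ht : (t : ℝ) ≤ 3 * (S.R : ℝ) ^ i) (y y' : TT)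
    (h : ∀ l : ℤ, |(l : ℝ)| ≤ 3 * (S.R : ℝ) ^ i →
      (y + l • (θ : TT) ∈ S.Wall i ↔ y' + l • (θ : TT) ∈ S.Wall i)) :
    y ∈ S.Aset i t ↔ y' ∈ S.Aset i t := by
  have := Aset_shift_iff S i t 0 y y' h fun l hl => by
    have h1 : (l : ℝ) ≤ t := by exact_mod_cast hl.le
    rw [zero_add, Int.cast_natCast, Nat.abs_cast]
    linarith
  simpa using this

theorem Aset_sub_iff (i t : ℕ) (ht : (t : ℝ) ≤ 3 * (S.R : ℝ) ^ i) (y y' : TT)
    (h : ∀ l : ℤ, |(l : ℝ)| ≤ 3 * (S.R : ℝ) ^ i →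
      (y + l • (θ : TT) ∈ S.Wall i ↔ y' + l • (θ : TT) ∈ S.Wall i)) :
    y - t • (θ : TT) ∈ S.Aset i t ↔ y' - t • (θ : TT) ∈ S.Aset i t := by
  have := Aset_shift_iff S i t (-(t : ℤ)) y y' h fun l hl => by
    have h1 : (l : ℝ) ≤ t := by exact_mod_cast hl.le
    have h2 : (0 : ℝ) ≤ l := Nat.cast_nonneg _
    push_cast
    rw [abs_le]
    constructor <;> linarith
  simpa [sub_eq_add_neg] using this

theorem le_of_mem_Icc {i t : ℕ} (ht : t ∈ Icc 1 (S.N i)) : (t : ℝ) ≤ 3 * (S.R : ℝ) ^ i := by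
  have h1 : (t : ℝ) ≤ S.N i := by exact_mod_cast (Finset.mem_Icc.1 ht).2
  exact h1.trans (S.N_le i)

theorem local_NN1 (i : ℕ) : S.Local i (S.NN1 i) := by
  intro y y' h
  unfold Seq.NN1
  congr 1
  exact Finset.sum_congr rfl fun t ht => ind_congr (Aset_iff S i t (le_of_mem_Icc S ht) y y' h)

theorem local_Xi1 (i : ℕ) : S.Local i (S.Xi1 i) := by
  intro y y' h
  unfold Seq.Xi1
  congr 1
  refine Finset.sum_congr rfl fun t ht => ?_
  rw [ind_congr (Aset_iff S i t (le_of_mem_Icc S ht) y y' h),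
    ind_congr (Aset_sub_iff S i t (le_of_mem_Icc S ht) y y' h)]

theorem measurable_NN1 (i : ℕ) : Measurable (S.NN1 i) := by
  unfold Seq.NN1
  exact (Finset.measurable_sum _ fun t _ => measurable_ind (S.measurableSet_Aset i t)).div_const _

theorem measurable_Xi1 (i : ℕ) : Measurable (S.Xi1 i) := by
  unfold Seq.Xi1
  exact (Finset.measurable_sum _ fun t _ => (measurable_ind (S.measurableSet_Aset i t)).sub
    ((measurable_ind (S.measurableSet_Aset i t)).comp (measurable_id.sub_const _))).div_const _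

theorem abs_NN1_le (i : ℕ) (y : TT) : |S.NN1 i y| ≤ 1 := by
  have hN : (0 : ℝ) < S.N i := by exact_mod_cast S.N_pos i
  rw [Seq.NN1, abs_div, abs_of_pos hN, div_le_one hN]
  exact (Finset.abs_sum_le_sum_abs _ _).trans
    ((Finset.sum_le_card_nsmul _ _ 1 fun t _ => abs_ind_le _ _).trans (by simp))

theorem integral_Xi1 (i : ℕ) : ∫ y, S.Xi1 i y = 0 := by
  unfold Seq.Xi1
  rw [integral_div, integral_finsetSum, Finset.sum_eq_zero, zero_div]
  · intro t _
    rw [integral_sub (integrable_ind (S.measurableSet_Aset i t))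
      ((integrable_ind (S.measurableSet_Aset i t)).comp_sub_right _),
      integral_sub_right_eq_self, sub_self]
  · intro t _
    exact (integrable_ind (S.measurableSet_Aset i t)).sub
      ((integrable_ind (S.measurableSet_Aset i t)).comp_sub_right _)

theorem lintegral_sq_le (m M : ℕ) (F : ℕ → TT → ℝ) (hF : ∀ i, Measurable (F i))
    (hb : ∀ i y, |F i y| ≤ 1) (hl : ∀ i, S.Local i (F i)) :
    ∫⁻ y, ENNReal.ofReal ((∑ i ∈ Icc m M, Seq.om m i * F i y -
      ∑ i ∈ Icc m M, Seq.om m i * ∫ z, F i z) ^ 2) ≤ ENNReal.ofReal 1200 := by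
  rw [← ofReal_integral_eq_lintegral_ofReal
    (integrable_sq _ _ F (fun i _ => hF i) (fun i _ => hb i) _)
    (Filter.Eventually.of_forall fun y => sq_nonneg _)]
  refine ENNReal.ofReal_le_ofReal ((S.integral_sq_le _ _ F (fun i _ => hF i) (fun i _ => hb i)
    fun i _ => hl i).trans ?_)
  have := Seq.sum_om_sq_le m M
  linarith

theorem real_Base_le (i : ℕ) : volume.real (S.Base i) ≤ 2 / S.Kc i := by
  have hR := S.two_le_R
  have hK : 0 < S.Kc i := by unfold Seq.Kc; positivity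
  refine real_le_of_le (by positivity) ?_
  have h1 : S.Base i ⊆ Metric.closedBall (0 : TT) (1 / S.Kc i) := by
    intro y hy
    rw [mem_closedBall_zero_iff]
    exact le_of_lt hy
  refine (measure_mono h1).trans ?_
  rw [AddCircle.volume_closedBall]
  refine ENNReal.ofReal_le_ofReal ((min_le_right _ _).trans (le_of_eq ?_))
  ring

theorem real_Xset_le (i t : ℕ) (ht : (t : ℝ) ≤ 3 * (S.R : ℝ) ^ i) :
    volume.real (S.Xset i t) ≤ 38 / 4 ^ i := by
  have hR := S.two_le_R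
  have hZ : volume.real (S.Zone i) ≤ 12 / 4 ^ i := real_le_of_le (by positivity) (S.volume_Zone_le i)
  have h1 : S.Xset i t ⊆ S.Zone i ∪ ({y | y + t • (θ : TT) ∈ S.Zone i} ∪
      ({y | y + -(t • (θ : TT)) ∈ S.Zone i} ∪
        ⋃ l ∈ range t, {y | y + l • (θ : TT) ∈ S.Base i})) := by
    rintro y (h | h | h | ⟨l, hl, h⟩)
    · exact Or.inl h
    · exact Or.inr (Or.inl h)
    · exact Or.inr (Or.inr (Or.inl (by simpa [sub_eq_add_neg] using h)))
    · exact Or.inr (Or.inr (Or.inr (Set.mem_biUnion (Finset.mem_coe.2 (Finset.mem_range.2 hl)) h)))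
  have h2 : volume.real (⋃ l ∈ range t, {y | y + l • (θ : TT) ∈ S.Base i}) ≤ 2 / 4 ^ i := by
    refine (measureReal_biUnion_finset_le _ _).trans ?_
    simp only [real_shift, Finset.sum_const, Finset.card_range, nsmul_eq_mul]
    have h3 := real_Base_le S i
    have h4 : (0 : ℝ) ≤ volume.real (S.Base i) := measureReal_nonneg
    calc (t : ℝ) * volume.real (S.Base i) ≤ 3 * (S.R : ℝ) ^ i * (2 / S.Kc i) :=
          mul_le_mul ht h3 h4 (by positivity)
      _ = 2 / 4 ^ i := by unfold Seq.Kc; field_simp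
  refine (measureReal_mono h1).trans ((measureReal_union_le _ _).trans ?_)
  have h5 := measureReal_union_le (μ := (volume : Measure TT)) {y | y + t • (θ : TT) ∈ S.Zone i}
    ({y | y + -(t • (θ : TT)) ∈ S.Zone i} ∪ ⋃ l ∈ range t, {y | y + l • (θ : TT) ∈ S.Base i})
  have h6 := measureReal_union_le (μ := (volume : Measure TT))
    {y | y + -(t • (θ : TT)) ∈ S.Zone i} (⋃ l ∈ range t, {y | y + l • (θ : TT) ∈ S.Base i})
  rw [real_shift] at h5 h6
  have h7 : (38 : ℝ) / 4 ^ i = 12 / 4 ^ i + 12 / 4 ^ i + 12 / 4 ^ i + 2 / 4 ^ i := by ring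
  linarith

theorem integrable_Exc1 (i : ℕ) : Integrable (S.Exc1 i) := by
  unfold Seq.Exc1
  exact (integrable_finsetSum _ fun t _ => integrable_ind (S.measurableSet_Xset i t)).div_const _

theorem integral_Exc1_le (i : ℕ) : ∫ y, S.Exc1 i y ≤ 38 / 4 ^ i := by
  have hN : (0 : ℝ) < S.N i := by exact_mod_cast S.N_pos i
  unfold Seq.Exc1
  rw [integral_div, integral_finsetSum _ fun t _ => integrable_ind (S.measurableSet_Xset i t),
    div_le_iff₀ hN]
  refine (Finset.sum_le_card_nsmul _ _ (38 / 4 ^ i) fun t ht => ?_).trans (le_of_eq ?_)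
  · rw [integral_ind (S.measurableSet_Xset i t)]
    exact real_Xset_le S i t (le_of_mem_Icc S ht)
  · simp [mul_comm]

theorem R_ge' : (2 : ℝ) ^ 44 ≤ S.R := by exact_mod_cast S.R_ge

theorem real_Aset_le (i t : ℕ) : volume.real (S.Aset i t) ≤ t * (6 / (S.R : ℝ) ^ i) :=
  real_le_of_le (by positivity) (S.volume_Aset_le i t)

theorem real_bad_le (i : ℕ) : volume.real (S.bad i) ≤ 36 / 2 ^ 44 := by
  have hR := R_ge' S
  have hR0 : (0 : ℝ) < S.R := lt_of_lt_of_le (by positivity) hR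
  refine (real_Aset_le S _ _).trans ?_
  have h1 := S.N_le i
  calc ((2 * S.N i : ℕ) : ℝ) * (6 / (S.R : ℝ) ^ (i + 1))
      ≤ 2 * (3 * (S.R : ℝ) ^ i) * (6 / (S.R : ℝ) ^ (i + 1)) := by
        push_cast
        gcongr
    _ = 36 / S.R := by field_simp; ring
    _ ≤ 36 / 2 ^ 44 := by gcongr

theorem measurableSet_bad (i : ℕ) : MeasurableSet (S.bad i) := S.measurableSet_Aset _ _

theorem local_bad (i : ℕ) : S.Local (i + 1) (ind (S.bad i)) := by
  intro y y' h
  refine ind_congr (Aset_iff S (i + 1) _ ?_ y y' h)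
  have h1 := S.N_le i
  have hR := S.two_le_R
  have h2 : 0 < (S.R : ℝ) ^ i := by positivity
  push_cast
  rw [pow_succ]
  nlinarith

theorem real_frac_le (t e : ℕ) :
    volume.real {y | 1 / 8 ≤ S.frac t e y} ≤ 153600 * (1 / 2 ^ e) := by
  set b := blkS t e
  set I : Finset ℕ := Ico (b + 1) (b + 2 ^ e + 1) with hI
  set F : ℕ → TT → ℝ := fun i => ind (S.bad (i - 1)) with hFdef
  have hF : ∀ i ∈ I, Measurable (F i) := fun i _ => measurable_ind (measurableSet_bad S _)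
  have hb : ∀ i ∈ I, ∀ y, |F i y| ≤ 1 := fun i _ y => abs_ind_le _ _
  have hl : ∀ i ∈ I, S.Local i (F i) := by
    intro i hi
    obtain ⟨j, rfl⟩ : ∃ j, i = j + 1 := ⟨i - 1, by have := (Finset.mem_Ico.1 hi).1; omega⟩
    exact local_bad S j
  have hcard : (I.card : ℝ) = 2 ^ e := by
    rw [hI, Nat.card_Ico, Nat.add_sub_add_right, Nat.add_sub_cancel_left]
    simp
  have hfrac : ∀ y, S.frac t e y = ∑ i ∈ I, (1 / 2 ^ e : ℝ) * F i y := by
    intro y
    rw [Seq.frac, hI, ← Finset.sum_Ico_add' (fun i => (1 / 2 ^ e : ℝ) * F i y) b (b + 2 ^ e) 1,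
      Finset.sum_div]
    refine Finset.sum_congr rfl fun i _ => ?_
    simp only [hFdef, Nat.add_sub_cancel]
    ring
  set c : ℝ := ∑ i ∈ I, (1 / 2 ^ e : ℝ) * ∫ z, F i z with hc
  have hc1 : c ≤ 1 / 16 := by
    refine (Finset.sum_le_card_nsmul _ _ ((1 / 2 ^ e : ℝ) * (1 / 16)) fun i _ => ?_).trans
      (le_of_eq ?_)
    · refine mul_le_mul_of_nonneg_left ?_ (by positivity)
      simp only [hFdef]
      rw [integral_ind (measurableSet_bad S _)]
      exact (real_bad_le S _).trans (by norm_num)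
    · rw [nsmul_eq_mul, hcard]
      field_simp
  have h1 := S.integral_sq_le I (fun _ => (1 / 2 ^ e : ℝ)) F hF hb hl
  have h2 := mul_meas_ge_le_integral_of_nonneg (μ := (volume : Measure TT))
    (Filter.Eventually.of_forall fun y => sq_nonneg (∑ i ∈ I, (1 / 2 ^ e : ℝ) * F i y - c))
    (integrable_sq I (fun _ => (1 / 2 ^ e : ℝ)) F hF hb c) (1 / 256)
  have h3 : {y | 1 / 8 ≤ S.frac t e y} ⊆
      {y | 1 / 256 ≤ (∑ i ∈ I, (1 / 2 ^ e : ℝ) * F i y - c) ^ 2} := by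
    intro y hy
    simp only [Set.mem_ofPred_eq] at hy ⊢
    rw [← hfrac]
    nlinarith
  have h4 := measureReal_mono (μ := (volume : Measure TT)) h3
  have h5 : ∑ _i ∈ I, (1 / 2 ^ e : ℝ) ^ 2 = 1 / 2 ^ e := by
    rw [Finset.sum_const, nsmul_eq_mul, hcard]
    field_simp
  rw [h5, ← hc] at h1
  linarith

end CovB

open CovB

namespace Seq

variable {θ : ℝ} (S : Seq θ)

theorem lintegral_NN (m M : ℕ) :
    ∃ Nb : ℝ, ∫⁻ y, ENNReal.ofReal ((S.NN m M y - Nb) ^ 2) ≤ ENNReal.ofReal 1200 :=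
  ⟨_, lintegral_sq_le S m M S.NN1 (measurable_NN1 S) (abs_NN1_le S) (local_NN1 S)⟩

theorem lintegral_Xi (m M : ℕ) :
    ∫⁻ y, ENNReal.ofReal (S.Xi m M y ^ 2) ≤ ENNReal.ofReal 1200 := by
  have h := lintegral_sq_le S m M S.Xi1 (measurable_Xi1 S) S.abs_Xi1_le (local_Xi1 S)
  simpa only [integral_Xi1, mul_zero, Finset.sum_const_zero, sub_zero, Seq.Xi] using h

theorem lintegral_Exc (m M : ℕ) :
    ∫⁻ y, ENNReal.ofReal (S.Exc m M y) ≤ ENNReal.ofReal (100 / 2 ^ m) := by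
  unfold Seq.Exc
  rw [← ofReal_integral_eq_lintegral_ofReal
    (integrable_finsetSum _ fun i _ => integrable_Exc1 S i)
    (Filter.Eventually.of_forall fun y => Finset.sum_nonneg fun i _ => S.Exc1_nonneg i y),
    integral_finsetSum _ fun i _ => integrable_Exc1 S i]
  refine ENNReal.ofReal_le_ofReal ?_
  have h1 := geom_le m M 4 (by norm_num)
  have h2 : (2 : ℝ) ^ m ≤ 4 ^ m := pow_le_pow_left₀ (by norm_num) (by norm_num) m
  calc ∑ i ∈ Icc m M, ∫ y, S.Exc1 i y ≤ ∑ i ∈ Icc m M, 38 * (1 / (4 : ℝ) ^ i) :=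
        Finset.sum_le_sum fun i _ => (integral_Exc1_le S i).trans (le_of_eq (by ring))
    _ = 38 * ∑ i ∈ Icc m M, 1 / (4 : ℝ) ^ i := by rw [Finset.mul_sum]
    _ ≤ 38 * (2 / 4 ^ m) := by gcongr
    _ = 76 / 4 ^ m := by ring
    _ ≤ 100 / 2 ^ m := by gcongr; norm_num

theorem volume_BadSet (s e1 : ℕ) : volume (S.BadSet s e1) ≤ ENNReal.ofReal (1 / 100) := by
  refine le_of_real_le ?_
  have hR := R_ge' S
  have hR0 : (0 : ℝ) < S.R := lt_of_lt_of_le (by positivity) hR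
  have hδ := S.δ_pos
  have h1 : S.BadSet s e1 ⊆ (⋃ e ∈ Icc 27 e1, {y | 1 / 8 ≤ S.frac (max s (e + 1)) e y}) ∪
      ((⋃ i ∈ Icc (2 ^ s) (2 ^ s + 2 ^ 28 + 1), S.bad i) ∪
        S.Aset (2 ^ s) ⌊2 * S.δ * S.N (2 ^ s)⌋₊) := by
    rintro y (⟨e, h1, h2, h⟩ | ⟨i, h1, h2, h⟩ | h)
    · exact Or.inl (Set.mem_biUnion (Finset.mem_coe.2 (Finset.mem_Icc.2 ⟨h1, h2⟩)) h)
    · exact Or.inr (Or.inl (Set.mem_biUnion (Finset.mem_coe.2 (Finset.mem_Icc.2 ⟨h1, h2⟩)) h))
    · exact Or.inr (Or.inr ((S.mem_Aset_iff _ _ y).2 (Nat.le_floor h)))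
  have h2 : volume.real (⋃ e ∈ Icc 27 e1, {y | 1 / 8 ≤ S.frac (max s (e + 1)) e y}) ≤
      153600 * (2 / 2 ^ 27) := by
    refine (measureReal_biUnion_finset_le _ _).trans
      ((Finset.sum_le_sum fun e _ => real_frac_le S _ e).trans ?_)
    rw [← Finset.mul_sum]
    exact mul_le_mul_of_nonneg_left (geom_le 27 e1 2 le_rfl) (by norm_num)
  have h3 : volume.real (⋃ i ∈ Icc (2 ^ s) (2 ^ s + 2 ^ 28 + 1), S.bad i) ≤
      (2 ^ 28 + 2) * (36 / 2 ^ 44) := by
    refine (measureReal_biUnion_finset_le _ _).trans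
      ((Finset.sum_le_card_nsmul _ _ _ fun i _ => real_bad_le S i).trans (le_of_eq ?_))
    rw [Nat.card_Icc, show 2 ^ s + 2 ^ 28 + 1 + 1 - 2 ^ s = 2 ^ 28 + 2 by omega, nsmul_eq_mul]
    norm_num
  have h4 : volume.real (S.Aset (2 ^ s) ⌊2 * S.δ * S.N (2 ^ s)⌋₊) ≤ 3 / 2 ^ 44 := by
    refine (real_Aset_le S _ _).trans ?_
    have h5 := S.N_le (2 ^ s)
    have h6 := S.δ_le
    calc (⌊2 * S.δ * S.N (2 ^ s)⌋₊ : ℝ) * (6 / (S.R : ℝ) ^ 2 ^ s)
        ≤ 2 * (1 / (12 * (S.R : ℝ))) * (3 * (S.R : ℝ) ^ 2 ^ s) * (6 / (S.R : ℝ) ^ 2 ^ s) := by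
          refine mul_le_mul_of_nonneg_right ((Nat.floor_le (by positivity)).trans ?_)
            (by positivity)
          gcongr
      _ = 3 / (S.R : ℝ) := by field_simp; ring
      _ ≤ (3 : ℝ) / 2 ^ 44 := by gcongr
  have h5 := measureReal_union_le (μ := (volume : Measure TT))
    (⋃ i ∈ Icc (2 ^ s) (2 ^ s + 2 ^ 28 + 1), S.bad i) (S.Aset (2 ^ s) ⌊2 * S.δ * S.N (2 ^ s)⌋₊)
  refine (measureReal_mono h1).trans ((measureReal_union_le _ _).trans ?_)
  have h6 : (153600 : ℝ) * (2 / 2 ^ 27) + ((2 ^ 28 + 2) * (36 / 2 ^ 44) + 3 / 2 ^ 44) ≤ 1 / 100 := by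
    norm_num
  linarith

end Seq

end Crest.Agent.R113
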