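import Mathlib
import Crest.Prelude.Def_ProductShift
import Crest.Agent.R177.DetFK

set_option autoImplicit false

namespace Crest.Agent.R113.Det

open Filter Topology Crest.Agent.R177.FK

section Abs

variable {B : Type*} [CStarAlgebra B]

/-- Derivative of the trace of the logarithm along a continuously differentiable path. -/
theorem hasDerivAt_trace_log' (M : StarSubalgebra ℝ B) (ρ : B →L[ℝ] ℝ)
    (hρ : ∀ x ∈ M, ∀ y ∈ M, ρ (x * y) = ρ (y * x)) (g g' : ℝ → B)
    (hg : ∀ t, HasDerivAt g (g' t) t) (hg'c : Continuous g') (hM : ∀ t, g t ∈ M)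
    (hM' : ∀ t, g' t ∈ M) (t₀ : ℝ) (h : B) (hhM : h ∈ M) (hh1 : h * g t₀ = 1)
    (hh2 : g t₀ * h = 1) :
    HasDerivAt (fun t => ρ (cfc Real.log (star (g t) * g t)))
      (ρ (g' t₀ * h + star (g' t₀ * h))) t₀ := by
  have hunit : IsUnit (g t₀) := ⟨⟨g t₀, h, hh2, hh1⟩, rfl⟩
  obtain ⟨c, hc, hc1⟩ := exists_norm_one_sub_lt (g t₀) hunit
  set w : ℝ → B := fun t => 1 - c⁻¹ • (star (g t) * g t) with hw
  set w' : ℝ → B := fun t => - (c⁻¹ • (star (g' t) * g t + star (g t) * g' t)) with hw'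
  have hwd : ∀ t, HasDerivAt w (w' t) t := by
    intro t
    have h1 := ((hg t).star.mul (hg t)).const_smul c⁻¹
    exact h1.const_sub 1
  have hgc : Continuous g := continuous_iff_continuousAt.2 fun t => (hg t).continuousAt
  have hwc : Continuous w := by simp only [hw]; fun_prop
  have hw'c : Continuous w' := by simp only [hw']; fun_prop
  have hwM : ∀ t, w t ∈ M := fun t =>
    sub_mem (one_mem M) (SMulMemClass.smul_mem _ (mul_mem (star_mem (hM t)) (hM t)))
  have hw'M : ∀ t, w' t ∈ M := fun t =>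
    neg_mem (SMulMemClass.smul_mem _ (add_mem (mul_mem (star_mem (hM' t)) (hM t))
      (mul_mem (star_mem (hM t)) (hM' t))))
  obtain ⟨r, hr1, hr2⟩ := exists_between hc1
  have hr0 : 0 ≤ r := (norm_nonneg _).trans hr1.le
  have ev1 : ∀ᶠ t in 𝓝 t₀, ‖w t‖ < r :=
    (hwc.norm.continuousAt (x := t₀)).eventually_lt continuousAt_const hr1
  have ev2 : ∀ᶠ t in 𝓝 t₀, ‖w' t‖ < ‖w' t₀‖ + 1 :=
    (hw'c.norm.continuousAt (x := t₀)).eventually_lt continuousAt_const (lt_add_one _)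
  obtain ⟨ε, hε, hball⟩ := Metric.eventually_nhds_iff_ball.1 (ev1.and ev2)
  have hsa : ∀ t, IsSelfAdjoint (star (g t) * g t) := fun t => IsSelfAdjoint.star_mul_self _
  have hsum : ∀ t ∈ Metric.ball t₀ ε,
      HasSum (fun k : ℕ => ρ (((k : ℝ) + 1)⁻¹ • w t ^ (k + 1)))
        (ρ (Real.log c • (1 : B) - cfc Real.log (star (g t) * g t))) := fun t ht =>
    (hasSum_cfc_log _ (hsa t) c hc ((hball t ht).1.trans hr2)).mapL ρ
  have hu : Summable (fun k : ℕ => ‖ρ‖ * ((‖(1 : B)‖ + 1) * r ^ k * (‖w' t₀‖ + 1))) :=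
    (((summable_geometric_of_lt_one hr0 hr2).mul_left _).mul_right _).mul_left _
  have hpow : ∀ (x : B) (k : ℕ), ‖x‖ ≤ r → ‖x ^ k‖ ≤ (‖(1 : B)‖ + 1) * r ^ k := by
    intro x k hx
    rcases Nat.eq_zero_or_pos k with rfl | hk
    · simp
    · calc ‖x ^ k‖ ≤ ‖x‖ ^ k := norm_pow_le' x hk
        _ ≤ r ^ k := pow_le_pow_left₀ (norm_nonneg _) hx _
        _ ≤ (‖(1 : B)‖ + 1) * r ^ k :=
          le_mul_of_one_le_left (pow_nonneg hr0 _) (by linarith [norm_nonneg (1 : B)])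
  have hD := hasDerivAt_tsum_of_isPreconnected
    (g := fun (k : ℕ) (s : ℝ) => ρ (((k : ℝ) + 1)⁻¹ • w s ^ (k + 1)))
    (g' := fun (k : ℕ) (s : ℝ) => ρ (w s ^ k * w' s)) hu Metric.isOpen_ball
    (convex_ball t₀ ε).isPreconnected
    (fun k s _ => hasDerivAt_trace_pow M ρ hρ w (w' s) s (hwd s) (hwM s) (hw'M s) k)
    (fun k s hs => by
      refine (ρ.le_opNorm _).trans (mul_le_mul_of_nonneg_left ?_ (norm_nonneg _))
      refine (norm_mul_le _ _).trans ?_
      exact mul_le_mul (hpow _ k (hball s hs).1.le) (hball s hs).2.le (norm_nonneg _)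
        (by positivity))
    (Metric.mem_ball_self hε) (hsum t₀ (Metric.mem_ball_self hε)).summable
    (Metric.mem_ball_self hε)
  have hw0 : ‖w t₀‖ < 1 := hc1
  have hgeom : ∑' k : ℕ, w t₀ ^ k = c • (h * star h) := by
    have e1 := geom_series_mul_neg (w t₀) hw0
    have e2 : (1 - w t₀) * (c • (h * star h)) = 1 := by
      simp only [hw, sub_sub_cancel]
      rw [smul_mul_smul_comm, inv_mul_cancel₀ hc.ne', one_smul, mul_assoc, ← mul_assoc (g t₀), hh2,
        one_mul, ← star_mul, hh1, star_one]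
    calc ∑' k : ℕ, w t₀ ^ k = (∑' k : ℕ, w t₀ ^ k) * ((1 - w t₀) * (c • (h * star h))) := by
          rw [e2, mul_one]
      _ = c • (h * star h) := by rw [← mul_assoc, e1, one_mul]
  have hsd : HasSum (fun k : ℕ => ρ (w t₀ ^ k * w' t₀))
      (- ρ (g' t₀ * h + star (g' t₀ * h))) := by
    have e1 := ((summable_geometric_of_norm_lt_one hw0).hasSum.mul_right (w' t₀)).mapL ρ
    convert e1 using 1
    rw [hgeom]
    simp only [hw']
    rw [mul_neg, smul_mul_smul_comm, mul_inv_cancel₀ hc.ne', one_smul, map_neg]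
    congr 1
    have e2 : h * star h * (star (g' t₀) * g t₀ + star (g t₀) * g' t₀) =
        h * (star (g' t₀ * h) * g t₀) + h * g' t₀ := by
      rw [mul_add, star_mul, mul_assoc h (star h) (star (g t₀) * g' t₀), ← mul_assoc (star h),
        ← star_mul (g t₀) h, hh2, star_one, one_mul]
      noncomm_ring
    rw [e2, map_add, map_add, hρ h hhM _ (hM' t₀),
      hρ h hhM _ (mul_mem (star_mem (mul_mem (hM' t₀) hhM)) (hM t₀)), mul_assoc, hh2, mul_one,
      add_comm]
  rw [hsd.tsum_eq] at hD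
  have hD2 := (hD.const_sub (ρ (Real.log c • (1 : B))))
  rw [neg_neg] at hD2
  refine hD2.congr_of_eventuallyEq ?_
  filter_upwards [Metric.ball_mem_nhds t₀ hε] with t ht
  rw [(hsum t ht).tsum_eq, map_sub]
  ring

/-- A functional that is tracial on a star-closed monoid is tracial on a closed star subalgebra
containing it. -/
theorem exists_tracial_closure (W : Set B) (h1 : (1 : B) ∈ W)
    (hmul : ∀ x ∈ W, ∀ y ∈ W, x * y ∈ W) (hstar : ∀ x ∈ W, star x ∈ W) (ρ : B →L[ℝ] ℝ)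
    (hρ : ∀ x ∈ W, ∀ y ∈ W, ρ (x * y) = ρ (y * x)) :
    ∃ M : StarSubalgebra ℝ B, IsClosed (M : Set B) ∧ (∀ x ∈ W, x ∈ M) ∧
      ∀ x ∈ M, ∀ y ∈ M, ρ (x * y) = ρ (y * x) := by
  have hspan : ∀ x ∈ StarAlgebra.adjoin ℝ W, x ∈ Submodule.span ℝ W := by
    intro x hx
    induction hx using StarAlgebra.adjoin_induction with
    | mem x hx => exact Submodule.subset_span hx
    | algebraMap r =>
      rw [Algebra.algebraMap_eq_smul_one]
      exact Submodule.smul_mem _ _ (Submodule.subset_span h1)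
    | add x y _ _ hx hy => exact add_mem hx hy
    | mul x y _ _ hx hy =>
      have := Submodule.mul_mem_mul hx hy
      rw [Submodule.span_mul_span] at this
      refine Submodule.span_mono ?_ this
      rintro _ ⟨a, ha, b, hb, rfl⟩
      exact hmul a ha b hb
    | star x hx' hx =>
      clear hx'
      induction hx using Submodule.span_induction with
      | mem x hx => exact Submodule.subset_span (hstar x hx)
      | zero => simp
      | add x y _ _ hx hy => rw [star_add]; exact add_mem hx hy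
      | smul r x _ hx => rw [star_smul]; exact Submodule.smul_mem _ _ hx
  have htr0 : ∀ x ∈ Submodule.span ℝ W, ∀ y ∈ Submodule.span ℝ W, ρ (x * y) = ρ (y * x) := by
    intro x hx y hy
    induction hx using Submodule.span_induction with
    | mem x hx =>
      induction hy using Submodule.span_induction with
      | mem y hy => exact hρ x hx y hy
      | zero => simp
      | add a b _ _ ha hb => rw [mul_add, add_mul, map_add, map_add, ha, hb]
      | smul r a _ ha => rw [mul_smul_comm, smul_mul_assoc, map_smul, map_smul, ha]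
    | zero => simp
    | add a b _ _ ha hb => rw [mul_add, add_mul, map_add, map_add, ha, hb]
    | smul r a _ ha => rw [mul_smul_comm, smul_mul_assoc, map_smul, map_smul, ha]
  refine ⟨(StarAlgebra.adjoin ℝ W).topologicalClosure,
    StarSubalgebra.isClosed_topologicalClosure _, fun x hx =>
      StarSubalgebra.le_topologicalClosure _ (StarAlgebra.subset_adjoin ℝ W hx), ?_⟩
  have step1 : ∀ x ∈ StarAlgebra.adjoin ℝ W,
      ∀ y ∈ closure (StarAlgebra.adjoin ℝ W : Set B), ρ (x * y) = ρ (y * x) := by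
    intro x hx y hy
    have hcl : IsClosed {y : B | ρ (x * y) = ρ (y * x)} := isClosed_eq (by fun_prop) (by fun_prop)
    exact hcl.closure_subset_iff.2 (fun y hy => htr0 x (hspan x hx) y (hspan y hy)) hy
  intro x hx y hy
  have hcl : IsClosed {x : B | ρ (x * y) = ρ (y * x)} := isClosed_eq (by fun_prop) (by fun_prop)
  exact hcl.closure_subset_iff.2 (fun x hx => step1 x hx y hy) hx

/-- The trace of the logarithm of `|T - z|^2` for a quasinilpotent `T` with vanishing moments. -/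
theorem trace_log_sub (M : StarSubalgebra ℝ B) (hMc : IsClosed (M : Set B)) (τ : B →L[ℂ] ℂ)
    (hτ : ∀ x, τ (star x) = starRingEnd ℂ (τ x)) (ρ : B →L[ℝ] ℝ) (hρτ : ∀ x, ρ x = (τ x).re)
    (hρ : ∀ x ∈ M, ∀ y ∈ M, ρ (x * y) = ρ (y * x)) (hsc : ∀ z : ℂ, z • (1 : B) ∈ M)
    (T : B) (hT : T ∈ M) (hsum : ∀ s : ℂ, Summable fun n : ℕ => (s • T) ^ n)
    (hmom : ∀ n : ℕ, τ (T ^ (n + 1)) = 0) (z : ℂ) (hz : z ≠ 0) :
    IsUnit (T - z • (1 : B)) ∧
    ρ (cfc Real.log (star (T - z • (1 : B)) * (T - z • (1 : B)))) = Real.log (‖z‖ ^ 2) * ρ 1 := by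
  have hsm : ∀ (s : ℂ) (x : B), x ∈ M → s • x ∈ M := by
    intro s x hx
    have := mul_mem (hsc s) hx
    rwa [smul_mul_assoc, one_mul] at this
  set g : ℝ → B := fun t => (t : ℂ) • T - z • (1 : B) with hg
  set h : ℝ → B := fun t => (-z⁻¹) • ∑' n : ℕ, (((t : ℂ) * z⁻¹) • T) ^ n with hh
  have hgf : ∀ t : ℝ, g t = (-z) • (1 - ((t : ℂ) * z⁻¹) • T) := by
    intro t
    simp only [hg]
    rw [smul_sub, smul_smul]
    have : -z * ((t : ℂ) * z⁻¹) = -t := by field_simp
    rw [this, neg_smul, neg_smul]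
    abel
  have hzz : -z⁻¹ * -z = 1 := by field_simp
  have hh1 : ∀ t, h t * g t = 1 := by
    intro t
    rw [hgf]
    simp only [hh]
    rw [smul_mul_smul_comm, (hsum _).tsum_pow_mul_one_sub, hzz, one_smul]
  have hh2 : ∀ t, g t * h t = 1 := by
    intro t
    rw [hgf]
    simp only [hh]
    rw [smul_mul_smul_comm, (hsum _).one_sub_mul_tsum_pow, mul_comm, hzz, one_smul]
  have hhM : ∀ t, h t ∈ M := by
    intro t
    refine hsm _ _ ?_
    refine hMc.mem_of_tendsto (hsum _).hasSum (Eventually.of_forall fun s => ?_)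
    exact sum_mem fun n _ => pow_mem (hsm _ _ hT) n
  have hgd : ∀ t, HasDerivAt g T t := by
    intro t
    have h1 : HasDerivAt (fun t : ℝ => (t : ℂ)) 1 t := Complex.ofRealCLM.hasDerivAt
    have h2 := (h1.smul_const T).sub_const (z • (1 : B))
    rwa [one_smul] at h2
  have hgM : ∀ t, g t ∈ M := fun t => sub_mem (hsm _ _ hT) (hsc z)
  have hzero : ∀ t, τ (T * h t) = 0 := by
    intro t
    simp only [hh]
    rw [mul_smul_comm, map_smul]
    have e1 := (((hsum ((t : ℂ) * z⁻¹)).hasSum.mul_left T).mapL τ)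
    have e2 : (fun n : ℕ => τ (T * (((t : ℂ) * z⁻¹) • T) ^ n)) = fun _ => 0 := by
      ext n
      rw [smul_pow, mul_smul_comm, map_smul, ← pow_succ', hmom, smul_zero]
    rw [e2] at e1
    rw [e1.unique hasSum_zero, smul_zero]
  have hd : ∀ t, HasDerivAt (fun t => ρ (cfc Real.log (star (g t) * g t))) 0 t := by
    intro t
    have := hasDerivAt_trace_log' M ρ hρ g (fun _ => T) hgd continuous_const hgM (fun _ => hT) t
      (h t) (hhM t) (hh1 t) (hh2 t)
    refine this.congr_deriv ?_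
    rw [hρτ, map_add, hτ, hzero]
    simp
  have hconst := is_const_of_deriv_eq_zero (fun t => (hd t).differentiableAt)
    (fun t => (hd t).deriv) 1 0
  have hg1 : g 1 = T - z • (1 : B) := by simp [hg]
  have hg0 : star (g 0) * g 0 = algebraMap ℝ B (‖z‖ ^ 2) := by
    simp only [hg, Complex.ofReal_zero, zero_smul, zero_sub, star_neg, neg_mul_neg, star_smul,
      star_one, smul_mul_smul_comm, one_mul]
    rw [Algebra.algebraMap_eq_smul_one, ← Complex.coe_smul]
    congr 1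
    rw [Complex.star_def, Complex.conj_mul', Complex.ofReal_pow]
  refine ⟨hg1 ▸ ⟨⟨g 1, h 1, hh2 1, hh1 1⟩, rfl⟩, ?_⟩
  rw [hg1, hg0, cfc_algebraMap, Algebra.algebraMap_eq_smul_one, map_smul, smul_eq_mul] at hconst
  exact hconst

end Abs

section Hilb

open Crest.AnalysisR.ProductShift

variable {H : Type*} [NormedAddCommGroup H] [InnerProductSpace ℂ H] [CompleteSpace H]

/-- The vector functional of `ξ`. -/
noncomputable def vs (ξ : H) : (H →L[ℂ] H) →L[ℂ] ℂ :=
  (innerSL ℂ ξ).comp (ContinuousLinearMap.apply ℂ H ξ)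

omit [CompleteSpace H] in
theorem vs_apply (ξ : H) (A : H →L[ℂ] H) : vs ξ A = inner ℂ ξ (A ξ) := rfl

theorem vs_star (ξ : H) (A : H →L[ℂ] H) : vs ξ (star A) = starRingEnd ℂ (vs ξ A) := by
  rw [vs_apply, vs_apply, ContinuousLinearMap.star_eq_adjoint,
    ContinuousLinearMap.adjoint_inner_right, inner_conj_symm]

/-- The real part of the vector functional of `ξ`. -/
noncomputable def rvs (ξ : H) : (H →L[ℂ] H) →L[ℝ] ℝ :=
  Complex.reCLM.comp ((vs ξ).restrictScalars ℝ)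

omit [CompleteSpace H] in
theorem rvs_apply (ξ : H) (A : H →L[ℂ] H) : rvs ξ A = (vs ξ A).re := rfl

omit [CompleteSpace H] in
theorem rvs_nonneg (ξ : H) {A : H →L[ℂ] H} (hA : 0 ≤ A) : 0 ≤ rvs ξ A := by
  rw [ContinuousLinearMap.nonneg_iff_isPositive] at hA
  exact hA.re_inner_nonneg_right ξ

theorem vectorDet_eq (ξ : H) (A : H →L[ℂ] H) :
    vectorDet ξ A = ⨅ ε : {r : ℝ // 0 < r},
      Real.exp (rvs ξ (cfc Real.log (star A * A + (ε : ℝ) • (1 : H →L[ℂ] H))) / 2) := by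
  unfold vectorDet
  congr 1

theorem vectorDet_of_isUnit (ξ : H) (A : H →L[ℂ] H) (hA : IsUnit A) :
    vectorDet ξ A = Real.exp (rvs ξ (cfc Real.log (star A * A)) / 2) := by
  rw [vectorDet_eq]
  set y := star A * A with hy
  have hsa : IsSelfAdjoint y := IsSelfAdjoint.star_mul_self A
  have hyu : IsUnit y := hA.star.mul hA
  have hpos : ∀ x ∈ spectrum ℝ y, 0 < x := by
    intro x hx
    have h0 : 0 ≤ x := spectrum_star_mul_self_nonneg x hx
    refine lt_of_le_of_ne h0 ?_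
    rintro rfl
    exact (spectrum.zero_notMem_iff ℝ).2 hyu hx
  obtain ⟨δ, hδ, hδ'⟩ : ∃ δ : ℝ, 0 < δ ∧ ∀ x ∈ spectrum ℝ y, δ ≤ x := by
    rcases (spectrum ℝ y).eq_empty_or_nonempty with h | h
    · exact ⟨1, one_pos, by simp [h]⟩
    · obtain ⟨x, hx, hx'⟩ := (isCompact_iff_compactSpace.2 inferInstance :
        IsCompact (spectrum ℝ y)).exists_isMinOn h continuousOn_id
      exact ⟨x, hpos x hx, fun t ht => hx' ht⟩
  have hlog : ContinuousOn Real.log (spectrum ℝ y) :=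
    Real.continuousOn_log.mono fun x hx => (hpos x hx).ne'
  have hcomp : ∀ ε : ℝ, 0 < ε → cfc Real.log (y + ε • (1 : H →L[ℂ] H)) =
      cfc Real.log y + cfc (fun x => Real.log (x + ε) - Real.log x) y := by
    intro ε hε
    have hc : ContinuousOn (fun x : ℝ => Real.log (x + ε)) (spectrum ℝ y) :=
      ContinuousOn.log (by fun_prop) fun x hx => (add_pos (hpos x hx) hε).ne'
    have e1 : y + ε • (1 : H →L[ℂ] H) = cfc (fun x : ℝ => x + ε) y := by
      rw [cfc_add_const ε (fun x : ℝ => x) y, cfc_id' ℝ y, Algebra.algebraMap_eq_smul_one]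
    rw [e1, ← cfc_comp' Real.log (fun x : ℝ => x + ε) y (by
      refine Real.continuousOn_log.mono ?_
      rintro _ ⟨x, hx, rfl⟩
      exact (add_pos (hpos x hx) hε).ne'),
      ← cfc_add y Real.log (fun x => Real.log (x + ε) - Real.log x) hlog (hc.sub hlog)]
    congr 1
    ext x
    ring
  have hlow : ∀ ε : ℝ, 0 < ε →
      0 ≤ rvs ξ (cfc (fun x => Real.log (x + ε) - Real.log x) y) := by
    intro ε hε
    refine rvs_nonneg ξ (cfc_nonneg fun x hx => ?_)
    exact sub_nonneg.2 (Real.log_le_log (hpos x hx) (by linarith))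
  have hup : ∀ ε : ℝ, 0 < ε →
      rvs ξ (cfc (fun x => Real.log (x + ε) - Real.log x) y) ≤ ‖rvs ξ‖ * (ε / δ) := by
    intro ε hε
    refine (le_abs_self _).trans (((rvs ξ).le_opNorm _).trans ?_)
    refine mul_le_mul_of_nonneg_left (norm_cfc_le (by positivity) fun x hx => ?_) (norm_nonneg _)
    have hx0 := hpos x hx
    rw [Real.norm_eq_abs, abs_of_nonneg (sub_nonneg.2 (Real.log_le_log hx0 (by linarith))),
      ← Real.log_div (by positivity) hx0.ne']
    refine (Real.log_le_sub_one_of_pos (by positivity)).trans ?_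
    have : (x + ε) / x - 1 = ε / x := by field_simp; ring
    rw [this]
    exact div_le_div_of_nonneg_left hε.le hδ (hδ' x hx)
  have : Nonempty {r : ℝ // 0 < r} := ⟨⟨1, one_pos⟩⟩
  have hbdd : BddBelow (Set.range fun ε : {r : ℝ // 0 < r} =>
      Real.exp (rvs ξ (cfc Real.log (y + (ε : ℝ) • (1 : H →L[ℂ] H))) / 2)) :=
    ⟨0, by rintro _ ⟨ε, rfl⟩; exact (Real.exp_pos _).le⟩
  refine le_antisymm ?_ (le_ciInf fun ε => ?_)
  · have ht : Tendsto (fun ε : ℝ => Real.exp ((rvs ξ (cfc Real.log y) + ‖rvs ξ‖ * (ε / δ)) / 2))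
        (𝓝[>] 0) (𝓝 (Real.exp ((rvs ξ (cfc Real.log y) + ‖rvs ξ‖ * (0 / δ)) / 2))) := by
      refine Tendsto.mono_left (Continuous.tendsto (by fun_prop) 0) nhdsWithin_le_nhds
    rw [zero_div, mul_zero, add_zero] at ht
    refine ge_of_tendsto ht ?_
    filter_upwards [self_mem_nhdsWithin] with ε hε
    refine (ciInf_le hbdd ⟨ε, hε⟩).trans (Real.exp_le_exp.2 ?_)
    simp only
    rw [hcomp ε hε, map_add]
    linarith [hup ε hε]
  · refine Real.exp_le_exp.2 ?_
    rw [hcomp ε ε.2, map_add]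
    linarith [hlow ε ε.2]

theorem vectorDet_eq_zero (ξ : H) (A : H →L[ℂ] H)
    (h : ∀ R : ℝ, ∃ ε : ℝ, 0 < ε ∧
      rvs ξ (cfc Real.log (star A * A + ε • (1 : H →L[ℂ] H))) ≤ -R) :
    vectorDet ξ A = 0 := by
  rw [vectorDet_eq]
  have hbdd : BddBelow (Set.range fun ε : {r : ℝ // 0 < r} =>
      Real.exp (rvs ξ (cfc Real.log (star A * A + (ε : ℝ) • (1 : H →L[ℂ] H))) / 2)) :=
    ⟨0, by rintro _ ⟨ε, rfl⟩; exact (Real.exp_pos _).le⟩
  refine le_antisymm (le_of_forall_pos_le_add fun η hη => ?_)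
    (Real.iInf_nonneg fun ε => (Real.exp_pos _).le)
  obtain ⟨ε, hε, h1⟩ := h (-(2 * Real.log η))
  refine (ciInf_le hbdd ⟨ε, hε⟩).trans ?_
  rw [zero_add]
  conv_rhs => rw [← Real.exp_log hη]
  refine Real.exp_le_exp.2 ?_
  simp only
  linarith

theorem vectorDet_sub_of_ne (ξ : H) (W : Set (H →L[ℂ] H)) (h1 : ∀ z : ℂ, z • (1 : H →L[ℂ] H) ∈ W)
    (hmul : ∀ x ∈ W, ∀ y ∈ W, x * y ∈ W) (hstar : ∀ x ∈ W, star x ∈ W)
    (hρ : ∀ x ∈ W, ∀ y ∈ W, vs ξ (x * y) = vs ξ (y * x)) (hξ : vs ξ 1 = 1)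
    (T : H →L[ℂ] H) (hT : T ∈ W) (hsum : ∀ s : ℂ, Summable fun n : ℕ => (s • T) ^ n)
    (hmom : ∀ n : ℕ, vs ξ (T ^ (n + 1)) = 0) (z : ℂ) (hz : z ≠ 0) :
    vectorDet ξ (T - z • (1 : H →L[ℂ] H)) = ‖z‖ := by
  obtain ⟨M, hMc, hWM, hM⟩ := exists_tracial_closure W (by simpa using h1 1) hmul hstar (rvs ξ)
    (fun x hx y hy => by rw [rvs_apply, rvs_apply, hρ x hx y hy])
  obtain ⟨hu, he⟩ := trace_log_sub M hMc (vs ξ) (vs_star ξ) (rvs ξ) (rvs_apply ξ) hM
    (fun z => hWM _ (h1 z)) T (hWM T hT) hsum hmom z hz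
  rw [vectorDet_of_isUnit ξ _ hu, he, rvs_apply, hξ, Complex.one_re, mul_one, Real.log_pow]
  have : ((2 : ℕ) : ℝ) * Real.log ‖z‖ / 2 = Real.log ‖z‖ := by push_cast; ring
  rw [this, Real.exp_log (norm_pos_iff.2 hz)]

theorem vectorDet_eq_zero_of_moments (ξ : H) (A : H →L[ℂ] H) (hξ : vs ξ 1 = 1)
    (hD : ‖1 - star A * A‖ ≤ 1) (hm : ∀ k : ℕ, 0 ≤ (vs ξ ((1 - star A * A) ^ (k + 1))).re)
    (hdiv : ∀ R : ℝ, ∃ K : ℕ, R ≤ ∑ k ∈ Finset.range K,
      ((k : ℝ) + 1)⁻¹ * (vs ξ ((1 - star A * A) ^ (k + 1))).re) :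
    vectorDet ξ A = 0 := by
  refine vectorDet_eq_zero ξ A fun R => ?_
  obtain ⟨K, hK⟩ := hdiv (R + 1)
  set D := 1 - star A * A with hDdef
  set m : ℕ → ℝ := fun k => (vs ξ (D ^ (k + 1))).re with hmdef
  have hcont : ContinuousAt (fun ε : ℝ => Real.log (1 + ε) -
      ∑ k ∈ Finset.range K, ((k : ℝ) + 1)⁻¹ * (((1 + ε)⁻¹) ^ (k + 1) * m k)) 0 := by
    refine ContinuousAt.sub (ContinuousAt.log (by fun_prop) (by norm_num)) ?_
    refine tendsto_finsetSum _ fun k _ => ?_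
    refine ContinuousAt.tendsto (f := fun ε : ℝ => ((k : ℝ) + 1)⁻¹ * (((1 + ε)⁻¹) ^ (k + 1) * m k)) ?_
    refine continuousAt_const.mul (ContinuousAt.mul (ContinuousAt.pow ?_ _) continuousAt_const)
    exact ContinuousAt.inv₀ (by fun_prop) (by norm_num)
  have hev := hcont.eventually_lt (continuousAt_const (y := -R)) (by
    simp only [add_zero, Real.log_one, inv_one, one_pow, one_mul]
    linarith)
  obtain ⟨ε, hε1, hε⟩ := ((hev.filter_mono nhdsWithin_le_nhds).and
    (self_mem_nhdsWithin (s := Set.Ioi (0 : ℝ)))).exists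
  have hε : 0 < ε := hε
  refine ⟨ε, hε, le_trans ?_ hε1.le⟩
  have hc : 0 < 1 + ε := by linarith
  have hsa : IsSelfAdjoint (star A * A + ε • (1 : H →L[ℂ] H)) :=
    (IsSelfAdjoint.star_mul_self A).add ((IsSelfAdjoint.all ε).smul (IsSelfAdjoint.one _))
  have e1 : 1 - (1 + ε)⁻¹ • (star A * A + ε • (1 : H →L[ℂ] H)) = (1 + ε)⁻¹ • D := by
    rw [hDdef, smul_add, smul_sub, smul_smul]
    have : (1 + ε)⁻¹ = 1 - (1 + ε)⁻¹ * ε := by field_simp; ring
    conv_rhs => congr; rw [this, sub_smul, one_smul]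
    abel
  have hs := (hasSum_cfc_log _ hsa (1 + ε) hc (by
    rw [e1, norm_smul, Real.norm_eq_abs, abs_of_pos (inv_pos.2 hc)]
    calc (1 + ε)⁻¹ * ‖D‖ ≤ (1 + ε)⁻¹ * 1 := by gcongr
      _ < 1 := by rw [mul_one]; exact inv_lt_one_of_one_lt₀ (by linarith))).mapL (rvs ξ)
  simp only [e1, smul_pow, map_smul, smul_eq_mul, map_sub] at hs
  have h2 := sum_le_hasSum (Finset.range K) (fun k _ => by
    have := hm k
    rw [rvs_apply]
    positivity) hs
  rw [rvs_apply ξ 1, hξ, Complex.one_re, mul_one] at h2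
  simp only [hmdef, ← rvs_apply]
  linarith

end Hilb

end Crest.Agent.R113.Det
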