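import Mathlib
import Crest.Prelude.Def_ProductShift
import Crest.Agent.R113.DetAbs

set_option autoImplicit false

namespace Crest.Agent.R113.Det

open MeasureTheory Filter Topology Crest.AnalysisR.ProductShift

theorem measurePreserving_fract_add (t : ℝ) :
    MeasurePreserving (fun x : ℝ => Int.fract (x + t)) unitLebesgue unitLebesgue := by
  have hm : Measurable (fun x : ℝ => Int.fract (x + t)) := by fun_prop
  refine ⟨hm, ?_⟩
  ext s hs
  rw [Measure.map_apply hm hs, unitLebesgue, Measure.restrict_apply (hm hs),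
    Measure.restrict_apply hs]
  have hA : MeasurableSet (Int.fract ⁻¹' s : Set ℝ) := measurable_fract hs
  have hinv : ∀ g : AddSubgroup.zmultiples (1 : ℝ),
      (fun x => g +ᵥ x) ⁻¹' (Int.fract ⁻¹' s : Set ℝ) = Int.fract ⁻¹' s := by
    rintro ⟨g, n, rfl⟩
    ext x
    simp only [Set.mem_preimage, AddSubgroup.vadd_def, vadd_eq_add, zsmul_eq_mul, mul_one,
      Int.fract_intCast_add]
  have h1 := (isAddFundamentalDomain_Ioc one_pos t).measure_set_eq
    (isAddFundamentalDomain_Ioc one_pos 0) hA hinv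
  have e1 : volume ((fun x : ℝ => Int.fract (x + t)) ⁻¹' s ∩ Set.Ico 0 1) =
      volume (Int.fract ⁻¹' s ∩ Set.Ico t (t + 1)) := by
    rw [← measure_preimage_add_right volume t (Int.fract ⁻¹' s ∩ Set.Ico t (t + 1))]
    congr 1
    ext x
    simp only [Set.mem_inter_iff, Set.mem_preimage, Set.mem_Ico]
    constructor
    · rintro ⟨h1, h2, h3⟩; exact ⟨h1, by linarith, by linarith⟩
    · rintro ⟨h1, h2, h3⟩; exact ⟨h1, by linarith, by linarith⟩
  have e2 : s ∩ Set.Ico 0 1 = Int.fract ⁻¹' s ∩ Set.Ico 0 (0 + 1) := by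
    ext x
    simp only [Set.mem_inter_iff, Set.mem_preimage, Set.mem_Ico, zero_add]
    constructor
    · rintro ⟨h1, h2⟩; exact ⟨by rwa [Int.fract_eq_self.2 h2], h2⟩
    · rintro ⟨h1, h2⟩; exact ⟨by rwa [Int.fract_eq_self.2 h2] at h1, h2⟩
  rw [e1, e2, measure_congr (ae_eq_set_inter (ae_eq_refl _) Ico_ae_eq_Ioc), h1,
    measure_congr (ae_eq_set_inter (ae_eq_refl _) Ico_ae_eq_Ioc)]

theorem measurable_orbitPoint (θ : ℕ → ℝ) (k : ℤ) : Measurable (orbitPoint θ k) := by
  unfold orbitPoint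
  fun_prop

theorem measurePreserving_orbitPoint (θ : ℕ → ℝ) (k : ℤ) :
    MeasurePreserving (orbitPoint θ k) cubeMeasure cubeMeasure := by
  refine ⟨measurable_orbitPoint θ k, ?_⟩
  have := Measure.infinitePi_map_pi (fun _ : ℕ => unitLebesgue)
    (f := fun i (x : ℝ) => Int.fract (x + (k : ℝ) * θ i)) (fun i => by fun_prop)
  simp only [(measurePreserving_fract_add _).map_eq] at this
  exact this

theorem orbitPoint_orbitPoint (θ : ℕ → ℝ) (a b : ℤ) (x : ℕ → ℝ) :
    orbitPoint θ a (orbitPoint θ b x) = orbitPoint θ (a + b) x := by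
  ext i
  simp only [orbitPoint]
  rw [Int.fract_eq_fract]
  refine ⟨-⌊x i + b * θ i⌋, ?_⟩
  rw [Int.fract]
  push_cast
  ring

theorem measurable_orbitPoint₂ (θ : ℕ → ℝ) (j : ℤ) :
    Measurable (fun p : (ℕ → ℝ) × ℤ => orbitPoint θ (p.2 - j) p.1) := by
  unfold orbitPoint
  refine measurable_pi_lambda _ fun i => measurable_fract.comp ?_
  refine Measurable.add (by fun_prop) (Measurable.mul_const ?_ _)
  exact (measurable_from_top (f := fun k : ℤ => ((k - j : ℤ) : ℝ))).comp measurable_snd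

/-- The shift of the second coordinate. -/
def sh (j : ℤ) (p : (ℕ → ℝ) × ℤ) : (ℕ → ℝ) × ℤ := (p.1, p.2 - j)

theorem measurePreserving_sh (j : ℤ) : MeasurePreserving (sh j) pairMeasure pairMeasure :=
  (MeasurePreserving.id cubeMeasure).prod (measurePreserving_sub_right Measure.count j)

theorem measurableEmbedding_sh (j : ℤ) : MeasurableEmbedding (sh j) :=
  MeasurableEmbedding.id.prodMap (measurableEmbedding_subRight j)

/-- `A` is the weighted `j`-step shift with symbol `φ`. -/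
def Word (θ : ℕ → ℝ) (j : ℤ) (φ : (ℕ → ℝ) → ℂ) (A : pairSpace →L[ℂ] pairSpace) : Prop :=
  ∀ g : pairSpace, (A g : (ℕ → ℝ) × ℤ → ℂ) =ᵐ[pairMeasure]
    fun p => φ (orbitPoint θ (p.2 - j) p.1) * (g : (ℕ → ℝ) × ℤ → ℂ) (p.1, p.2 - j)

variable {θ : ℕ → ℝ}

theorem Word.congr {j l : ℤ} {φ ψ : (ℕ → ℝ) → ℂ} {A : pairSpace →L[ℂ] pairSpace}
    (h : Word θ j φ A) (hj : j = l) (hφ : ∀ k x, φ (orbitPoint θ k x) = ψ (orbitPoint θ k x)) :
    Word θ l ψ A := by
  subst hj
  intro g
  filter_upwards [h g] with p hp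
  rw [hp, hφ]

theorem Word.one : Word θ 0 (fun _ => 1) 1 := by
  intro g
  filter_upwards with p
  simp

theorem Word.smul {j : ℤ} {φ : (ℕ → ℝ) → ℂ} {A : pairSpace →L[ℂ] pairSpace}
    (h : Word θ j φ A) (z : ℂ) : Word θ j (fun x => z * φ x) (z • A) := by
  intro g
  filter_upwards [h g, Lp.coeFn_smul z (A g)] with p hp hp'
  rw [smul_apply, hp', Pi.smul_apply, hp, smul_eq_mul, mul_assoc]

theorem Word.add {j : ℤ} {φ ψ : (ℕ → ℝ) → ℂ} {A B : pairSpace →L[ℂ] pairSpace}
    (h : Word θ j φ A) (h' : Word θ j ψ B) : Word θ j (fun x => φ x + ψ x) (A + B) := by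
  intro g
  filter_upwards [h g, h' g, Lp.coeFn_add (A g) (B g)] with p hp hp' hp''
  rw [add_apply, hp'', Pi.add_apply, hp, hp', add_mul]

theorem Word.mul {j l : ℤ} {φ ψ : (ℕ → ℝ) → ℂ} {A B : pairSpace →L[ℂ] pairSpace}
    (h : Word θ j φ A) (h' : Word θ l ψ B) :
    Word θ (j + l) (fun x => φ (orbitPoint θ l x) * ψ x) (A * B) := by
  intro g
  have h2 := (measurePreserving_sh j).quasiMeasurePreserving.ae_eq_comp (h' g)
  filter_upwards [h (B g), h2] with p hp hp'
  rw [mul_apply_eq_comp, hp]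
  simp only [Function.comp, sh] at hp'
  rw [hp', orbitPoint_orbitPoint, mul_assoc, sub_sub]
  congr 3
  ring

theorem Word.norm_le {j : ℤ} {φ : (ℕ → ℝ) → ℂ} {A : pairSpace →L[ℂ] pairSpace}
    (h : Word θ j φ A) {C : ℝ} (hC : 0 ≤ C) (hφ : ∀ x, ‖φ x‖ ≤ C) : ‖A‖ ≤ C := by
  refine ContinuousLinearMap.opNorm_le_bound _ hC fun g => ?_
  rw [← Lp.norm_compMeasurePreserving g (measurePreserving_sh j)]
  refine Lp.norm_le_mul_norm_of_ae_le_mul ?_
  filter_upwards [h g, Lp.coeFn_compMeasurePreserving g (measurePreserving_sh j)] with p hp hp'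
  rw [hp, hp', norm_mul]
  exact mul_le_mul_of_nonneg_right (hφ _) (norm_nonneg _)

theorem Word.star {j : ℤ} {φ : (ℕ → ℝ) → ℂ} {A : pairSpace →L[ℂ] pairSpace}
    (h : Word θ j φ A) (hm : Measurable φ) {C : ℝ} (hφ : ∀ x, ‖φ x‖ ≤ C) :
    Word θ (-j) (fun x => starRingEnd ℂ (φ (orbitPoint θ (-j) x))) (star A) := by
  intro g
  set F : (ℕ → ℝ) × ℤ → ℂ := fun p =>
    starRingEnd ℂ (φ (orbitPoint θ (-j) (orbitPoint θ (p.2 - -j) p.1))) *
      (g : (ℕ → ℝ) × ℤ → ℂ) (p.1, p.2 - -j) with hF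
  have hg : MemLp (fun p : (ℕ → ℝ) × ℤ => (g : (ℕ → ℝ) × ℤ → ℂ) (p.1, p.2 - -j)) 2 pairMeasure :=
    (Lp.memLp g).comp_measurePreserving (measurePreserving_sh (-j))
  have hFm : MemLp F 2 pairMeasure := by
    refine MemLp.of_le_mul (c := C) hg ?_ (Eventually.of_forall fun p => ?_)
    · refine AEStronglyMeasurable.mul ?_ hg.aestronglyMeasurable
      refine Measurable.aestronglyMeasurable ?_
      exact Complex.continuous_conj.measurable.comp
        (hm.comp ((measurable_orbitPoint θ (-j)).comp (measurable_orbitPoint₂ θ (-j))))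
    · simp only [hF]
      rw [norm_mul, Complex.norm_conj]
      exact mul_le_mul_of_nonneg_right (hφ _) (norm_nonneg _)
  have key : (Star.star A) g = hFm.toLp F := by
    refine ext_inner_right ℂ fun u => ?_
    rw [ContinuousLinearMap.star_eq_adjoint, ContinuousLinearMap.adjoint_inner_left,
      L2.inner_def, L2.inner_def,
      ← (measurePreserving_sh (-j)).integral_comp (measurableEmbedding_sh (-j))]
    refine integral_congr_ae ?_
    have h2 := (measurePreserving_sh (-j)).quasiMeasurePreserving.ae_eq_comp (h u)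
    filter_upwards [h2, hFm.coeFn_toLp] with p hp hp'
    simp only [Function.comp, sh] at hp
    rw [hp']
    simp only [sh, hF, RCLike.inner_apply, hp, map_mul, Complex.conj_conj, orbitPoint_orbitPoint]
    have e1 : p.2 - -j - j = p.2 := by ring
    have e2 : -j + (p.2 - -j) = p.2 := by ring
    rw [e1, e2]
    ring
  rw [key]
  exact hFm.coeFn_toLp

theorem restrict_vac : pairMeasure.restrict (Set.univ ×ˢ {(0 : ℤ)}) =
    cubeMeasure.map (fun x => (x, (0 : ℤ))) := by
  rw [pairMeasure, ← Measure.prod_restrict, Measure.restrict_univ, Measure.restrict_singleton,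
    Measure.count_singleton, one_smul, Measure.prod_dirac]

theorem Word.vs_eq {j : ℤ} {φ : (ℕ → ℝ) → ℂ} {A : pairSpace →L[ℂ] pairSpace}
    (h : Word θ j φ A) (hm : Measurable φ) :
    vs vacuumVector A = if j = 0 then ∫ x, φ x ∂cubeMeasure else 0 := by
  rw [vs_apply]
  conv_lhs => congr; unfold vacuumVector
  rw [L2.inner_indicatorConstLp_one]
  set F : (ℕ → ℝ) × ℤ → ℂ := fun p =>
    φ (orbitPoint θ (p.2 - j) p.1) * (if p.2 - j = 0 then 1 else 0) with hF
  have hFm : Measurable F := by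
    refine (hm.comp (measurable_orbitPoint₂ θ j)).mul ?_
    exact (measurable_from_top (f := fun k : ℤ => if k - j = 0 then (1 : ℂ) else 0)).comp
      measurable_snd
  have h1 : (A vacuumVector : (ℕ → ℝ) × ℤ → ℂ) =ᵐ[pairMeasure] F := by
    have h0 : (vacuumVector : (ℕ → ℝ) × ℤ → ℂ) =ᵐ[pairMeasure]
        (Set.univ ×ˢ {(0 : ℤ)} : Set ((ℕ → ℝ) × ℤ)).indicator fun _ => (1 : ℂ) :=
      indicatorConstLp_coeFn
    have h2 := (measurePreserving_sh j).quasiMeasurePreserving.ae_eq_comp h0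
    filter_upwards [h vacuumVector, h2] with p hp hp'
    simp only [Function.comp, sh] at hp'
    rw [hp, hp']
    simp [hF, Set.indicator]
  rw [integral_congr_ae (ae_restrict_of_ae h1), restrict_vac,
    integral_map (by fun_prop) hFm.aestronglyMeasurable]
  simp only [hF]
  split_ifs with h1 h2 h2
  · simp only [mul_one]
    have := integral_map (μ := cubeMeasure) (measurable_orbitPoint θ (0 - j)).aemeasurable
      (f := φ) hm.aestronglyMeasurable
    rw [(measurePreserving_orbitPoint θ _).map_eq] at this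
    exact this.symm
  · omega
  · omega
  · simp

theorem integral_comp_orbitPoint (k : ℤ) {φ : (ℕ → ℝ) → ℂ} (hm : Measurable φ) :
    ∫ x, φ (orbitPoint θ k x) ∂cubeMeasure = ∫ x, φ x ∂cubeMeasure := by
  have := integral_map (μ := cubeMeasure) (measurable_orbitPoint θ k).aemeasurable
    (f := φ) hm.aestronglyMeasurable
  rw [(measurePreserving_orbitPoint θ _).map_eq] at this
  exact this.symm

theorem Word.vs_comm {j l : ℤ} {φ ψ : (ℕ → ℝ) → ℂ} {A B : pairSpace →L[ℂ] pairSpace}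
    (h : Word θ j φ A) (h' : Word θ l ψ B) (hφ : Measurable φ) (hψ : Measurable ψ) :
    vs vacuumVector (A * B) = vs vacuumVector (B * A) := by
  have m1 : Measurable fun x => φ (orbitPoint θ l x) * ψ x :=
    (hφ.comp (measurable_orbitPoint θ l)).mul hψ
  have m2 : Measurable fun x => ψ (orbitPoint θ j x) * φ x :=
    (hψ.comp (measurable_orbitPoint θ j)).mul hφ
  rw [(h.mul h').vs_eq m1, (h'.mul h).vs_eq m2, add_comm l j]
  split_ifs with hjl
  · rw [← integral_comp_orbitPoint (θ := θ) 0 m1, ← integral_comp_orbitPoint (θ := θ) l m2]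
    simp only [orbitPoint_orbitPoint, hjl, add_zero, mul_comm]
  · rfl

/-- The set of all words with bounded measurable symbol. -/
def Words (θ : ℕ → ℝ) : Set (pairSpace →L[ℂ] pairSpace) :=
  {A | ∃ (j : ℤ) (φ : (ℕ → ℝ) → ℂ) (C : ℝ), Measurable φ ∧ (∀ x, ‖φ x‖ ≤ C) ∧ Word θ j φ A}

theorem mul_mem_words (θ : ℕ → ℝ) : ∀ x ∈ Words θ, ∀ y ∈ Words θ, x * y ∈ Words θ := by
  rintro A ⟨j, φ, C, hm, hb, h⟩ B ⟨l, ψ, D, hm', hb', h'⟩
  refine ⟨_, _, C * D, (hm.comp (measurable_orbitPoint θ l)).mul hm', fun x => ?_, h.mul h'⟩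
  rw [Pi.mul_apply, norm_mul]
  exact mul_le_mul (hb _) (hb' _) (norm_nonneg _) ((norm_nonneg _).trans (hb x))

theorem star_mem_words (θ : ℕ → ℝ) : ∀ x ∈ Words θ, star x ∈ Words θ := by
  rintro A ⟨j, φ, C, hm, hb, h⟩
  refine ⟨_, _, C, Complex.continuous_conj.measurable.comp
    (hm.comp (measurable_orbitPoint θ (-j))), fun x => ?_, h.star hm hb⟩
  simp only [Function.comp, Complex.norm_conj]
  exact hb _

theorem vs_comm_words (θ : ℕ → ℝ) : ∀ x ∈ Words θ, ∀ y ∈ Words θ,
    vs vacuumVector (x * y) = vs vacuumVector (y * x) := by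
  rintro A ⟨j, φ, C, hm, hb, h⟩ B ⟨l, ψ, D, hm', hb', h'⟩
  exact h.vs_comm h' hm hm'

theorem smul_one_mem_words (θ : ℕ → ℝ) (z : ℂ) :
    z • (1 : pairSpace →L[ℂ] pairSpace) ∈ Words θ :=
  ⟨0, _, ‖z‖, measurable_const, by simp, Word.one.smul z⟩

theorem vs_one : vs vacuumVector (1 : pairSpace →L[ℂ] pairSpace) = 1 := by
  rw [(Word.one (θ := 0)).vs_eq measurable_const]
  simp

end Crest.Agent.R113.Det
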