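import Mathlib
import Crest.Prelude.Def_ProductShift
import Crest.Agent.R113.DetWord

set_option autoImplicit false

namespace Crest.Agent.R113.Det

open MeasureTheory Filter Topology Crest.AnalysisR.ProductShift
open scoped ENNReal

variable {θ c : ℕ → ℝ}

theorem measurable_dropCost (θ c : ℕ → ℝ) : Measurable (dropCost θ c) := by
  unfold dropCost
  refine Measurable.tsum fun i => ENNReal.measurable_ofReal.comp ?_
  refine Measurable.const_mul ?_ _
  exact (measurable_from_top (f := fun k : ℤ => (k : ℝ))).comp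
    (Measurable.floor (by fun_prop))

theorem measurable_weight (θ c : ℕ → ℝ) : Measurable (weight θ c) := by
  unfold weight
  refine Measurable.ite (measurable_dropCost θ c (measurableSet_singleton ⊤)) measurable_const ?_
  exact Real.measurable_exp.comp (measurable_dropCost θ c).ennreal_toReal.neg

theorem weight_nonneg (θ c : ℕ → ℝ) (x : ℕ → ℝ) : 0 ≤ weight θ c x := by
  unfold weight
  split_ifs
  · exact le_rfl
  · exact (Real.exp_pos _).le

theorem weight_le_one (θ c : ℕ → ℝ) (x : ℕ → ℝ) : weight θ c x ≤ 1 := by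
  unfold weight
  split_ifs
  · exact zero_le_one
  · exact Real.exp_le_one_iff.2 (neg_nonpos.2 ENNReal.toReal_nonneg)

theorem weight_le (θ c : ℕ → ℝ) (x : ℕ → ℝ) (I : ℕ) :
    weight θ c x ≤ Real.exp (-∑ i ∈ Finset.range I, c i * (⌊x i + θ i⌋ : ℝ)) := by
  unfold weight
  split_ifs with h
  · exact (Real.exp_pos _).le
  · refine Real.exp_le_exp.2 (neg_le_neg ?_)
    have h1 : ∑ i ∈ Finset.range I, ENNReal.ofReal (c i * (⌊x i + θ i⌋ : ℝ)) ≤ dropCost θ c x :=
      ENNReal.sum_le_tsum _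
    have h2 := ENNReal.toReal_mono h h1
    rw [ENNReal.toReal_sum (fun i _ => ENNReal.ofReal_ne_top)] at h2
    refine le_trans (Finset.sum_le_sum fun i _ => ?_) h2
    rw [ENNReal.toReal_ofReal']
    exact le_max_left _ _

theorem sum_floor (y t : ℝ) (n : ℕ) :
    ∑ k ∈ Finset.range n, (⌊Int.fract (y + ((k : ℤ) : ℝ) * t) + t⌋ : ℝ) =
      (⌊y + n * t⌋ : ℝ) - ⌊y⌋ := by
  induction n with
  | zero => simp
  | succ n ih =>
    rw [Finset.sum_range_succ, ih]
    have : Int.fract (y + ((n : ℤ) : ℝ) * t) + t = (y + ((n + 1 : ℕ) : ℝ) * t) - ⌊y + n * t⌋ := by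
      rw [Int.fract]; push_cast; ring
    rw [this, Int.floor_sub_intCast]
    push_cast
    ring

theorem prod_weight_le (hc : ∀ i, 0 ≤ c i) (y : ℕ → ℝ) (n I : ℕ) :
    ∏ k ∈ Finset.range n, weight θ c (orbitPoint θ (k : ℤ) y) ≤
      Real.exp (∑ i ∈ Finset.range I, c i) *
        Real.exp (-∑ i ∈ Finset.range I, c i * θ i) ^ n := by
  refine (Finset.prod_le_prod (fun k _ => weight_nonneg θ c _)
    (fun k _ => weight_le θ c _ I)).trans ?_
  rw [← Real.exp_sum, ← Real.exp_nat_mul, ← Real.exp_add]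
  refine Real.exp_le_exp.2 ?_
  rw [Finset.sum_neg_distrib, Finset.sum_comm, mul_neg, Finset.mul_sum, ← sub_eq_add_neg,
    ← Finset.sum_sub_distrib, ← Finset.sum_neg_distrib]
  refine Finset.sum_le_sum fun i _ => ?_
  simp only [orbitPoint]
  rw [← Finset.mul_sum, sum_floor]
  have h1 := Int.lt_floor_add_one (y i + n * θ i)
  have h2 := Int.floor_le (y i)
  have h3 : n * θ i - 1 ≤ (⌊y i + n * θ i⌋ : ℝ) - ⌊y i⌋ := by linarith
  nlinarith [mul_le_mul_of_nonneg_left h3 (hc i)]

theorem lintegral_floor_le {t a : ℝ} (ht : 0 < t ∧ t < 1) (ha : 0 ≤ a) :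
    ∫⁻ x, ENNReal.ofReal (a * (⌊x + t⌋ : ℝ)) ∂unitLebesgue ≤ ENNReal.ofReal (a * t) := by
  have h1 : ∀ x ∈ Set.Ico (0 : ℝ) 1, ENNReal.ofReal (a * (⌊x + t⌋ : ℝ)) ≤
      (Set.Ico (1 - t) 1).indicator (fun _ => ENNReal.ofReal a) x := by
    intro x hx
    by_cases h : 1 - t ≤ x
    · rw [Set.indicator_of_mem (show x ∈ Set.Ico (1 - t) 1 from ⟨h, hx.2⟩)]
      refine ENNReal.ofReal_le_ofReal (mul_le_of_le_one_right ha ?_)
      have : ⌊x + t⌋ < 2 := Int.floor_lt.2 (by push_cast; linarith [hx.2, ht.2])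
      have : ⌊x + t⌋ ≤ 1 := by omega
      exact_mod_cast this
    · have : ⌊x + t⌋ = 0 := Int.floor_eq_zero_iff.2 ⟨by linarith [hx.1, ht.1], by linarith⟩
      simp [this]
  refine (setLIntegral_mono' measurableSet_Ico h1).trans ?_
  refine (setLIntegral_le_lintegral _ _).trans ?_
  rw [lintegral_indicator_const measurableSet_Ico, Real.volume_Ico, ← ENNReal.ofReal_mul ha]
  simp

theorem exists_le_sum (hθ : ∀ i, 0 < θ i ∧ θ i < 1) (hc : ∀ i, 0 ≤ c i)
    (hlog : ∫⁻ x, ENNReal.ofReal (- Real.log (weight θ c x)) ∂cubeMeasure = ⊤) (R : ℝ) :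
    ∃ I : ℕ, R ≤ ∑ i ∈ Finset.range I, c i * θ i := by
  by_contra hcon
  push Not at hcon
  have h1 : ∀ x, ENNReal.ofReal (- Real.log (weight θ c x)) ≤ dropCost θ c x := by
    intro x
    unfold weight
    split_ifs with h
    · simp
    · rw [Real.log_exp, neg_neg, ENNReal.ofReal_toReal h]
  have hm : ∀ i, Measurable fun t : ℝ => ENNReal.ofReal (c i * (⌊t + θ i⌋ : ℝ)) := fun i =>
    ENNReal.measurable_ofReal.comp (Measurable.const_mul
      ((measurable_from_top (f := fun k : ℤ => (k : ℝ))).comp (Measurable.floor (by fun_prop))) _)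
  have h2 : ∫⁻ x, dropCost θ c x ∂cubeMeasure ≤ ENNReal.ofReal R := by
    unfold dropCost
    rw [lintegral_tsum (f := fun i (x : ℕ → ℝ) => ENNReal.ofReal (c i * (⌊x i + θ i⌋ : ℝ)))
      (fun i => ((hm i).comp (measurable_pi_apply i)).aemeasurable),
      ENNReal.tsum_eq_iSup_nat]
    refine iSup_le fun I => ?_
    refine le_trans ?_ (ENNReal.ofReal_le_ofReal (hcon I).le)
    rw [ENNReal.ofReal_sum_of_nonneg fun i _ => mul_nonneg (hc i) (hθ i).1.le]
    refine Finset.sum_le_sum fun i _ => ?_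
    refine le_trans (le_of_eq ?_) (lintegral_floor_le (hθ i) (hc i))
    exact (measurePreserving_eval_infinitePi (fun _ : ℕ => unitLebesgue) i).lintegral_comp (hm i)
  have h3 := (lintegral_mono h1).trans h2
  rw [hlog] at h3
  exact ENNReal.ofReal_ne_top (top_le_iff.1 h3)

variable {T : pairSpace →L[ℂ] pairSpace}

theorem word_of_shift (hT : IsWeightedShift θ c T) : Word θ 1 (fun x => (weight θ c x : ℂ)) T :=
  hT

theorem measurable_weightC (θ c : ℕ → ℝ) : Measurable fun x => (weight θ c x : ℂ) :=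
  Complex.measurable_ofReal.comp (measurable_weight θ c)

theorem norm_weightC (θ c : ℕ → ℝ) (x : ℕ → ℝ) : ‖(weight θ c x : ℂ)‖ ≤ 1 := by
  rw [Complex.norm_real, Real.norm_eq_abs, abs_of_nonneg (weight_nonneg θ c x)]
  exact weight_le_one θ c x

theorem word_pow (hT : IsWeightedShift θ c T) (n : ℕ) :
    Word θ n (fun y => ((∏ k ∈ Finset.range n, weight θ c (orbitPoint θ (k : ℤ) y) : ℝ) : ℂ))
      (T ^ n) := by
  induction n with
  | zero => simpa using Word.one
  | succ n ih =>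
    rw [pow_succ']
    refine ((word_of_shift hT).mul ih).congr (by push_cast; ring) fun k x => ?_
    rw [Finset.prod_range_succ]
    push_cast
    ring

theorem vs_pow (hT : IsWeightedShift θ c T) (n : ℕ) : vs vacuumVector (T ^ (n + 1)) = 0 := by
  rw [(word_pow hT (n + 1)).vs_eq, if_neg (by omega)]
  refine Complex.measurable_ofReal.comp (Finset.measurable_prod _ fun k _ => ?_)
  exact (measurable_weight θ c).comp (measurable_orbitPoint θ _)

theorem summable_pow (hθ : ∀ i, 0 < θ i ∧ θ i < 1) (hc : ∀ i, 0 ≤ c i)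
    (hlog : ∫⁻ x, ENNReal.ofReal (- Real.log (weight θ c x)) ∂cubeMeasure = ⊤)
    (hT : IsWeightedShift θ c T) (s : ℂ) : Summable fun n : ℕ => (s • T) ^ n := by
  obtain ⟨I, hI⟩ := exists_le_sum hθ hc hlog ‖s‖
  set A := ∑ i ∈ Finset.range I, c i * θ i with hA
  set B := Real.exp (∑ i ∈ Finset.range I, c i) with hB
  have hq : ‖s‖ * Real.exp (-A) < 1 := by
    rw [Real.exp_neg, mul_inv_lt_iff₀ (Real.exp_pos A), one_mul]
    linarith [Real.add_one_le_exp A]
  refine Summable.of_norm_bounded (g := fun n => B * (‖s‖ * Real.exp (-A)) ^ n)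
    ((summable_geometric_of_lt_one (by positivity) hq).mul_left _) fun n => ?_
  have h1 : ‖T ^ n‖ ≤ B * Real.exp (-A) ^ n := by
    refine (word_pow hT n).norm_le (by positivity) fun y => ?_
    rw [Complex.norm_real, Real.norm_eq_abs,
      abs_of_nonneg (Finset.prod_nonneg fun k _ => weight_nonneg θ c _)]
    exact prod_weight_le hc y n I
  rw [smul_pow, norm_smul, norm_pow, mul_pow]
  calc ‖s‖ ^ n * ‖T ^ n‖ ≤ ‖s‖ ^ n * (B * Real.exp (-A) ^ n) := by gcongr
    _ = B * (‖s‖ ^ n * Real.exp (-A) ^ n) := by ring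

theorem word_defect (hT : IsWeightedShift θ c T) :
    Word θ 0 (fun y => ((1 - weight θ c y ^ 2 : ℝ) : ℂ)) (1 - star T * T) := by
  have h1 := ((word_of_shift hT).star (measurable_weightC θ c) (norm_weightC θ c)).mul
    (word_of_shift hT)
  rw [neg_add_cancel] at h1
  have h2 := Word.one.add (h1.smul (-1))
  rw [neg_one_smul, ← sub_eq_add_neg] at h2
  refine h2.congr rfl fun k x => ?_
  simp only [orbitPoint_orbitPoint, Complex.conj_ofReal]
  have : -1 + (1 + k) = k := by ring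
  rw [this]
  push_cast
  ring

theorem word_defect_pow (hT : IsWeightedShift θ c T) (n : ℕ) :
    Word θ 0 (fun y => (((1 - weight θ c y ^ 2) ^ n : ℝ) : ℂ)) ((1 - star T * T) ^ n) := by
  induction n with
  | zero => simpa using Word.one
  | succ n ih =>
    rw [pow_succ']
    refine ((word_defect hT).mul ih).congr (by ring) fun k x => ?_
    simp only [orbitPoint_orbitPoint, zero_add]
    push_cast
    ring

theorem defect_nonneg (θ c : ℕ → ℝ) (y : ℕ → ℝ) : 0 ≤ 1 - weight θ c y ^ 2 := by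
  nlinarith [weight_nonneg θ c y, weight_le_one θ c y]

theorem defect_le_one (θ c : ℕ → ℝ) (y : ℕ → ℝ) : 1 - weight θ c y ^ 2 ≤ 1 := by
  nlinarith [weight_nonneg θ c y]

theorem norm_defect_le (hT : IsWeightedShift θ c T) : ‖1 - star T * T‖ ≤ 1 := by
  refine (word_defect hT).norm_le zero_le_one fun y => ?_
  rw [Complex.norm_real, Real.norm_eq_abs, abs_of_nonneg (defect_nonneg θ c y)]
  exact defect_le_one θ c y

theorem measurable_defect_pow (θ c : ℕ → ℝ) (n : ℕ) :
    Measurable fun y => (1 - weight θ c y ^ 2) ^ n :=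
  (measurable_const.sub ((measurable_weight θ c).pow_const 2)).pow_const n

theorem vs_defect_pow (hT : IsWeightedShift θ c T) (n : ℕ) :
    (vs vacuumVector ((1 - star T * T) ^ n)).re = ∫ y, (1 - weight θ c y ^ 2) ^ n ∂cubeMeasure := by
  rw [(word_defect_pow hT n).vs_eq (Complex.measurable_ofReal.comp (measurable_defect_pow θ c n)),
    if_pos rfl, integral_complex_ofReal, Complex.ofReal_re]

theorem exists_le_moments (hpos : ∀ᵐ x ∂cubeMeasure, 0 < weight θ c x)
    (hlog : ∫⁻ x, ENNReal.ofReal (- Real.log (weight θ c x)) ∂cubeMeasure = ⊤) (R : ℝ) :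
    ∃ K : ℕ, R ≤ ∑ k ∈ Finset.range K,
      ((k : ℝ) + 1)⁻¹ * ∫ y, (1 - weight θ c y ^ 2) ^ (k + 1) ∂cubeMeasure := by
  by_contra hcon
  push Not at hcon
  have hnn : ∀ (k : ℕ) y, 0 ≤ ((k : ℝ) + 1)⁻¹ * (1 - weight θ c y ^ 2) ^ (k + 1) := fun k y =>
    mul_nonneg (by positivity) (pow_nonneg (defect_nonneg θ c y) _)
  have h1 : ∀ᵐ x ∂cubeMeasure, ENNReal.ofReal (- Real.log (weight θ c x)) ≤
      ∑' k : ℕ, ENNReal.ofReal (((k : ℝ) + 1)⁻¹ * (1 - weight θ c x ^ 2) ^ (k + 1)) := by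
    filter_upwards [hpos] with x hx
    have h0 : |1 - weight θ c x ^ 2| < 1 := by
      rw [abs_of_nonneg (defect_nonneg θ c x)]
      nlinarith
    have hs := Real.hasSum_pow_div_log_of_abs_lt_one h0
    simp only [div_eq_inv_mul] at hs
    rw [← ENNReal.ofReal_tsum_of_nonneg (fun k => hnn k x) hs.summable, hs.tsum_eq,
      sub_sub_cancel, Real.log_pow]
    refine ENNReal.ofReal_le_ofReal ?_
    have := Real.log_nonpos hx.le (weight_le_one θ c x)
    push_cast
    linarith
  have hint : ∀ k : ℕ, Integrable (fun y => (1 - weight θ c y ^ 2) ^ (k + 1)) cubeMeasure := by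
    intro k
    refine Integrable.of_bound (measurable_defect_pow θ c _).aestronglyMeasurable 1
      (Eventually.of_forall fun y => ?_)
    rw [Real.norm_eq_abs, abs_of_nonneg (pow_nonneg (defect_nonneg θ c y) _)]
    exact pow_le_one₀ (defect_nonneg θ c y) (defect_le_one θ c y)
  have h2 : ∫⁻ x, ∑' k : ℕ, ENNReal.ofReal (((k : ℝ) + 1)⁻¹ * (1 - weight θ c x ^ 2) ^ (k + 1))
      ∂cubeMeasure ≤ ENNReal.ofReal R := by
    rw [lintegral_tsum (f := fun (k : ℕ) (x : ℕ → ℝ) =>
      ENNReal.ofReal (((k : ℝ) + 1)⁻¹ * (1 - weight θ c x ^ 2) ^ (k + 1))) (fun k => (ENNReal.measurable_ofReal.comp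
      ((measurable_defect_pow θ c _).const_mul _)).aemeasurable), ENNReal.tsum_eq_iSup_nat]
    refine iSup_le fun K => ?_
    refine le_trans ?_ (ENNReal.ofReal_le_ofReal (hcon K).le)
    rw [ENNReal.ofReal_sum_of_nonneg fun k _ => mul_nonneg (by positivity)
      (integral_nonneg fun y => pow_nonneg (defect_nonneg θ c y) _)]
    refine Finset.sum_le_sum fun k _ => le_of_eq ?_
    rw [← integral_const_mul, ofReal_integral_eq_lintegral_ofReal ((hint k).const_mul _)
      (Eventually.of_forall fun y => hnn k y)]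
  have h3 := (lintegral_mono_ae h1).trans h2
  rw [hlog] at h3
  exact ENNReal.ofReal_ne_top (top_le_iff.1 h3)

theorem main (hθ : ∀ i, 0 < θ i ∧ θ i < 1) (hc : ∀ i, 0 ≤ c i)
    (hpos : ∀ᵐ x ∂cubeMeasure, 0 < weight θ c x)
    (hlog : ∫⁻ x, ENNReal.ofReal (- Real.log (weight θ c x)) ∂cubeMeasure = ⊤)
    (hT : IsWeightedShift θ c T) (z : ℂ) :
    vectorDet vacuumVector (T - z • (1 : pairSpace →L[ℂ] pairSpace)) = ‖z‖ := by
  rcases eq_or_ne z 0 with rfl | hz
  · rw [zero_smul, sub_zero, norm_zero]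
    refine vectorDet_eq_zero_of_moments _ T vs_one (norm_defect_le hT) (fun k => ?_) fun R => ?_
    · rw [vs_defect_pow hT]
      exact integral_nonneg fun y => pow_nonneg (defect_nonneg θ c y) _
    · simp only [vs_defect_pow hT]
      exact exists_le_moments hpos hlog R
  · exact vectorDet_sub_of_ne _ (Words θ) (smul_one_mem_words θ) (mul_mem_words θ)
      (star_mem_words θ) (vs_comm_words θ) vs_one T
      ⟨1, _, 1, measurable_weightC θ c, norm_weightC θ c, word_of_shift hT⟩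
      (summable_pow hθ hc hlog hT) (vs_pow hT) z hz

end Crest.Agent.R113.Det
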