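import Mathlib

/-!
A Domar-type lemma for two-sided sequences with rapidly growing monotone weights: if all forward
weighted correlations of `f` and `g` vanish, then the support of `g` lies strictly to the left of
the support of `f`.
-/

set_option autoImplicit false

namespace Crest.Agent.R113

open Polynomial

/-- Coefficients of two factors are controlled by the coefficients of the product. -/
theorem coeff_mul_coeff_le (P Q : ℂ[X]) (i j d e : ℕ) (K : ℝ) (hP : P.natDegree ≤ d)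
    (hQ : Q.natDegree ≤ e) (hK : ∀ n, ‖(P * Q).coeff n‖ ≤ K) :
    ‖P.coeff i‖ * ‖Q.coeff j‖ ≤ 2 ^ (d + e) * ((d + e + 1) * K) := by
  have hc : ∀ (R : ℂ[X]) (i d : ℕ), R.natDegree ≤ d → ‖R.coeff i‖ ≤ 2 ^ d * R.mahlerMeasure := by
    intro R i d hR
    refine (norm_coeff_le_choose_mul_mahlerMeasure i R).trans
      (mul_le_mul_of_nonneg_right ?_ (mahlerMeasure_nonneg _))
    have h1 : R.natDegree.choose i ≤ 2 ^ d :=
      (Nat.choose_le_two_pow _ _).trans (Nat.pow_le_pow_right (by norm_num) hR)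
    exact_mod_cast h1
  have hM : (P * Q).mahlerMeasure ≤ (d + e + 1) * K := by
    refine (mahlerMeasure_le_sum_norm_coeff _).trans ?_
    rw [sum_over_range' _ (by simp) (d + e + 1)
      (Nat.lt_succ_of_le (natDegree_mul_le.trans (add_le_add hP hQ)))]
    refine (Finset.sum_le_sum fun n _ => hK n).trans ?_
    simp
  calc ‖P.coeff i‖ * ‖Q.coeff j‖ ≤ (2 ^ d * P.mahlerMeasure) * (2 ^ e * Q.mahlerMeasure) :=
        mul_le_mul (hc P i d hP) (hc Q j e hQ) (norm_nonneg _)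
          (mul_nonneg (by positivity) (mahlerMeasure_nonneg _))
    _ = 2 ^ (d + e) * (P * Q).mahlerMeasure := by rw [mahlerMeasure_mul, pow_add]; ring
    _ ≤ _ := mul_le_mul_of_nonneg_left hM (by positivity)

/-- The same bound for two-sided sequences cut to boxes. -/
theorem box_bound (p q : ℤ → ℂ) (L m₁ m₂ : ℕ) (K : ℝ)
    (hK : ∀ n : ℤ, ‖∑ j ∈ Finset.Icc (-(L : ℤ)) m₁,
      if j + n ∈ Finset.Icc (-(m₂ : ℤ)) L then p j * q (j + n) else 0‖ ≤ K)
    {j₀ k₀ : ℤ} (hj : j₀ ∈ Finset.Icc (-(L : ℤ)) m₁) (hk : k₀ ∈ Finset.Icc (-(m₂ : ℤ)) L) :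
    ‖p j₀‖ * ‖q k₀‖ ≤ 2 ^ ((L + m₁) + (L + m₂)) * ((((L + m₁ : ℕ) : ℝ) + (L + m₂ : ℕ) + 1) * K) := by
  set P : ℂ[X] := ∑ j ∈ Finset.Icc (-(L : ℤ)) m₁, monomial (m₁ - j).toNat (p j) with hP
  set Q : ℂ[X] := ∑ k ∈ Finset.Icc (-(m₂ : ℤ)) L, monomial (k + m₂).toNat (q k) with hQ
  have h1 : P.coeff (m₁ - j₀).toNat = p j₀ := by
    rw [hP, finsetSum_coeff, Finset.sum_eq_single j₀]
    · simp
    · intro j hj' hne
      rw [coeff_monomial, if_neg]
      simp only [Finset.mem_Icc] at hj hj'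
      omega
    · exact fun h => absurd hj h
  have h2 : Q.coeff (k₀ + m₂).toNat = q k₀ := by
    rw [hQ, finsetSum_coeff, Finset.sum_eq_single k₀]
    · simp
    · intro j hj' hne
      rw [coeff_monomial, if_neg]
      simp only [Finset.mem_Icc] at hk hj'
      omega
    · exact fun h => absurd hk h
  rw [← h1, ← h2]
  refine coeff_mul_coeff_le P Q _ _ _ _ K ?_ ?_ fun N => ?_
  · refine natDegree_sum_le_of_forall_le _ _ fun j hj' => (natDegree_monomial_le _).trans ?_
    simp only [Finset.mem_Icc] at hj'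
    omega
  · refine natDegree_sum_le_of_forall_le _ _ fun j hj' => (natDegree_monomial_le _).trans ?_
    simp only [Finset.mem_Icc] at hj'
    omega
  · refine le_of_eq_of_le ?_ (hK (N - m₁ - m₂))
    congr 1
    rw [hP, hQ, Finset.sum_mul_sum, finsetSum_coeff]
    refine Finset.sum_congr rfl fun j hj' => ?_
    rw [finsetSum_coeff, ← Finset.sum_ite_eq (Finset.Icc (-(m₂ : ℤ)) L) (j + (N - m₁ - m₂))
      (fun k => p j * q k)]
    refine Finset.sum_congr rfl fun k hk' => ?_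
    rw [monomial_mul_monomial, coeff_monomial]
    simp only [Finset.mem_Icc] at hj' hk'
    refine if_congr ?_ rfl rfl
    omega

theorem le_of_step (ψ : ℤ → ℝ) {u v : ℤ} (huv : u ≤ v)
    (h : ∀ j, u ≤ j → j < v → ψ j ≤ ψ (j + 1)) : ψ u ≤ ψ v := by
  induction v, huv using Int.leInduction with
  | base => exact le_rfl
  | succ v hv ih =>
    exact (ih fun j h1 h2 => h j h1 (by omega)).trans (h v hv (by omega))

/-- The growth and monotonicity conditions on the logarithmic weights. -/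
structure Good (φ : ℤ → ℝ) : Prop where
  pos : ∀ j : ℤ, 0 ≤ j → 10 * ((j : ℝ) + 1) ≤ φ (j + 1) - φ j
  neg : ∀ j : ℤ, j < 0 → 10 * (-(j : ℝ)) ≤ φ (j + 1) - φ j
  mono : ∀ i j : ℤ, 0 ≤ i → i ≤ j → φ (i + 1) - φ i ≤ φ (j + 1) - φ j
  anti : ∀ i j : ℤ, i < 0 → j ≤ i → φ (i + 1) - φ i ≤ φ (j + 1) - φ j

/-- The comparison potential. -/
def base (j : ℤ) : ℤ := if 0 ≤ j then 5 * j * (j + 1) else -(5 * j * (j - 1))

theorem Good.base_le {φ : ℤ → ℝ} (h : Good φ) {u v : ℤ} (huv : u ≤ v) :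
    φ u - base u ≤ φ v - base v := by
  refine le_of_step (fun j => φ j - base j) huv fun j _ _ => ?_
  simp only [base]
  rcases lt_trichotomy j (-1) with hj | rfl | hj
  · have := h.neg j (by omega)
    rw [if_neg (by omega), if_neg (by omega)]
    push_cast
    linarith
  · have := h.neg (-1) (by omega)
    norm_num at this ⊢
    linarith
  · have := h.pos j (by omega)
    rw [if_pos (by omega), if_pos (by omega)]
    push_cast
    linarith

theorem Good.monotone {φ : ℤ → ℝ} (h : Good φ) {u v : ℤ} (huv : u ≤ v) : φ u ≤ φ v := by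
  refine le_of_step φ huv fun j _ _ => ?_
  rcases lt_or_ge j 0 with hj | hj
  · have := h.neg j hj
    have h2 : (j : ℝ) < 0 := by exact_mod_cast hj
    linarith
  · have := h.pos j hj
    have h2 : (0 : ℝ) ≤ j := by exact_mod_cast hj
    linarith

theorem Good.pow_le {φ : ℤ → ℝ} (h : Good φ) (j : ℤ) (n : ℕ) (hn : 1 ≤ n) :
    10 * (((n + 1) ^ 2 / 4 : ℕ) : ℝ) ≤ φ (j + n) - φ j := by
  have h1 := h.base_le (u := j) (v := j + n) (by omega)
  have h2 : 10 * (((n + 1) ^ 2 / 4 : ℕ) : ℤ) ≤ base (j + n) - base j := by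
    have h3 : 4 * ((n + 1) ^ 2 / 4) ≤ (n + 1) ^ 2 := Nat.mul_div_le _ _
    set M := (n + 1) ^ 2 / 4
    have h4 : 4 * (M : ℤ) ≤ ((n : ℤ) + 1) ^ 2 := by exact_mod_cast h3
    have hn' : (1 : ℤ) ≤ n := by exact_mod_cast hn
    simp only [base]
    split_ifs with h5 h6 h6
    · nlinarith
    · obtain ⟨X, hX⟩ : ∃ X : ℤ, (j + n) * (j + n + 1) + j * (j - 1) = 2 * X := by
        obtain ⟨a, ha⟩ := Int.even_mul_succ_self (j + n)
        obtain ⟨b, hb⟩ := Int.even_mul_pred_self j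
        exact ⟨a + b, by linarith⟩
      have h7 : 4 * (M : ℤ) ≤ 4 * X + 1 := by nlinarith [sq_nonneg (2 * j + n)]
      have h8 : (M : ℤ) ≤ X := by omega
      nlinarith
    · omega
    · have : j + n ≤ -1 := by omega
      nlinarith
  generalize (n + 1) ^ 2 / 4 = M at h2 ⊢
  have h3 : (10 : ℝ) * (M : ℝ) ≤ (base (j + n) : ℝ) - base j := by
    have := (Int.cast_le (R := ℝ)).2 h2
    push_cast at this
    exact this
  linarith

theorem Good.exists_cut {φ : ℤ → ℝ} (h : Good φ) (N : ℕ) :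
    ∃ m₁ m₂ : ℕ, m₁ ≤ 3 * N ∧ m₂ ≤ 3 * N ∧
      (∀ j : ℤ, -(m₂ : ℤ) ≤ j → j < m₁ → φ (j + 1) - φ j ≤ 30 * N) ∧
      (∀ j : ℤ, m₁ ≤ j → 30 * N < φ (j + 1) - φ j) ∧
      ∀ j : ℤ, j < -(m₂ : ℤ) → 30 * N < φ (j + 1) - φ j := by
  classical
  have e1 : (30 * N : ℝ) < φ ((3 * N : ℕ) + 1) - φ (3 * N : ℕ) := by
    have := h.pos (3 * N : ℕ) (by omega)
    push_cast at this ⊢
    linarith
  have e2 : (30 * N : ℝ) < φ (-((3 * N : ℕ) : ℤ) - 1 + 1) - φ (-((3 * N : ℕ) : ℤ) - 1) := by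
    have := h.neg (-((3 * N : ℕ) : ℤ) - 1) (by omega)
    push_cast at this ⊢
    linarith
  have x1 : ∃ m : ℕ, (30 * N : ℝ) < φ (m + 1) - φ m := ⟨_, e1⟩
  have x2 : ∃ m : ℕ, (30 * N : ℝ) < φ (-(m : ℤ) - 1 + 1) - φ (-(m : ℤ) - 1) := ⟨_, e2⟩
  refine ⟨Nat.find x1, Nat.find x2, Nat.find_min' _ e1, Nat.find_min' _ e2, fun j h1 h2 => ?_,
    fun j h1 => ?_, fun j h1 => ?_⟩
  · rcases lt_or_ge j 0 with hj | hj
    · have := Nat.find_min x2 (m := (-j - 1).toNat) (by omega)
      rw [show -(((-j - 1).toNat : ℕ) : ℤ) - 1 = j by omega] at this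
      exact not_lt.1 this
    · have := Nat.find_min x1 (m := j.toNat) (by omega)
      rw [show ((j.toNat : ℕ) : ℤ) = j by omega] at this
      exact not_lt.1 this
  · exact (Nat.find_spec x1).trans_le (h.mono _ _ (by omega) h1)
  · exact (Nat.find_spec x2).trans_le (h.anti _ _ (by omega) (by omega))

theorem Good.bound {φ : ℤ → ℝ} (h : Good φ) (f g : ℤ → ℂ) (K : ℝ)
    (hs : ∀ n : ℤ, Summable fun j => ‖f j‖ * ‖g (j + n)‖)
    (hK : ∀ n : ℤ, ∑' j, ‖f j‖ * ‖g (j + n)‖ ≤ K)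
    (h0 : ∀ n : ℕ, ∑' j, f j * (Real.exp (φ j - φ (j + n)) : ℂ) * g (j + n) = 0)
    (N : ℕ) {j₀ k₀ : ℤ} (hj : -(10 * N : ℤ) ≤ j₀) (hj' : φ (j₀ - 1 + 1) - φ (j₀ - 1) ≤ 30 * N)
    (hk : k₀ ≤ 10 * N) (hk' : φ (k₀ + 1) - φ k₀ ≤ 30 * N) :
    ‖f j₀‖ * ‖g k₀‖ * Real.exp (φ j₀ - φ k₀) * Real.exp (30 * N * (k₀ - j₀)) ≤
      2 ^ (26 * N) * ((26 * N + 1) * K) := by
  obtain ⟨m₁, m₂, hm₁, hm₂, c1, c2, c3⟩ := h.exists_cut N
  have hK0 : 0 ≤ K := (tsum_nonneg fun j => by positivity).trans (hK 0)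
  set ψ : ℤ → ℝ := fun j => 30 * N * j - φ j with hψ
  have up : ∀ u v : ℤ, -(m₂ : ℤ) ≤ u → u ≤ v → v ≤ m₁ → ψ u ≤ ψ v := fun u v h1 h2 h3 =>
    le_of_step ψ h2 fun j h4 h5 => by
      have := c1 j (by omega) (by omega)
      simp only [hψ]
      push_cast
      linarith
  have down1 : ∀ u v : ℤ, m₁ ≤ u → u ≤ v → ψ v ≤ ψ u := fun u v h1 h2 => by
    have := le_of_step (fun j => -ψ j) h2 fun j h4 h5 => by
      have := c2 j (by omega)
      simp only [hψ]
      push_cast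
      linarith
    linarith
  have down2 : ∀ u v : ℤ, u ≤ v → v ≤ -(m₂ : ℤ) → ψ v ≤ ψ u := fun u v h2 h1 => by
    have := le_of_step (fun j => -ψ j) h2 fun j h4 h5 => by
      have := c3 j (by omega)
      simp only [hψ]
      push_cast
      linarith
    linarith
  have hN : (0 : ℝ) ≤ N := Nat.cast_nonneg _
  have far1 : ∀ j : ℤ, j < -(10 * N : ℤ) → ψ m₁ ≤ ψ j := fun j hj => by
    have h1 := h.base_le (u := j) (v := 0) (by omega)
    have h2 := h.monotone (u := 0) (v := m₁) (by omega)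
    simp only [base, if_neg (show ¬ 0 ≤ j by omega)] at h1
    have h3 : (j : ℝ) ≤ -(10 * N) := by exact_mod_cast hj.le
    have h4 : (m₁ : ℝ) ≤ 3 * N := by exact_mod_cast hm₁
    simp only [hψ]
    push_cast at h1 ⊢
    nlinarith
  have far2 : ∀ k : ℤ, (10 * N : ℤ) < k → ψ k ≤ ψ (-(m₂ : ℤ)) := fun k hk => by
    have h1 := h.base_le (u := 0) (v := k) (by omega)
    have h2 := h.monotone (u := -(m₂ : ℤ)) (v := 0) (by omega)
    simp only [base, if_pos (show 0 ≤ k by omega)] at h1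
    have h3 : (10 * N : ℝ) ≤ k := by exact_mod_cast hk.le
    have h4 : (m₂ : ℝ) ≤ 3 * N := by exact_mod_cast hm₂
    simp only [hψ]
    push_cast at h1 ⊢
    nlinarith
  have top : ∀ k : ℤ, -(m₂ : ℤ) ≤ k → ψ k ≤ ψ m₁ := fun k hk => by
    rcases le_total k m₁ with h1 | h1
    · exact up _ _ hk h1 le_rfl
    · exact down1 _ _ le_rfl h1
  have bot : ∀ j : ℤ, j ≤ m₁ → ψ (-(m₂ : ℤ)) ≤ ψ j := fun j hj => by
    rcases le_total j (-(m₂ : ℤ)) with h1 | h1
    · exact down2 _ _ h1 le_rfl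
    · exact up _ _ le_rfl h1 hj
  have out : ∀ j k : ℤ, j ≤ k → ¬ (j ∈ Finset.Icc (-((10 * N : ℕ) : ℤ)) m₁ ∧
      k ∈ Finset.Icc (-(m₂ : ℤ)) (10 * N : ℕ)) → ψ k ≤ ψ j := by
    intro j k hjk hn
    simp only [Finset.mem_Icc] at hn
    push_cast at hn
    rcases le_or_gt (m₁ : ℤ) j with h1 | h1
    · exact down1 _ _ h1 hjk
    rcases le_or_gt k (-(m₂ : ℤ)) with h2 | h2
    · exact down2 _ _ hjk h2
    rcases lt_or_ge j (-(10 * N : ℤ)) with h3 | h3
    · exact (top k h2.le).trans (far1 j h3)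
    · exact (far2 k (by omega)).trans (bot j h1.le)
  set p : ℤ → ℂ := fun j => f j * (Real.exp (-ψ j) : ℂ) with hp
  set q : ℤ → ℂ := fun k => g k * (Real.exp (ψ k) : ℂ) with hq
  have hpq : ∀ j k, ‖p j‖ * ‖q k‖ = ‖f j‖ * ‖g k‖ * Real.exp (ψ k - ψ j) := by
    intro j k
    simp only [hp, hq, norm_mul, Complex.norm_real, Real.norm_eq_abs, Real.abs_exp]
    rw [sub_eq_add_neg, Real.exp_add]
    ring
  have hle : ∀ j k, ψ k ≤ ψ j → ‖p j * q k‖ ≤ ‖f j‖ * ‖g k‖ := by
    intro j k hjk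
    rw [norm_mul, hpq]
    exact mul_le_of_le_one_right (by positivity) (Real.exp_le_one_iff.2 (by linarith))
  have key := box_bound p q (10 * N) m₁ m₂ K (fun n => ?_) (j₀ := j₀) (k₀ := k₀)
    (by
      simp only [Finset.mem_Icc]
      refine ⟨by push_cast; exact hj, ?_⟩
      by_contra hc
      exact absurd (c2 (j₀ - 1) (by omega)) (not_lt.2 hj'))
    (by
      simp only [Finset.mem_Icc]
      refine ⟨?_, by push_cast; exact hk⟩
      by_contra hc
      exact absurd (c3 k₀ (by omega)) (not_lt.2 hk'))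
  · rw [hpq] at key
    have e : ψ k₀ - ψ j₀ = (φ j₀ - φ k₀) + 30 * N * (k₀ - j₀) := by simp only [hψ]; ring
    rw [e, Real.exp_add, ← mul_assoc] at key
    refine key.trans (mul_le_mul (pow_le_pow_right₀ (by norm_num) (by omega))
      (mul_le_mul_of_nonneg_right ?_ hK0) (by positivity) (by positivity))
    have h4 : (m₁ : ℝ) ≤ 3 * N := by exact_mod_cast hm₁
    have h5 : (m₂ : ℝ) ≤ 3 * N := by exact_mod_cast hm₂
    push_cast
    linarith
  · set s := Finset.Icc (-((10 * N : ℕ) : ℤ)) m₁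
    set s' := Finset.Icc (-(m₂ : ℤ)) (10 * N : ℕ)
    have hsum : (∑ j ∈ s, if j + n ∈ s' then p j * q (j + n) else 0) =
        ∑' j, if j ∈ s ∧ j + n ∈ s' then p j * q (j + n) else 0 := by
      rw [tsum_eq_sum (s := s) fun j hj => if_neg fun hc => hj hc.1]
      exact Finset.sum_congr rfl fun j hj => by simp [hj]
    rw [hsum]
    rcases lt_or_ge n 0 with hn | hn
    · refine (tsum_of_norm_bounded (hs n).hasSum fun j => ?_).trans (hK n)
      split_ifs with hc
      · refine hle _ _ (up _ _ (Finset.mem_Icc.1 hc.2).1 (by omega) (Finset.mem_Icc.1 hc.1).2)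
      · rw [norm_zero]
        positivity
    · obtain ⟨n, rfl⟩ := Int.eq_ofNat_of_zero_le hn
      have e : ∀ j, p j * q (j + n) = (Real.exp (30 * N * n) : ℂ) *
          (f j * (Real.exp (φ j - φ (j + n)) : ℂ) * g (j + n)) := by
        intro j
        have : Real.exp (-ψ j) * Real.exp (ψ (j + n)) =
            Real.exp (30 * N * n) * Real.exp (φ j - φ (j + n)) := by
          rw [← Real.exp_add, ← Real.exp_add]
          congr 1
          simp only [hψ]
          push_cast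
          ring
        have h2 := congrArg (fun x : ℝ => (x : ℂ)) this
        simp only [Complex.ofReal_mul] at h2
        simp only [hp, hq]
        linear_combination (f j * g (j + n)) * h2
      have hall : Summable fun j => p j * q (j + n) := by
        simp only [e]
        refine Summable.mul_left _ (Summable.of_norm_bounded (hs n) fun j => ?_)
        simp only [norm_mul, Complex.norm_real, Real.norm_eq_abs, Real.abs_exp]
        have h1 : Real.exp (φ j - φ (j + n)) ≤ 1 :=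
          Real.exp_le_one_iff.2 (sub_nonpos.2 (h.monotone (by omega)))
        exact mul_le_mul_of_nonneg_right (mul_le_of_le_one_right (norm_nonneg _) h1)
          (norm_nonneg _)
      have hzero : ∑' j, p j * q (j + n) = 0 := by
        simp only [e]
        rw [tsum_mul_left, h0, mul_zero]
      have hin : Summable fun j => if j ∈ s ∧ j + n ∈ s' then p j * q (j + n) else 0 :=
        summable_of_ne_finset_zero (s := s) fun j hj => if_neg fun hc => hj hc.1
      rw [show (∑' j, if j ∈ s ∧ j + n ∈ s' then p j * q (j + n) else 0) =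
        (∑' j, if j ∈ s ∧ j + n ∈ s' then p j * q (j + n) else 0) - ∑' j, p j * q (j + n) by
          rw [hzero, sub_zero], ← hin.tsum_sub hall]
      refine (tsum_of_norm_bounded (hs n).hasSum fun j => ?_).trans (hK n)
      split_ifs with hc
      · rw [sub_self, norm_zero]
        positivity
      · rw [zero_sub, norm_neg]
        exact hle _ _ (out _ _ (by omega) hc)

/-- The Domar-type lemma. -/
theorem Good.lt_of_ne_zero {φ : ℤ → ℝ} (h : Good φ) (f g : ℤ → ℂ) (K : ℝ)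
    (hs : ∀ n : ℤ, Summable fun j => ‖f j‖ * ‖g (j + n)‖)
    (hK : ∀ n : ℤ, ∑' j, ‖f j‖ * ‖g (j + n)‖ ≤ K)
    (h0 : ∀ n : ℕ, ∑' j, f j * (Real.exp (φ j - φ (j + n)) : ℂ) * g (j + n) = 0)
    {j₀ k₀ : ℤ} (hf : f j₀ ≠ 0) (hg : g k₀ ≠ 0) : k₀ < j₀ := by
  have hK0 : 0 ≤ K := (tsum_nonneg fun j => by positivity).trans (hK 0)
  have weak : ∀ j k, f j ≠ 0 → g k ≠ 0 → k ≤ j := by
    intro j k hf hg
    by_contra hc
    set c := ‖f j‖ * ‖g k‖ * Real.exp (φ j - φ k) with hc'
    have hc0 : 0 < c := by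
      have := norm_pos_iff.2 hf
      have := norm_pos_iff.2 hg
      positivity
    obtain ⟨N, hN⟩ := exists_nat_gt (|(j : ℝ)| + |(k : ℝ)| + |φ (j - 1 + 1) - φ (j - 1)| +
      |φ (k + 1) - φ k| + 26 * K / c)
    have a1 := abs_nonneg (j : ℝ)
    have a2 := abs_nonneg (k : ℝ)
    have a3 := abs_nonneg (φ (j - 1 + 1) - φ (j - 1))
    have a4 := abs_nonneg (φ (k + 1) - φ k)
    have a5 : 0 ≤ 26 * K / c := by positivity
    have hN0 : (0 : ℝ) ≤ N := Nat.cast_nonneg _
    have key := h.bound f g K hs hK h0 N (j₀ := j) (k₀ := k)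
      (by
        have : -(10 * N : ℝ) ≤ j := by linarith [neg_abs_le (j : ℝ)]
        exact_mod_cast this)
      (by linarith [le_abs_self (φ (j - 1 + 1) - φ (j - 1))])
      (by
        have : (k : ℝ) ≤ 10 * N := by linarith [le_abs_self (k : ℝ)]
        exact_mod_cast this)
      (by linarith [le_abs_self (φ (k + 1) - φ k)])
    have b1 : (1 : ℝ) ≤ k - j := by
      have : (1 : ℤ) ≤ k - j := by omega
      exact_mod_cast this
    have b2 : Real.exp (26 * N) * Real.exp N * Real.exp N ≤ Real.exp (30 * N * (k - j)) := by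
      rw [← Real.exp_add, ← Real.exp_add]
      exact Real.exp_le_exp.2 (by nlinarith)
    have b3 : (2 : ℝ) ^ (26 * N) ≤ Real.exp (26 * N) := by
      have : (2 : ℝ) ≤ Real.exp 1 := by linarith [Real.add_one_le_exp 1]
      calc (2 : ℝ) ^ (26 * N) ≤ Real.exp 1 ^ (26 * N) := pow_le_pow_left₀ (by norm_num) this _
        _ = _ := by rw [← Real.exp_nat_mul]; simp
    have b4 := Real.add_one_le_exp (N : ℝ)
    have b5 : c * (Real.exp (26 * N) * Real.exp N * Real.exp N) ≤
        Real.exp (26 * N) * ((26 * Real.exp N) * K) :=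
      (mul_le_mul_of_nonneg_left b2 hc0.le).trans (key.trans (mul_le_mul b3
        (mul_le_mul_of_nonneg_right (by linarith) hK0) (by positivity) (by positivity)))
    have b6 : c * Real.exp N ≤ 26 * K := by
      have e1 := Real.exp_pos (26 * N)
      have e2 := Real.exp_pos N
      refine le_of_mul_le_mul_left ?_ (mul_pos e1 e2)
      linarith
    have b7 : 26 * K / c < Real.exp N := by linarith
    rw [div_lt_iff₀ hc0] at b7
    linarith
  refine lt_of_le_of_ne (weak _ _ hf hg) fun he => ?_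
  subst he
  have := h0 0
  rw [tsum_eq_single k₀] at this
  · simp [hf, hg] at this
  · intro j hj
    by_cases h1 : f j = 0
    · simp [h1]
    by_cases h2 : g j = 0
    · simp [h2]
    exact absurd (le_antisymm (weak _ _ hf h2) (weak _ _ h1 hg)) hj

end Crest.Agent.R113
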