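import Crest.Agent.R113.EndgameA

/-! Row 113, S0149: the endgame, a statement about the real data of a tilted family. -/

set_option autoImplicit false

noncomputable section

namespace Crest.Agent.R113

namespace EndgameAux

open Finset

variable {n : ℕ} {seg : Fin n → ℕ}

theorem exists_factor {f : Fin n → ℝ} (hf : ∀ k l, seg k = seg l → f k = f l) :
    ∃ S : ℕ → ℝ, ∀ k, f k = S (seg k) :=
  ⟨Function.extend seg f 0, fun k => (Function.FactorsThrough.extend_apply hf _ k).symm⟩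

/-- Number of later minus number of earlier indices in the same segment. -/
def W (seg : Fin n → ℕ) (k : Fin n) : ℝ :=
  ∑ l, ((if k < l ∧ seg k = seg l then 1 else 0) - if l < k ∧ seg l = seg k then 1 else 0)

theorem sum_mul_W (d : Fin n → ℝ) :
    ∑ k, d k * W seg k = ∑ k, ∑ l, if k < l ∧ seg k = seg l then d k - d l else 0 := by
  simp only [W, mul_sum, mul_sub, sum_sub_distrib, mul_ite, mul_one, mul_zero]
  rw [sum_comm (f := fun k l => if l < k ∧ seg l = seg k then d k else 0)]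
  simp only [← sum_sub_distrib]
  refine sum_congr rfl fun k _ => sum_congr rfl fun l _ => ?_
  split_ifs <;> simp

theorem W_sub (hseg : Monotone seg) {k l : Fin n} (h : seg k = seg l) :
    W seg k - W seg l = 2 * (((l : ℕ) : ℝ) - ((k : ℕ) : ℝ)) := by
  have h0 : ∀ k : Fin n, ∑ j, ((if k < j then (1 : ℝ) else 0) - if j < k then 1 else 0) =
      n - 1 - 2 * (k : ℕ) := fun k => by
    rw [sum_sub_distrib, sum_boole, sum_boole, filter_lt_eq_Ioi, filter_gt_eq_Iio, Fin.card_Ioi,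
      Fin.card_Iio, Nat.cast_sub (by have := k.2; omega), Nat.cast_sub (by have := k.2; omega)]
    push_cast; ring
  have h1 : W seg k - W seg l = ∑ j, ((if k < j then (1 : ℝ) else 0) - if j < k then 1 else 0) -
      ∑ j, ((if l < j then (1 : ℝ) else 0) - if j < l then 1 else 0) := by
    rw [W, W, ← sum_sub_distrib, ← sum_sub_distrib]
    refine sum_congr rfl fun j _ => ?_
    rcases lt_trichotomy (seg j) (seg k) with hj | hj | hj
    · have a1 := hseg.reflect_lt hj
      have a2 := hseg.reflect_lt (h ▸ hj)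
      simp [← h, hj.ne, a1, a2, a1.not_gt, a2.not_gt]
    · simp [← h, hj]
    · have a1 := hseg.reflect_lt hj
      have a2 := hseg.reflect_lt (h ▸ hj)
      simp [← h, hj.ne, a1, a2, a1.not_gt, a2.not_gt]
  rw [h1, h0, h0]; ring

theorem abs_W_le {N : ℕ} (h : ∀ k l : Fin n, seg k = seg l → (l : ℕ) ≤ k + N) (k : Fin n) :
    |W seg k| ≤ N := by
  rw [W, sum_sub_distrib, sum_boole, sum_boole]
  have h1 : #{l | k < l ∧ seg k = seg l} ≤ N := by
    refine (card_le_card_of_injOn (t := Ioc (k : ℕ) (k + N)) Fin.val (fun l hl => ?_)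
      Fin.val_injective.injOn).trans (by simp)
    simp only [coe_filter, mem_univ, true_and, Set.mem_ofPred_eq] at hl
    exact mem_coe.2 (mem_Ioc.2 ⟨hl.1, h k l hl.2⟩)
  have h2 : #{l | l < k ∧ seg l = seg k} ≤ N := by
    refine (card_le_card_of_injOn (t := Ico ((k : ℕ) - N) k) Fin.val (fun l hl => ?_)
      Fin.val_injective.injOn).trans (by simp; omega)
    simp only [coe_filter, mem_univ, true_and, Set.mem_ofPred_eq] at hl
    exact mem_coe.2 (mem_Ico.2 ⟨by have := h l k hl.2; omega, hl.1⟩)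
  have h1' : (#{l | k < l ∧ seg k = seg l} : ℝ) ≤ N := by exact_mod_cast h1
  have h2' : (#{l | l < k ∧ seg l = seg k} : ℝ) ≤ N := by exact_mod_cast h2
  have := Nat.cast_nonneg (α := ℝ) #{l | k < l ∧ seg k = seg l}
  have := Nat.cast_nonneg (α := ℝ) #{l | l < k ∧ seg l = seg k}
  exact abs_le.2 ⟨by linarith, by linarith⟩

theorem sum_abs_sub (d : Fin n → ℝ) :
    ∑ k, ∑ l with seg l = seg k, |d k - d l| =
      4 * ∑ k, ∑ l, (if k < l ∧ seg k = seg l then max (d k - d l) 0 else 0) -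
        2 * ∑ k, d k * W seg k := by
  have h1 : ∑ k, ∑ l with seg l = seg k, |d k - d l| =
      ∑ k, ∑ l, (if k < l ∧ seg k = seg l then |d k - d l| else 0) +
        ∑ k, ∑ l, (if l < k ∧ seg l = seg k then |d l - d k| else 0) := by
    simp only [← sum_add_distrib, sum_filter]
    refine sum_congr rfl fun k _ => sum_congr rfl fun l _ => ?_
    rcases lt_trichotomy k l with h | rfl | h
    · simp [h, h.not_gt, eq_comm]
    · simp
    · simp [h, h.not_gt, abs_sub_comm]
  rw [h1, sum_comm (f := fun k l => if l < k ∧ seg l = seg k then |d l - d k| else 0), sum_mul_W]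
  simp only [mul_sum, ← sum_add_distrib, ← sum_sub_distrib]
  refine sum_congr rfl fun k _ => sum_congr rfl fun l _ => ?_
  split_ifs
  · rcases le_total 0 (d k - d l) with h | h
    · rw [abs_of_nonneg h, max_eq_left h]; ring
    · rw [abs_of_nonpos h, max_eq_right h]; ring
  · ring

/-- Comparison with the segment averages. -/
theorem sum_abs_le (seg : Fin n → ℕ) (d : Fin n → ℝ) (α : ℝ) (G : Finset (Fin n)) {m : ℝ}
    (hm : 0 < m) (hG : ∀ k ∈ G, m ≤ (#{l | seg l = seg k} : ℝ)) :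
    ∃ s : ℕ → ℝ, (∀ j, |s j| = 1) ∧ ∑ k ∈ G, |d k - α| ≤
      ∑ k, (d k - α) * s (seg k) + (∑ k, ∑ l with seg l = seg k, |d k - d l|) / m := by
  set T : ℕ → ℝ := fun j => ∑ l with seg l = j, (d l - α) with hT
  set M : ℕ → ℝ := fun j => (#{l | seg l = j} : ℝ) with hM
  have hM0 : ∀ k, 0 < M (seg k) := fun k => by
    simp only [hM]
    exact_mod_cast card_pos.2 ⟨k, by simp⟩
  refine ⟨fun j => if 0 ≤ T j then 1 else -1, fun j => by simp only; split_ifs <;> simp, ?_⟩
  have h1 : ∑ k, |T (seg k)| / M (seg k) =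
      ∑ k, (d k - α) * if 0 ≤ T (seg k) then 1 else -1 := by
    calc _ = ∑ k, ∑ l, if seg l = seg k then
          ((d l - α) * if 0 ≤ T (seg l) then 1 else -1) / M (seg l) else 0 := by
          refine sum_congr rfl fun k _ => ?_
          rw [← sum_filter, sum_congr rfl fun l hl => by rw [(mem_filter.1 hl).2], ← sum_div,
            ← sum_mul]
          congr 1
          split_ifs with h
          · rw [abs_of_nonneg h, mul_one]
          · rw [abs_of_neg (not_le.1 h), mul_neg_one]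
      _ = _ := by
          rw [sum_comm]
          refine sum_congr rfl fun l _ => ?_
          simp only [eq_comm (a := seg l)]
          rw [← sum_filter, sum_const, nsmul_eq_mul]
          exact mul_div_cancel₀ _ (hM0 l).ne'
  rw [← h1, sum_div, ← sum_add_distrib]
  refine (sum_le_sum fun k hk => ?_).trans (sum_le_sum_of_subset_of_nonneg (subset_univ G)
    fun k _ _ => add_nonneg (div_nonneg (abs_nonneg _) (hM0 k).le)
      (div_nonneg (sum_nonneg fun _ _ => abs_nonneg _) hm.le))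
  have h2 : (d k - α) * M (seg k) = T (seg k) + ∑ l with seg l = seg k, (d k - d l) := by
    simp only [hT, hM, ← sum_add_distrib]
    rw [mul_comm, ← nsmul_eq_mul, ← sum_const]
    exact sum_congr rfl fun l _ => by ring
  have h3 : |d k - α| ≤ (|T (seg k)| + ∑ l with seg l = seg k, |d k - d l|) / M (seg k) := by
    rw [le_div_iff₀ (hM0 k), ← abs_of_pos (hM0 k), ← abs_mul, h2]
    exact (abs_add_le _ _).trans (add_le_add le_rfl (abs_sum_le_sum_abs _ _))
  rw [add_div] at h3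
  exact h3.trans (add_le_add le_rfl (div_le_div_of_nonneg_left
    (sum_nonneg fun _ _ => abs_nonneg _) hm (hG k hk)))

theorem key_ineq {α x : ℝ} (h0 : 0 ≤ α) (h1 : α ≤ 1) (x0 : 0 ≤ x) (x1 : x ≤ 1) :
    α * (1 - α) ≤ x - x ^ 2 + |x - α| := by
  rcases le_total 0 (x - α) with h | h
  · rw [abs_of_nonneg h]; nlinarith
  · rw [abs_of_nonpos h]; nlinarith

end EndgameAux

open Finset EndgameAux in
theorem endgame {n : ℕ} (D : DPP (Fin n)) (N : ℕ) (hN : 1 ≤ N)
    (seg blk : Fin n → ℕ) (Y b NN : Fin n → ℝ) (sep : Fin n → Fin n → ℝ) (G : Finset (Fin n))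
    (α η lam Γ0 c δ C1 C2 : ℝ)
    (hα0 : 0 ≤ α) (hα1 : α ≤ 1) (hη : 0 ≤ η) (hlam : 1 ≤ lam) (hΓ0 : 0 ≤ Γ0) (hc : 0 < c)
    (hδ : 0 < δ) (hC1 : 0 ≤ C1) (hC2 : 0 ≤ C2) (hβ : 2 * η + Γ0 / lam ≤ 1)
    (hseg : Monotone seg) (hY0 : ∀ k, 0 ≤ Y k) (hY1 : ∀ k, Y k ≤ 1)
    (hYseg : ∀ k l, seg k = seg l → Y k - Y l = (((l : ℕ) : ℝ) - ((k : ℕ) : ℝ)) / N)
    (hb : ∀ k, |b k| ≤ Γ0) (hsep : ∀ k l, 0 ≤ sep k l)
    (H1 : ∀ ψ, Adm seg Y b lam ψ → ∑ k, (D.d ψ k - D.d 0 k) * Y k ≤ η * n)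
    (H2 : ∀ ψ, Adm seg Y b lam ψ →
      ∑ k, ∑ l, D.K ψ k l * sep k l ≤ 2 * (∑ k, (D.d ψ k - D.d 0 k) * NN k + η * n))
    (H3 : ∃ (S : ℕ → ℝ) (σ Nb : ℝ), 0 ≤ σ ∧ σ ≤ C2 ∧ (∀ k, NN k = S (seg k) - σ * Y k + Nb) ∧
      ∑ k, S (seg k) ^ 2 ≤ C1 * n)
    (H4 : ∀ ψ, Adm seg Y b lam ψ →
      ∑ k, ∑ l, (if blk k ≠ blk l then D.K ψ k l else 0) ≤ η * n)
    (H5 : ∀ k ∈ G, ∀ l, seg k ≠ seg l → blk k = blk l → c ≤ sep k l)
    (H5' : ∀ k ∈ G, δ * N ≤ ((Finset.univ.filter fun l => seg l = seg k).card : ℝ))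
    (H6 : ∀ ψ, Adm seg Y b lam ψ →
      ∑ k, ∑ l, (if k < l ∧ seg k = seg l then max (D.d ψ k - D.d ψ l) 0 else 0) ≤ η * n * N)
    (H7 : ∀ φ : Fin n → ℝ, (∀ k, |φ k| ≤ 1) →
      (∀ k l, seg k = seg l → |φ k - φ l| ≤ |((k : ℕ) : ℝ) - ((l : ℕ) : ℝ)| / N) →
      |∑ k, (D.d 0 k - α) * φ k| ≤ η * n) :
    α * (1 - α) * G.card ≤ n * (Real.exp 4 * (N : ℝ) ^ 2 / lam
      + √(2 * η + Γ0 / lam) * (3 + 2 * (√C1 + C2 + 1) / c + 20 / δ)) := by
  have hN0 : (0 : ℝ) < N := by exact_mod_cast hN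
  have hn0 : (0 : ℝ) ≤ n := Nat.cast_nonneg n
  have hl0 : 0 < lam := by linarith
  obtain ⟨μ, h, m1, m2, m3, hst, hoff⟩ := exists_good_tilt D N hN seg Y b lam hlam hY0 hY1
    fun k l e hkl => by
      rw [hYseg k l e, abs_div, abs_of_pos hN0]
      refine div_le_div_of_nonneg_right ?_ hN0.le
      have : (1 : ℤ) ≤ |((l : ℕ) : ℤ) - ((k : ℕ) : ℤ)| :=
        Int.one_le_abs (sub_ne_zero.2 fun e => hkl (Fin.ext (by exact_mod_cast e.symm)))
      exact_mod_cast this
  set ψ : Fin n → ℝ := fun k => b k + μ * Y k + h (seg k) with hψ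
  have hA : Adm seg Y b lam ψ := ⟨μ, h, m1, m2, m3, fun _ => rfl⟩
  replace H1 := H1 ψ hA
  replace H2 := H2 ψ hA
  replace H4 := H4 ψ hA
  replace H6 := H6 ψ hA
  set β := 2 * η + Γ0 / lam with hβ'
  have hΓ : 0 ≤ Γ0 / lam := by positivity
  have hβ0 : 0 ≤ β := by positivity
  set r := √β with hr
  have hr0 : 0 ≤ r := Real.sqrt_nonneg _
  have hrr : r ^ 2 = β := Real.sq_sqrt hβ0
  have hβr : β ≤ r := by
    have : r ≤ 1 := Real.sqrt_le_one.2 hβ
    nlinarith
  have hηr : η ≤ r := by linarith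
  have he : ∀ k, |D.d ψ k - D.d 0 k| ≤ 1 := fun k => by
    have := D.d_nonneg ψ k; have := D.d_le_one ψ k
    have := D.d_nonneg 0 k; have := D.d_le_one 0 k
    exact abs_le.2 ⟨by linarith, by linarith⟩
  have hst' : ∀ S : ℕ → ℝ, ∑ k, (D.d ψ k - D.d 0 k) * S (seg k) =
      -∑ k, h (seg k) / lam * S (seg k) := fun S => by
    have := hst S
    simp only [add_mul, sum_add_distrib] at this
    linarith
  -- monotonicity
  have hmono : lam * ∑ k, (h (seg k) / lam) ^ 2 ≤
      Γ0 * n + μ * ∑ k, (D.d ψ k - D.d 0 k) * Y k := by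
    have h1 := D.mono 0 ψ
    rw [zero_add] at h1
    have h2 : ∑ k, (D.d ψ k - D.d 0 k) * ψ k = ∑ k, (D.d ψ k - D.d 0 k) * b k +
        μ * ∑ k, (D.d ψ k - D.d 0 k) * Y k + ∑ k, (D.d ψ k - D.d 0 k) * h (seg k) := by
      rw [mul_sum, ← sum_add_distrib, ← sum_add_distrib]
      exact sum_congr rfl fun k _ => by
        rw [show ψ k = b k + μ * Y k + h (seg k) from rfl]; ring
    have h3 : ∑ k, (D.d ψ k - D.d 0 k) * b k ≤ Γ0 * n := by
      refine (sum_le_card_nsmul _ _ Γ0 fun k _ => (le_abs_self _).trans ?_).trans (by simp [mul_comm])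
      rw [abs_mul]
      exact (mul_le_of_le_one_left (abs_nonneg _) (he k)).trans (hb k)
    have h4 : ∑ k, h (seg k) / lam * h (seg k) = lam * ∑ k, (h (seg k) / lam) ^ 2 := by
      rw [mul_sum]
      exact sum_congr rfl fun k _ => by field_simp
    rw [h2, hst' h, h4] at h1
    linarith
  have hu0 : 0 ≤ ∑ k, (h (seg k) / lam) ^ 2 := sum_nonneg fun _ _ => sq_nonneg _
  have hu : ∑ k, (h (seg k) / lam) ^ 2 ≤ β * n := by
    refine le_of_mul_le_mul_left (hmono.trans ?_) hl0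
    have h1 := mul_le_mul_of_nonneg_left H1 (show 0 ≤ μ by linarith)
    have h2 := mul_le_mul_of_nonneg_right m2 (show 0 ≤ η * n by positivity)
    have h3 : lam * (β * n) = Γ0 * n + 2 * lam * (η * n) := by rw [hβ']; field_simp; ring
    linarith
  have hYl : -∑ k, (D.d ψ k - D.d 0 k) * Y k ≤ β * n := by
    by_contra hc'
    push Not at hc'
    have h1 : 0 ≤ β * n := by positivity
    have h2 := mul_le_mul_of_nonneg_right m1
      (show 0 ≤ -∑ k, (D.d ψ k - D.d 0 k) * Y k by linarith)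
    have h3 := mul_lt_mul_of_pos_left hc' hl0
    have h4 : lam * (β * n) = Γ0 * n + 2 * lam * (η * n) := by rw [hβ']; field_simp; ring
    have h5 : 0 ≤ lam * (η * n) := by positivity
    have h6 := mul_nonneg hl0.le hu0
    linarith
  have hS : ∀ (S : ℕ → ℝ) (B : ℝ), 0 ≤ B → ∑ k, S (seg k) ^ 2 ≤ B ^ 2 * n →
      |∑ k, (D.d ψ k - D.d 0 k) * S (seg k)| ≤ r * B * n := fun S B hB hS => by
    rw [hst', abs_neg]
    refine abs_le_of_sq_le_sq ?_ (by positivity)
    refine (sum_mul_sq_le_sq_mul_sq _ _ _).trans ((mul_le_mul hu hS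
      (sum_nonneg fun _ _ => sq_nonneg _) (by positivity)).trans_eq ?_)
    rw [← hrr]; ring
  have hS' : ∀ (S : ℕ → ℝ) (B : ℝ), 0 ≤ B → (∀ k, |S (seg k)| ≤ B) →
      |∑ k, (D.d ψ k - D.d 0 k) * S (seg k)| ≤ r * B * n := fun S B hB h => hS S B hB
    ((sum_le_card_nsmul _ _ (B ^ 2) fun k _ => sq_le_sq' (abs_le.1 (h k)).1 (abs_le.1 (h k)).2).trans
      (by simp [mul_comm]))
  -- the separated part of the kernel
  have hK : ∑ k, ∑ l, D.K ψ k l * sep k l ≤ 2 * (r * (√C1 + C2 + 1) * n) := by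
    obtain ⟨S, σ, Nb, s0, s1, s2, s3⟩ := H3
    have h1 : ∑ k, (D.d ψ k - D.d 0 k) * NN k = ∑ k, (D.d ψ k - D.d 0 k) * S (seg k) +
        σ * -∑ k, (D.d ψ k - D.d 0 k) * Y k + Nb * (∑ k, D.d ψ k - ∑ k, D.d 0 k) := by
      rw [← sum_neg_distrib, ← sum_sub_distrib, mul_sum, mul_sum, ← sum_add_distrib,
        ← sum_add_distrib]
      exact sum_congr rfl fun k _ => by rw [s2]; ring
    have h2 := (le_abs_self _).trans (hS S √C1 (Real.sqrt_nonneg _) (by rwa [Real.sq_sqrt hC1]))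
    have h3 := (mul_le_mul_of_nonneg_left hYl s0).trans
      (mul_le_mul s1 (mul_le_mul_of_nonneg_right hβr hn0) (by positivity) hC2)
    have h4 := mul_le_mul_of_nonneg_right hηr hn0
    rw [h1, D.sum_d ψ, sub_self, mul_zero] at H2
    linarith
  have hvar : ∑ k ∈ G, (D.d ψ k - D.d ψ k ^ 2) ≤
      Real.exp 4 * (N : ℝ) ^ 2 / lam * n + η * n + 2 * (r * (√C1 + C2 + 1) * n) / c := by
    have h1 : ∀ k l, 0 ≤ (if seg k = seg l ∧ k ≠ l then D.K ψ k l else 0) +
        (if blk k ≠ blk l then D.K ψ k l else 0) + D.K ψ k l * sep k l / c := fun k l => by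
      have := D.K_nonneg ψ k l
      have := hsep k l
      positivity
    calc _ ≤ ∑ k ∈ G, ∑ l, ((if seg k = seg l ∧ k ≠ l then D.K ψ k l else 0) +
          (if blk k ≠ blk l then D.K ψ k l else 0) + D.K ψ k l * sep k l / c) := by
          refine sum_le_sum fun k hk => ?_
          rw [← D.K_diag, ← D.sum_K, ← add_sum_erase _ _ (mem_univ k), add_sub_cancel_left]
          refine (sum_le_sum fun l hl => ?_).trans
            (sum_le_sum_of_subset_of_nonneg (erase_subset k _) fun l _ _ => h1 k l)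
          have k0 := D.K_nonneg ψ k l
          have k1 : 0 ≤ D.K ψ k l * sep k l / c := div_nonneg (mul_nonneg k0 (hsep k l)) hc.le
          have hkl : k ≠ l := (ne_of_mem_erase hl).symm
          by_cases e1 : seg k = seg l
          · rw [if_pos ⟨e1, hkl⟩]
            split_ifs <;> linarith
          · rw [if_neg fun h => e1 h.1]
            split_ifs with e2
            · linarith
            · have := mul_le_mul_of_nonneg_left (H5 k hk l e1 (not_not.1 e2)) k0
              rw [zero_add, zero_add, le_div_iff₀ hc]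
              exact this
      _ ≤ ∑ k, ∑ l, ((if seg k = seg l ∧ k ≠ l then D.K ψ k l else 0) +
          (if blk k ≠ blk l then D.K ψ k l else 0) + D.K ψ k l * sep k l / c) :=
          sum_le_sum_of_subset_of_nonneg (subset_univ G) fun k _ _ => sum_nonneg fun l _ => h1 k l
      _ ≤ _ := by
          simp only [sum_add_distrib, ← sum_div]
          exact add_le_add (add_le_add hoff H4) (div_le_div_of_nonneg_right hK hc.le)
  -- oscillation inside the segments
  have hW : ∀ k, |W seg k / (2 * N)| ≤ 1 := fun k => by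
    rw [abs_div, abs_of_pos (show (0 : ℝ) < 2 * N by positivity), div_le_one (by positivity)]
    refine (abs_W_le (N := N) (fun k l e => ?_) k).trans (by linarith)
    have h1 := hYseg k l e
    have h2 := hY1 k
    have h3 := hY0 l
    have : ((l : ℕ) : ℝ) - (k : ℕ) ≤ N := by rw [← div_le_one hN0]; linarith
    exact_mod_cast (show ((l : ℕ) : ℝ) ≤ (k : ℕ) + N by linarith)
  have hWs : ∀ k l, seg k = seg l → W seg k / (2 * N) - W seg l / (2 * N) =
      (((l : ℕ) : ℝ) - ((k : ℕ) : ℝ)) / N := fun k l e => by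
    rw [← sub_div, W_sub hseg e]; field_simp
  have hdW : -∑ k, D.d ψ k * W seg k ≤ 2 * N * (4 * r * n) := by
    obtain ⟨S, hS0⟩ := exists_factor (seg := seg) (f := fun k => Y k - W seg k / (2 * N))
      fun k l e => by have := hYseg k l e; have := hWs k l e; linarith
    have h1 := (le_abs_self _).trans (hS' S 2 (by norm_num) fun k => by
      rw [← hS0]
      have := abs_le.1 (hW k)
      have := hY0 k
      have := hY1 k
      exact abs_le.2 ⟨by linarith, by linarith⟩)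
    have h2 := (neg_le_abs _).trans (H7 _ hW fun k l e => by
      rw [hWs k l e, abs_div, abs_of_pos hN0, abs_sub_comm])
    have h3 : ∑ k, α * W seg k = 0 := by rw [sum_mul_W]; simp
    have h4 : -∑ k, D.d ψ k * W seg k = 2 * N * (-∑ k, (D.d ψ k - D.d 0 k) * Y k +
        ∑ k, (D.d ψ k - D.d 0 k) * S (seg k) - ∑ k, (D.d 0 k - α) * (W seg k / (2 * N))) -
        ∑ k, α * W seg k := by
      simp only [← sum_neg_distrib, ← sum_add_distrib, ← sum_sub_distrib, mul_sum]
      refine sum_congr rfl fun k _ => ?_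
      rw [← hS0]; field_simp; ring
    rw [h4, h3, sub_zero]
    refine mul_le_mul_of_nonneg_left ?_ (by positivity)
    have := mul_le_mul_of_nonneg_right hηr hn0
    have := mul_le_mul_of_nonneg_right hβr hn0
    linarith
  have hosc : ∑ k, ∑ l with seg l = seg k, |D.d ψ k - D.d ψ l| ≤ 20 * r * n * N := by
    rw [sum_abs_sub]
    have := mul_le_mul_of_nonneg_right (mul_le_mul_of_nonneg_right hηr hn0) hN0.le
    linarith
  obtain ⟨s, s1, s2⟩ := sum_abs_le seg (D.d ψ) α G (mul_pos hδ hN0) H5'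
  have h1 : ∑ k, (D.d ψ k - α) * s (seg k) ≤ r * n + η * n := by
    have a1 := (le_abs_self _).trans (hS' s 1 zero_le_one fun k => (s1 _).le)
    have a2 := (le_abs_self _).trans (H7 (fun k => s (seg k)) (fun k => (s1 _).le) fun k l e => by
      rw [e, sub_self, abs_zero]; positivity)
    have a3 : ∑ k, (D.d ψ k - α) * s (seg k) = ∑ k, (D.d ψ k - D.d 0 k) * s (seg k) +
        ∑ k, (D.d 0 k - α) * s (seg k) := by
      rw [← sum_add_distrib]
      exact sum_congr rfl fun k _ => by ring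
    linarith
  have h2 : (∑ k, ∑ l with seg l = seg k, |D.d ψ k - D.d ψ l|) / (δ * N) ≤ 20 * r * n / δ := by
    refine (div_le_div_of_nonneg_right hosc (by positivity)).trans_eq ?_
    field_simp
  have h3 : α * (1 - α) * G.card ≤
      ∑ k ∈ G, (D.d ψ k - D.d ψ k ^ 2) + ∑ k ∈ G, |D.d ψ k - α| := by
    rw [← sum_add_distrib, mul_comm, ← nsmul_eq_mul]
    exact card_nsmul_le_sum _ _ _ fun k _ => key_ineq hα0 hα1 (D.d_nonneg ψ k) (D.d_le_one ψ k)
  have h4 := mul_le_mul_of_nonneg_right hηr hn0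
  have h5 : n * (Real.exp 4 * (N : ℝ) ^ 2 / lam + r * (3 + 2 * (√C1 + C2 + 1) / c + 20 / δ)) =
      Real.exp 4 * (N : ℝ) ^ 2 / lam * n + 3 * (r * n) + 2 * (r * (√C1 + C2 + 1) * n) / c +
        20 * r * n / δ := by ring
  rw [h5]
  linarith

end Crest.Agent.R113
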