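import Crest.Agent.R113.FinDefs

/-! Row 113, S0149: choice of a stationary tilt with small off-diagonal mass inside segments. -/

set_option autoImplicit false

noncomputable section

namespace Crest.Agent.R113

/-- A Lipschitz, strongly monotone vector field on a Euclidean space has a zero. -/
theorem exists_zero_of_strongly_monotone {σ : Type} [Fintype σ]
    (G : EuclideanSpace ℝ σ → EuclideanSpace ℝ σ) (ρ L : ℝ) (hρ : 0 < ρ)
    (hm : ∀ x y, ρ * ‖x - y‖ ^ 2 ≤ inner ℝ (G x - G y) (x - y))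
    (hL : ∀ x y, ‖G x - G y‖ ≤ L * ‖x - y‖) : ∃ x, G x = 0 := by
  obtain ⟨M, hMρ, hM⟩ : ∃ M : ℝ, ρ ≤ M ∧ ∀ x y, ‖G x - G y‖ ≤ M * ‖x - y‖ :=
    ⟨max L ρ, le_max_right _ _, fun x y =>
      (hL x y).trans (mul_le_mul_of_nonneg_right (le_max_left _ _) (norm_nonneg _))⟩
  have hM0 : 0 < M := hρ.trans_le hMρ
  set c : ℝ := ρ / M ^ 2 with hc
  have hc0 : 0 < c := by positivity
  have hr1 : ρ ^ 2 / M ^ 2 ≤ 1 := by
    rw [div_le_one (by positivity)]
    exact pow_le_pow_left₀ hρ.le hMρ 2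
  have hr0 : 0 < ρ ^ 2 / M ^ 2 := by positivity
  let κ : NNReal := ⟨Real.sqrt (1 - ρ ^ 2 / M ^ 2), Real.sqrt_nonneg _⟩
  have hκ : κ < 1 := by
    rw [← NNReal.coe_lt_coe]
    change Real.sqrt (1 - ρ ^ 2 / M ^ 2) < 1
    rw [Real.sqrt_lt' one_pos]
    linarith
  have hT : ContractingWith κ (fun x => x - c • G x) := by
    refine ⟨hκ, LipschitzWith.of_dist_le_mul fun x y => ?_⟩
    rw [dist_eq_norm, dist_eq_norm]
    have e : x - c • G x - (y - c • G y) = (x - y) - c • (G x - G y) := by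
      rw [smul_sub]; abel
    rw [e]
    change _ ≤ Real.sqrt (1 - ρ ^ 2 / M ^ 2) * ‖x - y‖
    refine le_of_sq_le_sq ?_ (by positivity)
    rw [mul_pow, Real.sq_sqrt (by linarith), norm_sub_sq_real, inner_smul_right, norm_smul,
      real_inner_comm, Real.norm_eq_abs, abs_of_pos hc0, mul_pow]
    have h1 := hm x y
    have h2 : ‖G x - G y‖ ^ 2 ≤ M ^ 2 * ‖x - y‖ ^ 2 := by
      rw [← mul_pow]
      exact pow_le_pow_left₀ (norm_nonneg _) (hM x y) 2
    have h3 : c ^ 2 * M ^ 2 = ρ ^ 2 / M ^ 2 := by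
      rw [hc]; field_simp
    have h4 : c * ρ = ρ ^ 2 / M ^ 2 := by
      rw [hc]; field_simp
    have h5 := mul_le_mul_of_nonneg_left h1 hc0.le
    have h6 := mul_le_mul_of_nonneg_left h2 (sq_nonneg c)
    rw [← mul_assoc, h4] at h5
    rw [← mul_assoc, h3] at h6
    linarith
  refine ⟨hT.fixedPoint _, ?_⟩
  have h1 := hT.fixedPoint_isFixedPt
  have h2 : c • G (hT.fixedPoint _) = 0 := sub_eq_self.1 h1
  exact (smul_eq_zero.1 h2).resolve_left hc0.ne'

/-- For every base tilt there is a stationary segment-constant correction. -/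
theorem exists_stationary {n : ℕ} (D : DPP (Fin n)) (seg : Fin n → ℕ) (ψ0 : Fin n → ℝ) (lam : ℝ)
    (hlam : 0 < lam) : ∃ h : ℕ → ℝ, (∀ k, |h (seg k)| ≤ lam) ∧ ∀ S : ℕ → ℝ,
      ∑ k, (D.d (fun k => ψ0 k + h (seg k)) k - D.d 0 k + h (seg k) / lam) * S (seg k) = 0 := by
  classical
  let σ : Type := {w // w ∈ Finset.univ.image seg}
  let _ : Fintype σ := Finset.fintypeCoeSort _
  let s : Fin n → σ := fun k => ⟨seg k, Finset.mem_image_of_mem _ (Finset.mem_univ k)⟩
  have hs : Function.Surjective s := by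
    rintro ⟨w, hw⟩
    obtain ⟨k, -, rfl⟩ := Finset.mem_image.1 hw
    exact ⟨k, rfl⟩
  let e : EuclideanSpace ℝ σ → Fin n → ℝ := fun x k =>
    D.d (fun k => ψ0 k + x (s k)) k - D.d 0 k + x (s k) / lam
  let G : EuclideanSpace ℝ σ → EuclideanSpace ℝ σ := fun x =>
    ∑ k, EuclideanSpace.single (s k) (e x k)
  have hG : ∀ x y, G x - G y = ∑ k, EuclideanSpace.single (s k) (e x k - e y k) := by
    intro x y
    simp only [G, ← Finset.sum_sub_distrib]
    refine Finset.sum_congr rfl fun k _ => ?_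
    ext w
    simp only [PiLp.sub_apply, PiLp.single_apply]
    split_ifs <;> simp
  have hin : ∀ (a : Fin n → ℝ) (y : EuclideanSpace ℝ σ),
      inner ℝ (∑ k, EuclideanSpace.single (s k) (a k)) y = ∑ k, a k * y (s k) := by
    intro a y
    rw [sum_inner]
    refine Finset.sum_congr rfl fun k _ => ?_
    rw [EuclideanSpace.inner_single_left]
    simp
  have hψ : ∀ x y : EuclideanSpace ℝ σ, (fun k => ψ0 k + x (s k)) =
      (fun k => ψ0 k + y (s k)) + fun k => (x - y) (s k) := by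
    intro x y
    funext k
    simp
  obtain ⟨x, hx⟩ := exists_zero_of_strongly_monotone G (1 / lam) (n * (8 + 1 / lam))
    (by positivity)
    (fun x y => by
      rw [hG, hin]
      have h1 := D.mono (fun k => ψ0 k + y (s k)) fun k => (x - y) (s k)
      rw [← hψ] at h1
      have h2 : ‖x - y‖ ^ 2 ≤ ∑ k, (x - y) (s k) ^ 2 := by
        rw [EuclideanSpace.real_norm_sq_eq]
        obtain ⟨r, hr⟩ := hs.hasRightInverse
        calc ∑ w, (x - y) w ^ 2 = ∑ w, (x - y) (s (r w)) ^ 2 := by simp only [hr _]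
          _ = ∑ k ∈ Finset.univ.image r, (x - y) (s k) ^ 2 :=
            (Finset.sum_image (f := fun k => (x - y) (s k) ^ 2)
              (fun a _ b _ h => hr.injective h)).symm
          _ ≤ _ := Finset.sum_le_sum_of_subset_of_nonneg (Finset.subset_univ _)
            fun _ _ _ => sq_nonneg _
      have h3 : ∑ k, (e x k - e y k) * (x - y) (s k) =
          ∑ k, (D.d (fun k => ψ0 k + x (s k)) k - D.d (fun k => ψ0 k + y (s k)) k) *
            (x - y) (s k) + 1 / lam * ∑ k, (x - y) (s k) ^ 2 := by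
        rw [Finset.mul_sum, ← Finset.sum_add_distrib]
        refine Finset.sum_congr rfl fun k _ => ?_
        simp only [e, PiLp.sub_apply]
        ring
      rw [h3]
      have h4 := mul_le_mul_of_nonneg_left h2 (show 0 ≤ 1 / lam by positivity)
      linarith)
    (fun x y => by
      rw [hG]
      refine (norm_sum_le _ _).trans ?_
      have h1 : ∀ k, |(x - y) (s k)| ≤ ‖x - y‖ := fun k => PiLp.norm_apply_le (x - y) (s k)
      have h2 := D.lip (fun k => ψ0 k + y (s k)) (fun k => (x - y) (s k)) _ h1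
      rw [← hψ] at h2
      have h3 : ∀ k, ‖EuclideanSpace.single (𝕜 := ℝ) (s k) (e x k - e y k)‖ ≤
          (8 + 1 / lam) * ‖x - y‖ := fun k => by
        rw [PiLp.norm_single, Real.norm_eq_abs]
        have e1 : e x k - e y k = (D.d (fun k => ψ0 k + x (s k)) k -
            D.d (fun k => ψ0 k + y (s k)) k) + 1 / lam * (x - y) (s k) := by
          simp only [e, PiLp.sub_apply]
          ring
        rw [e1, add_mul]
        refine (abs_add_le _ _).trans (add_le_add (h2 k) ?_)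
        rw [abs_mul, abs_of_pos (show 0 < 1 / lam by positivity)]
        exact mul_le_mul_of_nonneg_left (h1 k) (by positivity)
      refine (Finset.sum_le_sum fun k _ => h3 k).trans (le_of_eq ?_)
      simp [mul_assoc])
  let h : ℕ → ℝ := fun w => if hw : w ∈ Finset.univ.image seg then x ⟨w, hw⟩ else 0
  have hh : ∀ k, h (seg k) = x (s k) := fun k => dif_pos (s k).2
  have key : ∀ S : ℕ → ℝ,
      ∑ k, (D.d (fun k => ψ0 k + h (seg k)) k - D.d 0 k + h (seg k) / lam) * S (seg k) = 0 := by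
    intro S
    have h1 := hin (e x) (WithLp.toLp 2 fun w : σ => S w.1)
    change inner ℝ (G x) _ = _ at h1
    rw [hx, inner_zero_left] at h1
    simp only [hh]
    exact h1.symm
  refine ⟨h, fun k₀ => ?_, key⟩
  by_contra hlt
  have h1 := key fun w => if w = seg k₀ then h (seg k₀) else 0
  have h2 : ∀ k, seg k = seg k₀ →
      0 < (D.d (fun k => ψ0 k + h (seg k)) k - D.d 0 k + h (seg k) / lam) * h (seg k₀) := by
    intro k hk
    rw [hk]
    have a1 := D.d_nonneg (fun k => ψ0 k + h (seg k)) k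
    have a2 := D.d_le_one (fun k => ψ0 k + h (seg k)) k
    have a3 := D.d_nonneg 0 k
    have a4 := D.d_le_one 0 k
    rcases lt_abs.1 (not_le.1 hlt) with a5 | a5
    · have : 1 < h (seg k₀) / lam := (one_lt_div hlam).2 a5
      exact mul_pos (by linarith) (by linarith)
    · have : h (seg k₀) / lam < -1 := by
        rw [div_lt_iff₀ hlam]
        linarith
      exact mul_pos_of_neg_of_neg (by linarith) (by linarith)
  refine absurd h1 (ne_of_gt (Finset.sum_pos' (fun k _ => ?_) ⟨k₀, Finset.mem_univ _, ?_⟩))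
  · split_ifs with hk
    · exact (h2 k hk).le
    · rw [mul_zero]
  · rw [if_pos rfl]
    exact h2 k₀ rfl

theorem exists_good_tilt {n : ℕ} (D : DPP (Fin n)) (N : ℕ) (hN : 1 ≤ N) (seg : Fin n → ℕ)
    (Y b : Fin n → ℝ) (lam : ℝ) (hlam : 1 ≤ lam) (hY0 : ∀ k, 0 ≤ Y k) (hY1 : ∀ k, Y k ≤ 1)
    (hYsep : ∀ k l, seg k = seg l → k ≠ l → 1 / (N : ℝ) ≤ |Y k - Y l|) :
    ∃ (μ : ℝ) (h : ℕ → ℝ), lam ≤ μ ∧ μ ≤ 2 * lam ∧ (∀ k, |h (seg k)| ≤ lam) ∧
      (∀ S : ℕ → ℝ, ∑ k, (D.d (fun k => b k + μ * Y k + h (seg k)) k - D.d 0 k + h (seg k) / lam)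
        * S (seg k) = 0) ∧
      ∑ k, ∑ l, (if seg k = seg l ∧ k ≠ l then D.K (fun k => b k + μ * Y k + h (seg k)) k l else 0)
        ≤ Real.exp 4 * (N : ℝ) ^ 2 / lam * n := by
  have hl0 : 0 < lam := by linarith
  have hN0 : (0 : ℝ) < N := by exact_mod_cast hN
  have hn0 : (0 : ℝ) ≤ n := Nat.cast_nonneg n
  obtain ⟨K, hK⟩ := exists_nat_ge (4 * lam ^ 2 * n + 2 * lam)
  have hq : 0 ≤ 4 * lam ^ 2 * n := by positivity
  have hK0 : (0 : ℝ) < K := by linarith
  set τ : ℝ := lam / K with hτ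
  have hτ0 : 0 < τ := by positivity
  have hτK : τ * K = lam := by rw [hτ]; field_simp
  choose h hh1 hh2 using fun j : ℕ =>
    exists_stationary D seg (fun k => b k + (lam + j * τ) * Y k) lam hl0
  let ψ : ℕ → Fin n → ℝ := fun j k => b k + (lam + j * τ) * Y k + h j (seg k)
  let Off : ℕ → ℝ := fun j => ∑ k, ∑ l, (if seg k = seg l ∧ k ≠ l then D.K (ψ j) k l else 0)
  let A : ℕ → ℝ := fun j => ∑ k, D.d (ψ j) k * Y k
  have hA0 : ∀ j, 0 ≤ A j := fun j =>
    Finset.sum_nonneg fun k _ => mul_nonneg (D.d_nonneg _ _) (hY0 k)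
  have hA1 : ∀ j, A j ≤ n := fun j => by
    refine (Finset.sum_le_sum fun k _ => mul_le_one₀ (D.d_le_one _ k) (hY0 k) (hY1 k)).trans ?_
    simp
  have hstep : ∀ j, Real.exp (-4) * (τ / N) ^ 2 * Off j ≤ τ * (A (j + 1) - A j) := by
    intro j
    let δ : ℕ → ℝ := fun w => h (j + 1) w - h j w
    let φ : Fin n → ℝ := fun k => τ * Y k + δ (seg k)
    have hφ : ψ (j + 1) = ψ j + φ := by
      funext k
      simp only [ψ, φ, δ, Pi.add_apply]
      push_cast
      ring
    have e1 : ∑ k, (D.d (ψ (j + 1)) k - D.d (ψ j) k) * φ k =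
        τ * (A (j + 1) - A j) - 1 / lam * ∑ k, δ (seg k) ^ 2 := by
      have a1 := hh2 (j + 1) δ
      have a2 := hh2 j δ
      change ∑ k, (D.d (ψ (j + 1)) k - D.d 0 k + h (j + 1) (seg k) / lam) * δ (seg k) = 0 at a1
      change ∑ k, (D.d (ψ j) k - D.d 0 k + h j (seg k) / lam) * δ (seg k) = 0 at a2
      rw [← sub_zero (τ * (A (j + 1) - A j) - _), ← sub_zero (0 : ℝ)]
      nth_rw 1 [← a2]
      rw [← a1]
      simp only [A, Finset.mul_sum, mul_sub, ← Finset.sum_sub_distrib]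
      refine Finset.sum_congr rfl fun k _ => ?_
      simp only [φ, δ]
      ring
    have e2 := D.mono (ψ j) φ
    rw [← hφ, e1] at e2
    have e3 : ∀ k, δ (seg k) ^ 2 ≤ (1 / 2) ^ 2 := fun k => by
      have a1 : δ (seg k) ^ 2 ≤ ∑ k, δ (seg k) ^ 2 :=
        Finset.single_le_sum (f := fun k => δ (seg k) ^ 2) (fun _ _ => sq_nonneg _)
          (Finset.mem_univ k)
      have a2 : 1 / lam * ∑ k, δ (seg k) ^ 2 ≤ τ * n := by
        have := mul_le_mul_of_nonneg_left (show A (j + 1) - A j ≤ n by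
          linarith [hA0 j, hA1 (j + 1)]) hτ0.le
        linarith
      rw [one_div, inv_mul_le_iff₀ hl0] at a2
      have a3 : lam * (τ * n) ≤ (1 / 2) ^ 2 := by
        rw [hτ, div_mul_eq_mul_div, ← mul_div_assoc, div_le_iff₀ hK0]
        nlinarith
      linarith
    have e4 : ∀ k, |φ k| ≤ 1 := fun k => by
      have a1 : |δ (seg k)| ≤ 1 / 2 := abs_le_of_sq_le_sq' (e3 k) (by norm_num) |> abs_le.2
      have a2 : τ ≤ 1 / 2 := by
        rw [hτ, div_le_iff₀ hK0]
        linarith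
      have a3 : |τ * Y k| ≤ 1 / 2 := by
        rw [abs_of_nonneg (mul_nonneg hτ0.le (hY0 k))]
        exact (mul_le_of_le_one_right hτ0.le (hY1 k)).trans a2
      exact (abs_add_le _ _).trans (by linarith)
    have e5 := D.gain (ψ j) φ e4
    rw [← hφ, e1] at e5
    have e6 : (τ / N) ^ 2 * Off j ≤ ∑ k, ∑ l, D.K (ψ j) k l * (φ k - φ l) ^ 2 := by
      simp only [Off, Finset.mul_sum]
      refine Finset.sum_le_sum fun k _ => Finset.sum_le_sum fun l _ => ?_
      split_ifs with hkl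
      · rw [mul_comm]
        refine mul_le_mul_of_nonneg_left ?_ (D.K_nonneg _ _ _)
        have a1 : φ k - φ l = τ * (Y k - Y l) := by
          simp only [φ, hkl.1]
          ring
        rw [a1, ← sq_abs (τ * _), abs_mul, abs_of_pos hτ0, div_eq_mul_one_div]
        exact pow_le_pow_left₀ (by positivity)
          (mul_le_mul_of_nonneg_left (hYsep k l hkl.1 hkl.2) hτ0.le) 2
      · rw [mul_zero]
        exact mul_nonneg (D.K_nonneg _ _ _) (sq_nonneg _)
    have e7 := mul_le_mul_of_nonneg_left e6 (Real.exp_pos (-4)).le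
    have e8 : 0 ≤ 1 / lam * ∑ k, δ (seg k) ^ 2 :=
      mul_nonneg (by positivity) (Finset.sum_nonneg fun _ _ => sq_nonneg _)
    rw [mul_assoc]
    linarith
  have hKpos : 0 < K := by exact_mod_cast hK0
  obtain ⟨j, hj, hmin⟩ := (Finset.range K).exists_min_image Off ⟨0, Finset.mem_range.2 hKpos⟩
  have hjK : (j : ℝ) ≤ K := by exact_mod_cast (Finset.mem_range.1 hj).le
  refine ⟨lam + j * τ, h j, ?_, ?_, hh1 j, hh2 j, ?_⟩
  · have : 0 ≤ j * τ := by positivity
    linarith
  · have := mul_le_mul_of_nonneg_right hjK hτ0.le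
    linarith
  · change Off j ≤ _
    have c0 : 0 < Real.exp (-4) * (τ / N) ^ 2 := by positivity
    have s1 : ∑ i ∈ Finset.range K, Real.exp (-4) * (τ / N) ^ 2 * Off j ≤
        ∑ i ∈ Finset.range K, τ * (A (i + 1) - A i) :=
      Finset.sum_le_sum fun i hi =>
        (mul_le_mul_of_nonneg_left (hmin i hi) c0.le).trans (hstep i)
    rw [← Finset.mul_sum _ _ τ, Finset.sum_range_sub, Finset.sum_const, Finset.card_range,
      nsmul_eq_mul] at s1
    have s2 := mul_le_mul_of_nonneg_left (show A K - A 0 ≤ n by linarith [hA0 0, hA1 K]) hτ0.le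
    have s3 : (K * (Real.exp (-4) * (τ / N) ^ 2)) * Off j ≤ τ * n := by
      rw [mul_assoc]
      linarith
    rw [← le_div_iff₀' (by positivity)] at s3
    refine s3.trans (le_of_eq ?_)
    rw [← hτK, Real.exp_neg]
    field_simp

end Crest.Agent.R113
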