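import Crest.Agent.R113.SeqOp

/-!
Fibrewise operators on `L²(X; ℓ²(ℤ))` and the transitivity argument.
-/

set_option autoImplicit false

namespace Crest.Agent.R113

open Crest.AnalysisR.TwoAdic MeasureTheory

variable {X : Type*} [MeasurableSpace X] {μ : Measure X}

theorem aesm_coord {F : X → seqHilbert} (h : AEStronglyMeasurable F μ) (j : ℤ) :
    AEStronglyMeasurable (fun x => F x j) μ := by
  simpa only [inner_basisVec] using
    (aestronglyMeasurable_const (b := basisVec j)).inner (𝕜 := ℂ) h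

theorem aesm_of_coord {F : X → seqHilbert} (h : ∀ j, AEStronglyMeasurable (fun x => F x j) μ) :
    AEStronglyMeasurable F μ :=
  aestronglyMeasurable_of_tendsto_ae (Filter.atTop : Filter (Finset ℤ))
    (f := fun s x => ∑ j ∈ s, F x j • basisVec j)
    (fun s => Finset.aestronglyMeasurable_fun_sum s fun j _ => (h j).smul_const _)
    (Filter.Eventually.of_forall fun x => hasSum_basisVec (F x))

/-- Existence of fibrewise operators. -/
theorem exists_fibOp (T : X → seqHilbert →L[ℂ] seqHilbert) (w : ℤ → X → ℂ) (d : ℤ)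
    (hw : ∀ j, Measurable (w j)) (hT : ∀ x v j, T x v (j + d) = w j x * v j) {C : ℝ} (hC0 : 0 ≤ C)
    (hC : ∀ x, ‖T x‖ ≤ C) :
    ∃ A : Lp seqHilbert 2 μ →L[ℂ] Lp seqHilbert 2 μ,
      (∀ f, ∀ᵐ x ∂μ, A f x = T x (f x)) ∧ ‖A‖ ≤ C := by
  have hm : ∀ f : Lp seqHilbert 2 μ, MemLp (fun x => T x (f x)) 2 μ := by
    intro f
    refine (Lp.memLp f).of_le_mul (c := C) (aesm_of_coord fun j => ?_)
      (Filter.Eventually.of_forall fun x => (T x).le_of_opNorm_le (hC x) _)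
    obtain ⟨j, rfl⟩ : ∃ k, j = k + d := ⟨j - d, by ring⟩
    simp only [hT]
    exact (hw j).aestronglyMeasurable.mul (aesm_coord (Lp.aestronglyMeasurable f) j)
  let L : Lp seqHilbert 2 μ →ₗ[ℂ] Lp seqHilbert 2 μ :=
    { toFun := fun f => (hm f).toLp _
      map_add' := fun f g => by
        rw [← MemLp.toLp_add]
        refine MemLp.toLp_congr _ _ ?_
        filter_upwards [Lp.coeFn_add f g] with x hx
        rw [hx, Pi.add_apply, map_add, Pi.add_apply]
      map_smul' := fun c f => by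
        rw [RingHom.id_apply, ← MemLp.toLp_const_smul]
        refine MemLp.toLp_congr _ _ ?_
        filter_upwards [Lp.coeFn_smul c f] with x hx
        simp [hx] }
  refine ⟨L.mkContinuous C fun f => Lp.norm_le_mul_norm_of_ae_le_mul ?_,
    fun f => (hm f).coeFn_toLp, LinearMap.mkContinuous_norm_le _ hC0 _⟩
  filter_upwards [(hm f).coeFn_toLp] with x hx
  change ‖((hm f).toLp _) x‖ ≤ _
  rw [hx]
  exact (T x).le_of_opNorm_le (hC x) _

theorem pow_fib {T : X → seqHilbert →L[ℂ] seqHilbert}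
    {A : Lp seqHilbert 2 μ →L[ℂ] Lp seqHilbert 2 μ} (hA : ∀ f, ∀ᵐ x ∂μ, A f x = T x (f x))
    (n : ℕ) (f : Lp seqHilbert 2 μ) : ∀ᵐ x ∂μ, (A ^ n) f x = (T x ^ n) (f x) := by
  induction n with
  | zero => simp
  | succ n ih =>
    filter_upwards [ih, hA ((A ^ n) f)] with x h1 h2
    rw [pow_succ', pow_succ', mul_apply_eq_comp, mul_apply_eq_comp, h2, h1]

theorem exists_coord_ne_zero {f : Lp seqHilbert 2 μ} (hf : f ≠ 0) :
    ∃ j, ¬ ∀ᵐ x ∂μ, f x j = 0 := by
  by_contra hc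
  push Not at hc
  refine hf (Lp.eq_zero_iff_ae_eq_zero.2 ?_)
  filter_upwards [ae_all_iff.2 hc] with x hx
  exact lp.ext (funext hx)

/-- The transitivity argument. -/
theorem transitive [IsProbabilityMeasure μ] {τ : X → X} (hτ : Ergodic τ μ)
    {S V : Lp seqHilbert 2 μ →L[ℂ] Lp seqHilbert 2 μ}
    {Sf Vf : X → seqHilbert →L[ℂ] seqHilbert} {φ : X → ℤ → ℝ} (hφ : ∀ x, Good (φ x))
    (hSf : ∀ x v j, Sf x v (j + 1) = (Real.exp (φ x j - φ x (j + 1)) : ℂ) * v j)
    (hS : ∀ f, ∀ᵐ x ∂μ, S f x = Sf x (f x)) {b : ℤ → X → ℂ}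
    (hVf : ∀ x v j, Vf x v (j + -1) = b j x * v j) (hb : ∀ᵐ x ∂μ, ∀ j, b j x ≠ 0)
    (hV : ∀ f, ∀ᵐ x ∂μ, V f (τ x) = Vf x (f x))
    (W : Submodule ℂ (Lp seqHilbert 2 μ)) (hW : IsClosed (W : Set (Lp seqHilbert 2 μ)))
    (hWS : ∀ f ∈ W, S f ∈ W) (hWV : ∀ f ∈ W, V f ∈ W)
    (hWM : ∀ g : X → ℂ, Measurable g → (∃ C : ℝ, ∀ x, ‖g x‖ ≤ C) →
      ∀ f ∈ W, ∀ f' : Lp seqHilbert 2 μ, (∀ᵐ x ∂μ, f' x = g x • f x) → f' ∈ W) :
    W = ⊥ ∨ W = ⊤ := by
  by_contra hc
  push Not at hc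
  have : CompleteSpace W := hW.completeSpace_coe
  obtain ⟨f, hf, hf0⟩ := (Submodule.ne_bot_iff W).1 hc.1
  obtain ⟨g, hg, hg0⟩ := (Submodule.ne_bot_iff Wᗮ).1
    fun h => hc.2 (Submodule.orthogonal_eq_bot_iff.1 h)
  have hpow : ∀ {A : Lp seqHilbert 2 μ →L[ℂ] Lp seqHilbert 2 μ}, (∀ f ∈ W, A f ∈ W) →
      ∀ (n : ℕ), ∀ v ∈ W, (A ^ n) v ∈ W := by
    intro A hA n v hv
    induction n with
    | zero => simpa using hv
    | succ n ih => rw [pow_succ']; exact hA _ ih
  have step1 : ∀ f ∈ W, ∀ᵐ x ∂μ, inner ℂ (g x) (f x) = 0 := by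
    intro f hf
    refine (L2.integrable_inner g f).ae_eq_zero_of_forall_setIntegral_eq_zero fun s hs _ => ?_
    have hm := (Lp.memLp f).indicator hs
    have h1 : hm.toLp _ ∈ W := by
      refine hWM (s.indicator fun _ => 1) (measurable_const.indicator hs) ⟨1, fun x => ?_⟩ f hf _ ?_
      · by_cases hx : x ∈ s <;> simp [hx]
      · filter_upwards [hm.coeFn_toLp] with x hx
        rw [hx]
        by_cases hx : x ∈ s <;> simp [hx]
    have h2 := Submodule.inner_left_of_mem_orthogonal h1 hg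
    rw [L2.inner_def] at h2
    rw [← integral_indicator hs, ← h2]
    refine integral_congr_ae ?_
    filter_upwards [hm.coeFn_toLp] with x hx
    rw [hx]
    by_cases hx : x ∈ s <;> simp [hx]
  have step2 : ∀ f ∈ W, ∀ᵐ x ∂μ, ∀ j k, f x j ≠ 0 → g x k ≠ 0 → k < j := by
    intro f hf
    filter_upwards [ae_all_iff.2 fun n => step1 _ (hpow hWS n f hf),
      ae_all_iff.2 fun n => pow_fib hS n f] with x h1 h2 j k hj hk
    exact (hφ x).lt_of_inner (hSf x) (fun n => by rw [← h2 n, h1 n]) hj hk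
  have hq : ∀ n : ℕ, Measure.QuasiMeasurePreserving τ^[n] μ μ := fun n =>
    (hτ.toMeasurePreserving.iterate n).quasiMeasurePreserving
  have step3 : ∀ n : ℕ, ∀ᵐ x ∂μ, ∀ j, f x j ≠ 0 → (V ^ n) f (τ^[n] x) (j - n) ≠ 0 := by
    intro n
    induction n with
    | zero => simp
    | succ n ih =>
      filter_upwards [ih, (hq n).ae (hV ((V ^ n) f)), (hq n).ae hb] with x h1 h2 h3 j hj
      rw [pow_succ', mul_apply_eq_comp, Function.iterate_succ_apply', h2,
        show j - ((n + 1 : ℕ) : ℤ) = j - n + -1 by push_cast; ring, hVf]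
      exact mul_ne_zero (h3 _) (h1 j hj)
  obtain ⟨j, hj⟩ := exists_coord_ne_zero hf0
  obtain ⟨k, hk⟩ := exists_coord_ne_zero hg0
  set B : Set X := {x | g x k ≠ 0} with hB
  have hBm : NullMeasurableSet B μ :=
    ((aesm_coord (Lp.aestronglyMeasurable g) k).aemeasurable.nullMeasurable
      (measurableSet_singleton 0)).compl
  set U : Set X := ⋃ n : ℕ, τ^[n + (j - k).toNat] ⁻¹' B with hU
  have hUm : NullMeasurableSet U μ := NullMeasurableSet.iUnion fun n => hBm.preimage (hq _)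
  have hUinv : τ ⁻¹' U ≤ᵐ[μ] U := by
    refine Filter.Eventually.of_forall fun x hx => ?_
    obtain ⟨n, hn⟩ := Set.mem_iUnion.1 hx
    refine Set.mem_iUnion.2 ⟨n + 1, ?_⟩
    rw [Set.mem_preimage, add_right_comm, Function.iterate_succ_apply]
    exact hn
  rcases hτ.ae_empty_or_univ_of_preimage_ae_le hUm hUinv with h | h
  · refine hk ?_
    have h1 : μ (τ^[0 + (j - k).toNat] ⁻¹' B) = 0 :=
      measure_mono_null (Set.subset_iUnion (fun n : ℕ => τ^[n + (j - k).toNat] ⁻¹' B) 0)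
        (ae_eq_empty.1 h)
    rw [(hτ.toMeasurePreserving.iterate _).measure_preimage hBm] at h1
    exact h1
  · refine hj ?_
    filter_upwards [ae_all_iff.2 step3,
      ae_all_iff.2 fun n => (hq n).ae (step2 _ (hpow hWV n f hf)),
      h.mem_iff] with x h1 h2 h3
    obtain ⟨n, hn⟩ := Set.mem_iUnion.1 (h3.2 (Set.mem_univ x))
    by_contra hx
    have := h2 _ _ _ (h1 _ j hx) hn
    push_cast at this
    omega

end Crest.Agent.R113
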