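import Crest.Agent.R113.FinDefs

/-! Row 113, S0149: basic finite-dimensional facts about projections and diagonal tilts. -/

set_option autoImplicit false
set_option linter.unusedSectionVars false

noncomputable section

namespace Crest.Agent.R113

open Module

variable {ι : Type} [Fintype ι] [DecidableEq ι]

namespace FinBasicAux

theorem inner_dl (v : EE ι) (k : ι) : inner ℂ (dl k) v = v k := by
  simp [dl, EuclideanSpace.inner_single_left]

theorem norm_dl (k : ι) : ‖dl k‖ = 1 := by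
  simp [dl]

theorem entry (B : EE ι →L[ℂ] EE ι) (v : EE ι) (k : ι) : B v k = inner ℂ (star B (dl k)) v := by
  rw [ContinuousLinearMap.star_eq_adjoint, ContinuousLinearMap.adjoint_inner_left, inner_dl]

theorem norm_sq_apply (B : EE ι →L[ℂ] EE ι) (v : EE ι) :
    ‖B v‖ ^ 2 = ∑ k, ‖inner ℂ v (star B (dl k))‖ ^ 2 := by
  rw [EuclideanSpace.norm_sq_eq]
  exact Finset.sum_congr rfl fun k _ => by rw [entry, norm_inner_symm]

theorem star_pr (S : Submodule ℂ (EE ι)) : star (pr S) = pr S := isSelfAdjoint_starProjection S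

theorem pr_eq {J : Type} [Fintype J] (S : Submodule ℂ (EE ι)) (u : J → EE ι)
    (hu : Orthonormal ℂ u) (hS : Submodule.span ℂ (Set.range u) = S) (v : EE ι) :
    pr S v = ∑ j, inner ℂ (u j) v • u j := by
  subst hS
  refine Submodule.eq_starProjection_of_mem_orthogonal
    (Submodule.sum_mem _ fun j _ => Submodule.smul_mem _ _ (Submodule.subset_span ⟨j, rfl⟩)) ?_
  rw [Submodule.mem_orthogonal]
  intro w hw
  induction hw using Submodule.span_induction with
  | mem x hx =>
    obtain ⟨j, rfl⟩ := hx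
    rw [inner_sub_right, hu.inner_right_fintype, sub_self]
  | zero => simp
  | add x y _ _ hx hy => rw [inner_add_left, hx, hy, add_zero]
  | smul c x _ hx => rw [inner_smul_left, hx, mul_zero]

theorem norm_pr_sq {J : Type} [Fintype J] (S : Submodule ℂ (EE ι)) (u : J → EE ι)
    (hu : Orthonormal ℂ u) (hS : Submodule.span ℂ (Set.range u) = S) (v : EE ι) :
    ‖pr S v‖ ^ 2 = ∑ j, ‖inner ℂ (u j) v‖ ^ 2 := by
  have h := hu.inner_sum (fun j => inner ℂ (u j) v) (fun j => inner ℂ (u j) v) Finset.univ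
  rw [← pr_eq S u hu hS v, inner_self_eq_norm_sq_to_K] at h
  simp only [RCLike.conj_mul] at h
  exact_mod_cast h

end FinBasicAux

open FinBasicAux

theorem mop_apply (A : Matrix ι ι ℂ) (v : EE ι) (k : ι) : mop A v k = ∑ l, A k l * v l := by
  rfl

theorem dop_apply (φ : ι → ℝ) (v : EE ι) (k : ι) : dop φ v k = (φ k : ℂ) * v k := by
  rw [dop, mop_apply, Finset.sum_eq_single k]
  · simp
  · intro l _ hl
    simp [Matrix.diagonal_apply_ne _ hl.symm]
  · simp

theorem mop_mul (A B : Matrix ι ι ℂ) : mop (A * B) = mop A * mop B := by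
  exact map_mul (Matrix.toEuclideanCLM (𝕜 := ℂ) (n := ι)) A B

theorem dop_mul (φ χ : ι → ℝ) : dop φ * dop χ = dop fun k => φ k * χ k := by
  ext v k
  simp [dop_apply, mul_assoc]

theorem dop_one : dop (fun _ : ι => (1 : ℝ)) = 1 := by
  ext v k
  simp [dop_apply]

theorem norm_dop_apply_le (φ : ι → ℝ) (a : ℝ) (ha : 0 ≤ a) (h : ∀ k, |φ k| ≤ a) (v : EE ι) :
    ‖dop φ v‖ ≤ a * ‖v‖ := by
  rw [← pow_le_pow_iff_left₀ (norm_nonneg _) (by positivity) two_ne_zero, mul_pow,
    EuclideanSpace.norm_sq_eq, EuclideanSpace.norm_sq_eq,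
    Finset.mul_sum]
  refine Finset.sum_le_sum fun k _ => ?_
  rw [dop_apply, norm_mul, mul_pow, Complex.norm_real, Real.norm_eq_abs]
  gcongr
  exact h k

theorem le_norm_dop_apply (φ : ι → ℝ) (a : ℝ) (ha : 0 ≤ a) (h : ∀ k, a ≤ |φ k|) (v : EE ι) :
    a * ‖v‖ ≤ ‖dop φ v‖ := by
  rw [← pow_le_pow_iff_left₀ (by positivity) (norm_nonneg _) two_ne_zero, mul_pow,
    EuclideanSpace.norm_sq_eq, EuclideanSpace.norm_sq_eq, Finset.mul_sum]
  refine Finset.sum_le_sum fun k _ => ?_
  rw [dop_apply, norm_mul, mul_pow, Complex.norm_real, Real.norm_eq_abs]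
  gcongr
  exact h k

theorem hs_nonneg (B : EE ι →L[ℂ] EE ι) : 0 ≤ hs B := by
  exact Finset.sum_nonneg fun _ _ => sq_nonneg _

theorem hs_mop (A : Matrix ι ι ℂ) : hs (mop A) = mhs A := by
  rw [hs, mhs, Finset.sum_comm]
  refine Finset.sum_congr rfl fun k _ => ?_
  rw [EuclideanSpace.norm_sq_eq]
  refine Finset.sum_congr rfl fun l _ => ?_
  rw [mop_apply]
  simp [dl]

theorem hs_star (B : EE ι →L[ℂ] EE ι) : hs (star B) = hs B := by
  simp only [hs]
  simp only [norm_sq_apply B, inner_dl]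
  rw [Finset.sum_comm]
  exact Finset.sum_congr rfl fun k _ => EuclideanSpace.norm_sq_eq _

/-- Bessel inequality for the Hilbert–Schmidt norm. -/
theorem sum_norm_sq_le_hs {J : Type} [Fintype J] (u : J → EE ι) (hu : Orthonormal ℂ u)
    (B : EE ι →L[ℂ] EE ι) : ∑ j, ‖B (u j)‖ ^ 2 ≤ hs B := by
  rw [← hs_star, hs]
  simp only [norm_sq_apply B]
  rw [Finset.sum_comm]
  exact Finset.sum_le_sum fun k _ => hu.sum_inner_products_le _

/-- The Hilbert–Schmidt norm of `B` on `S`, computed in an orthonormal basis of `S`. -/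
theorem hs_mul_pr {J : Type} [Fintype J] (S : Submodule ℂ (EE ι)) (u : J → EE ι)
    (hu : Orthonormal ℂ u) (hS : Submodule.span ℂ (Set.range u) = S) (B : EE ι →L[ℂ] EE ι) :
    hs (B * pr S) = ∑ j, ‖B (u j)‖ ^ 2 := by
  rw [← hs_star, star_mul, star_pr, hs]
  simp only [norm_sq_apply B]
  rw [Finset.sum_comm]
  exact Finset.sum_congr rfl fun k _ => norm_pr_sq S u hu hS _

theorem dg_eq_sum {J : Type} [Fintype J] (S : Submodule ℂ (EE ι)) (u : J → EE ι)
    (hu : Orthonormal ℂ u) (hS : Submodule.span ℂ (Set.range u) = S) (k : ι) :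
    dg S k = ∑ j, ‖u j k‖ ^ 2 := by
  rw [dg, norm_pr_sq S u hu hS]
  exact Finset.sum_congr rfl fun j _ => by rw [norm_inner_symm, inner_dl]

/-- Singular value decomposition on a subspace: an orthonormal basis of `S` whose images under `G`
are pairwise orthogonal. -/
theorem exists_onb_orth (S : Submodule ℂ (EE ι)) (G : EE ι →L[ℂ] EE ι) :
    ∃ u : Fin (finrank ℂ S) → EE ι, Orthonormal ℂ u ∧ Submodule.span ℂ (Set.range u) = S ∧
      ∀ i j, i ≠ j → inner ℂ (G (u i)) (G (u j)) = 0 := by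
  let A : S →ₗ[ℂ] EE ι := G.toLinearMap ∘ₗ S.subtype
  have hT := LinearMap.isSymmetric_adjoint_comp_self (𝕜 := ℂ) (E := S) (F := EE ι) A
  let b := hT.eigenvectorBasis rfl
  refine ⟨fun i => b i, b.orthonormal.comp_linearIsometry S.subtypeₗᵢ, ?_, fun i j hij => ?_⟩
  · have h := congrArg (Submodule.map S.subtype) b.toBasis.span_eq
    rwa [Submodule.map_span, ← Set.range_comp, Submodule.map_subtype_top] at h
  · change inner ℂ (A (b i)) (A (b j)) = 0
    rw [← LinearMap.adjoint_inner_right (𝕜 := ℂ) (E := S) (F := EE ι)]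
    change inner ℂ (b i) ((LinearMap.adjoint (𝕜 := ℂ) (E := S) (F := EE ι) A ∘ₗ A) (b j)) = 0
    rw [hT.apply_eigenvectorBasis rfl j, inner_smul_right, b.orthonormal.2 hij, mul_zero]

theorem dg_nonneg (S : Submodule ℂ (EE ι)) (k : ι) : 0 ≤ dg S k := by
  exact sq_nonneg _

theorem dg_le_one (S : Submodule ℂ (EE ι)) (k : ι) : dg S k ≤ 1 := by
  have h := S.norm_starProjection_apply_le (dl k)
  rw [norm_dl] at h
  exact pow_le_one₀ (norm_nonneg _) h

theorem pr_dl_self (S : Submodule ℂ (EE ι)) (k : ι) : pr S (dl k) k = (dg S k : ℂ) := by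
  have h1 : pr S (pr S (dl k)) = pr S (dl k) :=
    Submodule.starProjection_eq_self_iff.2 (S.starProjection_apply_mem _)
  rw [← h1, entry, star_pr, inner_self_eq_norm_sq_to_K, dg]
  simp

theorem dg_mono {S S' : Submodule ℂ (EE ι)} (h : S' ≤ S) (k : ι) : dg S' k ≤ dg S k := by
  have h1 : pr S' (pr S (dl k)) = pr S' (dl k) :=
    DFunLike.congr_fun (Submodule.starProjection_comp_starProjection_of_le h) (dl k)
  rw [dg, dg, ← h1]
  exact pow_le_pow_left₀ (norm_nonneg _) (S'.norm_starProjection_apply_le _) 2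

theorem ker2_nonneg (S : Submodule ℂ (EE ι)) (k l : ι) : 0 ≤ ker2 S k l := by
  exact sq_nonneg _

theorem ker2_symm (S : Submodule ℂ (EE ι)) (k l : ι) : ker2 S k l = ker2 S l k := by
  rw [ker2, ker2, entry, star_pr, norm_inner_symm, inner_dl]

theorem sum_ker2 (S : Submodule ℂ (EE ι)) (k : ι) : ∑ l, ker2 S k l = dg S k := by
  simp only [ker2_symm S k]
  exact (EuclideanSpace.norm_sq_eq _).symm

theorem ker2_diag (S : Submodule ℂ (EE ι)) (k : ι) : ker2 S k k = dg S k ^ 2 := by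
  rw [ker2, pr_dl_self, Complex.norm_real, Real.norm_eq_abs, sq_abs]

theorem sum_dg (S : Submodule ℂ (EE ι)) : ∑ k, dg S k = (finrank ℂ S : ℝ) := by
  obtain ⟨u, hu, hS, -⟩ := exists_onb_orth S 1
  simp only [dg_eq_sum S u hu hS]
  rw [Finset.sum_comm]
  simp only [← EuclideanSpace.norm_sq_eq, hu.1]
  simp

theorem tilt_zero (S : Submodule ℂ (EE ι)) : tilt S 0 = S := by
  simp only [tilt, Pi.zero_apply, Real.exp_zero, dop_one]
  exact Submodule.map_id S

theorem tilt_tilt (S : Submodule ℂ (EE ι)) (ψ φ : ι → ℝ) : tilt (tilt S ψ) φ = tilt S (ψ + φ) := by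
  rw [tilt, tilt, tilt, ← Submodule.map_comp]
  congr 1
  ext v k
  simp [dop_apply, Complex.exp_add]
  ring

theorem finrank_tilt (S : Submodule ℂ (EE ι)) (ψ : ι → ℝ) :
    finrank ℂ (tilt S ψ) = finrank ℂ S := by
  refine (Submodule.equivMapOfInjective _ ?_ S).finrank_eq.symm
  intro v w h
  ext k
  have h1 : dop (fun k => Real.exp (ψ k)) v k = dop (fun k => Real.exp (ψ k)) w k :=
    congrArg (fun x : EE ι => x k) h
  rw [dop_apply, dop_apply] at h1
  exact mul_left_cancel₀ (Complex.ofReal_ne_zero.2 (Real.exp_ne_zero _)) h1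

theorem leak_nonneg (S' : Submodule ℂ (EE ι)) (B : EE ι →L[ℂ] EE ι) (S : Submodule ℂ (EE ι)) :
    0 ≤ leak S' B S := by
  exact hs_nonneg _

end Crest.Agent.R113
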