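import Mathlib

/-! Row 113, statement S0149: definitions for the finite-dimensional part. -/

set_option autoImplicit false

noncomputable section

namespace Crest.Agent.R113

/-- Complex Euclidean space on a finite index type. -/
abbrev EE (ι : Type) [Fintype ι] : Type := EuclideanSpace ℂ ι

section
variable {ι : Type} [Fintype ι] [DecidableEq ι]

/-- Standard basis vector. -/
def dl (k : ι) : EE ι := EuclideanSpace.single k 1

/-- The operator of a matrix. -/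
def mop (A : Matrix ι ι ℂ) : EE ι →L[ℂ] EE ι := Matrix.toEuclideanCLM (𝕜 := ℂ) A

/-- Real diagonal operator. -/
def dop (φ : ι → ℝ) : EE ι →L[ℂ] EE ι := mop (Matrix.diagonal fun k => (φ k : ℂ))

/-- Squared Hilbert–Schmidt norm of an operator. -/
def hs (B : EE ι →L[ℂ] EE ι) : ℝ := ∑ k, ‖B (dl k)‖ ^ 2

/-- Squared Hilbert–Schmidt norm of a matrix. -/
def mhs (A : Matrix ι ι ℂ) : ℝ := ∑ k, ∑ l, ‖A k l‖ ^ 2

/-- Orthogonal projection onto a subspace. -/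
def pr (S : Submodule ℂ (EE ι)) : EE ι →L[ℂ] EE ι := S.starProjection

/-- Diagonal entry of the projection onto `S`. -/
def dg (S : Submodule ℂ (EE ι)) (k : ι) : ℝ := ‖pr S (dl k)‖ ^ 2

/-- Squared modulus of the `(k,l)` entry of the projection onto `S`. -/
def ker2 (S : Submodule ℂ (EE ι)) (k l : ι) : ℝ := ‖pr S (dl l) k‖ ^ 2

/-- The image of `S` under the positive diagonal operator `exp ψ`. -/
def tilt (S : Submodule ℂ (EE ι)) (ψ : ι → ℝ) : Submodule ℂ (EE ι) :=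
  S.map (dop fun k => Real.exp (ψ k)).toLinearMap

/-- How much `B` maps `S` outside of `S'`, in squared Hilbert–Schmidt norm. -/
def leak (S' : Submodule ℂ (EE ι)) (B : EE ι →L[ℂ] EE ι) (S : Submodule ℂ (EE ι)) : ℝ :=
  hs ((1 - pr S') * B * pr S)

end

/-- Truncated weighted forward shift on `Fin n`: `δ_l ↦ w l • δ_{l+1}`. -/
def shiftM (n : ℕ) (w : ℕ → ℝ) : Matrix (Fin n) (Fin n) ℂ :=
  fun k l => if (k : ℕ) = (l : ℕ) + 1 then (w l : ℂ) else 0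

/-- Product of `t` consecutive weights starting at `k`. -/
def wprod (w : ℕ → ℝ) (k t : ℕ) : ℝ := ∏ l ∈ Finset.range t, w (k + l)

/-- The real data (diagonal and squared kernel) of a family of projections indexed by tilts. -/
structure DPP (ι : Type) [Fintype ι] where
  d : (ι → ℝ) → ι → ℝ
  K : (ι → ℝ) → ι → ι → ℝ
  K_nonneg : ∀ ψ k l, 0 ≤ K ψ k l
  K_symm : ∀ ψ k l, K ψ k l = K ψ l k
  sum_K : ∀ ψ k, ∑ l, K ψ k l = d ψ k
  K_diag : ∀ ψ k, K ψ k k = d ψ k ^ 2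
  d_nonneg : ∀ ψ k, 0 ≤ d ψ k
  d_le_one : ∀ ψ k, d ψ k ≤ 1
  sum_d : ∀ ψ, ∑ k, d ψ k = ∑ k, d 0 k
  mono : ∀ ψ φ, 0 ≤ ∑ k, (d (ψ + φ) k - d ψ k) * φ k
  gain : ∀ ψ φ, (∀ k, |φ k| ≤ 1) →
    Real.exp (-4) * ∑ k, ∑ l, K ψ k l * (φ k - φ l) ^ 2 ≤ ∑ k, (d (ψ + φ) k - d ψ k) * φ k
  lip : ∀ ψ φ (a : ℝ), (∀ k, |φ k| ≤ a) → ∀ k, |d (ψ + φ) k - d ψ k| ≤ 8 * a

/-- Admissible tilts: gauge `b`, slope `μ ∈ [lam, 2 lam]` along `Y`, and a segment-constant part. -/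
def Adm {n : ℕ} (seg : Fin n → ℕ) (Y b : Fin n → ℝ) (lam : ℝ) (ψ : Fin n → ℝ) : Prop :=
  ∃ (μ : ℝ) (h : ℕ → ℝ), lam ≤ μ ∧ μ ≤ 2 * lam ∧ (∀ k, |h (seg k)| ≤ lam) ∧
    ∀ k, ψ k = b k + μ * Y k + h (seg k)

end Crest.Agent.R113
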