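import Crest.Agent.R113.FinBasic

/-! Row 113, S0149: leakage estimates and the truncated shift. -/

set_option autoImplicit false

noncomputable section

namespace Crest.Agent.R113

open Module

set_option linter.unusedSectionVars false

namespace FinLeakAux

theorem ring_aux1 {R : Type*} [Ring R] (p T U : R) :
    (1 - p) * (T * U) * p = ((1 - p) * T) * ((1 - p) * U * p) + ((1 - p) * T * p) * (U * p) := by
  noncomm_ring

theorem ring_aux2 {R : Type*} [Ring R] (p D : R) :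
    p * D * p - p * D = -(p * D * (1 - p)) := by
  noncomm_ring

theorem ring_aux3 {R : Type*} [Ring R] (q p r G B : R) :
    ((1 - q) * G) * ((1 - p) * B * r) = (1 - q) * (G * B) * r - ((1 - q) * G * p) * (B * r) := by
  noncomm_ring

variable {ι : Type} [Fintype ι] [DecidableEq ι]

theorem pr_mem (S : Submodule ℂ (EE ι)) (v : EE ι) : pr S v ∈ S :=
  Submodule.starProjection_apply_mem S v

theorem one_sub_pr_mem (S : Submodule ℂ (EE ι)) (v : EE ι) : (1 - pr S) v ∈ Sᗮ := by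
  simp [pr]

theorem pr_of_mem (S : Submodule ℂ (EE ι)) {v : EE ι} (hv : v ∈ S) : pr S v = v :=
  Submodule.starProjection_eq_self_iff.2 hv

theorem one_sub_pr_of_mem (S : Submodule ℂ (EE ι)) {v : EE ι} (hv : v ∈ S) :
    (1 - pr S) v = 0 := by
  simp [pr_of_mem S hv]

theorem star_pr (S : Submodule ℂ (EE ι)) : star (pr S) = pr S :=
  (isSelfAdjoint_starProjection S).star_eq

theorem star_one_sub_pr (S : Submodule ℂ (EE ι)) : star (1 - pr S) = 1 - pr S := by
  rw [ContinuousLinearMap.star_eq_adjoint, map_sub, ← ContinuousLinearMap.star_eq_adjoint,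
    ← ContinuousLinearMap.star_eq_adjoint, star_pr, star_one]

theorem pr_mul_pr (S : Submodule ℂ (EE ι)) : pr S * pr S = pr S := by
  ext1 v
  simp [pr_of_mem S (pr_mem S v)]

theorem norm_sq_split (S : Submodule ℂ (EE ι)) (v : EE ι) :
    ‖v‖ ^ 2 = ‖pr S v‖ ^ 2 + ‖(1 - pr S) v‖ ^ 2 := by
  have h : inner ℂ (pr S v) ((1 - pr S) v) = 0 :=
    Submodule.inner_right_of_mem_orthogonal (pr_mem S v) (one_sub_pr_mem S v)
  have h2 := norm_add_sq_eq_norm_sq_add_norm_sq_of_inner_eq_zero (𝕜 := ℂ) _ _ h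
  have h3 : pr S v + (1 - pr S) v = v := by simp
  rw [h3] at h2
  nlinarith [h2]

theorem norm_pr_le (S : Submodule ℂ (EE ι)) (v : EE ι) : ‖pr S v‖ ≤ ‖v‖ := by
  have h := norm_sq_split S v
  have h1 : ‖pr S v‖ ^ 2 ≤ ‖v‖ ^ 2 := by nlinarith [sq_nonneg ‖(1 - pr S) v‖]
  exact (pow_le_pow_iff_left₀ (norm_nonneg _) (norm_nonneg _) two_ne_zero).1 h1

theorem norm_one_sub_pr_le (S : Submodule ℂ (EE ι)) (v : EE ι) : ‖(1 - pr S) v‖ ≤ ‖v‖ := by
  have h := norm_sq_split S v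
  have h1 : ‖(1 - pr S) v‖ ^ 2 ≤ ‖v‖ ^ 2 := by nlinarith [sq_nonneg ‖pr S v‖]
  exact (pow_le_pow_iff_left₀ (norm_nonneg _) (norm_nonneg _) two_ne_zero).1 h1

theorem star_dop (φ : ι → ℝ) : star (dop φ) = dop φ := by
  unfold dop mop
  rw [← map_star]
  congr 1
  rw [Matrix.star_eq_conjTranspose, Matrix.diagonal_conjTranspose]
  congr 1
  funext k
  simp

theorem dop_dl (φ : ι → ℝ) (l : ι) : dop φ (dl l) = (φ l : ℂ) • dl l := by
  ext k
  rw [dop_apply]
  by_cases h : k = l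
  · subst h; simp
  · simp [dl, h]

theorem hs_mul_le_left (A B : EE ι →L[ℂ] EE ι) (a : ℝ) (ha : 0 ≤ a)
    (hA : ∀ v, ‖A v‖ ≤ a * ‖v‖) : hs (A * B) ≤ a ^ 2 * hs B := by
  unfold hs
  rw [Finset.mul_sum]
  refine Finset.sum_le_sum fun k _ => ?_
  have h := hA (B (dl k))
  rw [← mul_pow]
  exact pow_le_pow_left₀ (norm_nonneg _) h 2

theorem hs_mul_le_left_one (A B : EE ι →L[ℂ] EE ι) (hA : ∀ v, ‖A v‖ ≤ ‖v‖) :
    hs (A * B) ≤ hs B := by
  simpa using hs_mul_le_left A B 1 zero_le_one (by simpa using hA)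

theorem star_contr (A : EE ι →L[ℂ] EE ι) (hA : ∀ v, ‖A v‖ ≤ ‖v‖) (v : EE ι) :
    ‖(star A) v‖ ≤ ‖v‖ := by
  have h1 : ‖A‖ ≤ 1 := A.opNorm_le_bound zero_le_one (by simpa using hA)
  have h2 : ‖star A‖ ≤ 1 := by
    rw [ContinuousLinearMap.star_eq_adjoint, LinearIsometryEquiv.norm_map]
    exact h1
  simpa using (star A).le_of_opNorm_le h2 v

theorem hs_mul_le_right_one (A B : EE ι →L[ℂ] EE ι) (hB : ∀ v, ‖B v‖ ≤ ‖v‖) :
    hs (A * B) ≤ hs A := by
  rw [← hs_star (A * B), star_mul, ← hs_star A]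
  exact hs_mul_le_left_one _ _ (star_contr B hB)

/-- An operator as a vector of its columns. -/
def col (B : EE ι →L[ℂ] EE ι) : PiLp 2 (fun _ : ι => EE ι) := WithLp.toLp 2 fun k => B (dl k)

theorem norm_col (B : EE ι →L[ℂ] EE ι) : ‖col B‖ = Real.sqrt (hs B) := by
  rw [PiLp.norm_eq_of_L2]
  rfl

theorem col_add (A B : EE ι →L[ℂ] EE ι) : col (A + B) = col A + col B := by
  ext k
  simp [col]

theorem sqrt_hs_add (A B : EE ι →L[ℂ] EE ι) :
    Real.sqrt (hs (A + B)) ≤ Real.sqrt (hs A) + Real.sqrt (hs B) := by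
  rw [← norm_col, ← norm_col, ← norm_col, col_add]
  exact norm_add_le _ _

theorem pow_contr (T : EE ι →L[ℂ] EE ι) (hT : ∀ v, ‖T v‖ ≤ ‖v‖) (t : ℕ) (v : EE ι) :
    ‖(T ^ t) v‖ ≤ ‖v‖ := by
  induction t generalizing v with
  | zero => simp
  | succ t ih =>
    rw [pow_succ]
    exact (ih (T v)).trans (hT v)

theorem sqrt_leak_pow (W : Submodule ℂ (EE ι)) (T : EE ι →L[ℂ] EE ι) (hT : ∀ v, ‖T v‖ ≤ ‖v‖)
    (t : ℕ) : Real.sqrt (leak W (T ^ t) W) ≤ (t : ℝ) * Real.sqrt (leak W T W) := by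
  induction t with
  | zero =>
    have h : (1 - pr W) * T ^ 0 * pr W = 0 := by
      rw [pow_zero, mul_one, sub_mul, one_mul, pr_mul_pr, sub_self]
    have h2 : leak W (T ^ 0) W = 0 := by
      unfold leak
      rw [h]
      simp [hs]
    rw [h2]
    simp
  | succ t ih =>
    have h : (1 - pr W) * T ^ (t + 1) * pr W =
        ((1 - pr W) * T) * ((1 - pr W) * T ^ t * pr W) +
          ((1 - pr W) * T * pr W) * (T ^ t * pr W) := by
      rw [pow_succ']
      exact ring_aux1 _ _ _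
    have h1 : hs (((1 - pr W) * T) * ((1 - pr W) * T ^ t * pr W)) ≤ leak W (T ^ t) W :=
      hs_mul_le_left_one _ _ fun v => (norm_one_sub_pr_le W (T v)).trans (hT v)
    have h2 : hs (((1 - pr W) * T * pr W) * (T ^ t * pr W)) ≤ leak W T W :=
      hs_mul_le_right_one _ _ fun v => (pow_contr T hT t (pr W v)).trans (norm_pr_le W v)
    have h3 : Real.sqrt (leak W (T ^ (t + 1)) W) ≤
        Real.sqrt (leak W (T ^ t) W) + Real.sqrt (leak W T W) := by
      conv_lhs => unfold leak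
      rw [h]
      exact (sqrt_hs_add _ _).trans
        (add_le_add (Real.sqrt_le_sqrt h1) (Real.sqrt_le_sqrt h2))
    push_cast
    linarith

end FinLeakAux

open FinLeakAux

section
variable {ι : Type} [Fintype ι] [DecidableEq ι]

/-- Commutator identity. -/
theorem leak_dop (S : Submodule ℂ (EE ι)) (φ : ι → ℝ) :
    2 * leak S (dop φ) S = ∑ k, ∑ l, ker2 S k l * (φ k - φ l) ^ 2 := by
  set C : EE ι →L[ℂ] EE ι := dop φ * pr S - pr S * dop φ with hC
  have h1 : hs C = ∑ k, ∑ l, ker2 S k l * (φ k - φ l) ^ 2 := by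
    rw [Finset.sum_comm]
    unfold hs
    refine Finset.sum_congr rfl fun l _ => ?_
    rw [EuclideanSpace.norm_sq_eq]
    refine Finset.sum_congr rfl fun k _ => ?_
    have : C (dl l) k = ((φ k - φ l : ℝ) : ℂ) * pr S (dl l) k := by
      simp only [hC, sub_apply, mul_apply_eq_comp, dop_dl,
        map_smul, PiLp.sub_apply, PiLp.smul_apply, dop_apply, smul_eq_mul]
      push_cast
      ring
    rw [this, norm_mul, mul_pow, Complex.norm_real, Real.norm_eq_abs, sq_abs, ker2, mul_comm]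
  have h2 : hs C = hs ((1 - pr S) * dop φ * pr S) + hs (pr S * dop φ * (1 - pr S)) := by
    unfold hs
    rw [← Finset.sum_add_distrib]
    refine Finset.sum_congr rfl fun l _ => ?_
    have e1 : pr S * C = -(pr S * dop φ * (1 - pr S)) := by
      have := pr_mul_pr S
      rw [hC, mul_sub, ← mul_assoc, ← mul_assoc, this]
      exact ring_aux2 _ _
    have e2 : (1 - pr S) * C = (1 - pr S) * dop φ * pr S := by
      have h0 : (1 - pr S) * pr S = 0 := by rw [sub_mul, one_mul, pr_mul_pr, sub_self]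
      rw [hC, mul_sub, ← mul_assoc, ← mul_assoc, h0]
      simp
    rw [norm_sq_split S (C (dl l)), ← mul_apply_eq_comp, e1,
      ← mul_apply_eq_comp (1 - pr S), e2, neg_apply, norm_neg,
      add_comm]
  have h3 : hs (pr S * dop φ * (1 - pr S)) = hs ((1 - pr S) * dop φ * pr S) := by
    rw [← hs_star, star_mul, star_mul, star_one_sub_pr, star_pr, star_dop, mul_assoc]
  rw [← h1, h2, h3, leak]
  ring

theorem leak_pow (W : Submodule ℂ (EE ι)) (T : EE ι →L[ℂ] EE ι) (hT : ∀ v, ‖T v‖ ≤ ‖v‖) (t : ℕ) :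
    leak W (T ^ t) W ≤ (t : ℝ) ^ 2 * leak W T W := by
  have h := sqrt_leak_pow W T hT t
  have h2 := pow_le_pow_left₀ (Real.sqrt_nonneg _) h 2
  rwa [mul_pow, Real.sq_sqrt (leak_nonneg _ _ _), Real.sq_sqrt (leak_nonneg _ _ _)] at h2

/-- An orthonormal basis of `S` together with the orthonormal basis of `tilt S ψ` obtained by
normalising its image. -/
theorem exists_onb_tilt (S : Submodule ℂ (EE ι)) (ψ : ι → ℝ) :
    ∃ (u : Fin (finrank ℂ S) → EE ι) (z : Fin (finrank ℂ S) → ℝ),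
      Orthonormal ℂ u ∧ Submodule.span ℂ (Set.range u) = S ∧
      (∀ j, 0 < z j) ∧ (∀ j, z j = ‖dop (fun k => Real.exp (ψ k)) (u j)‖) ∧
      Orthonormal ℂ (fun j => ((z j : ℂ))⁻¹ • dop (fun k => Real.exp (ψ k)) (u j)) ∧
      Submodule.span ℂ (Set.range fun j => ((z j : ℂ))⁻¹ • dop (fun k => Real.exp (ψ k)) (u j)) =
        tilt S ψ := by
  set G : EE ι →L[ℂ] EE ι := dop fun k => Real.exp (ψ k) with hG
  obtain ⟨u, hu, hS, horth⟩ := exists_onb_orth S G
  have hpos : ∀ j, 0 < ‖G (u j)‖ := by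
    intro j
    refine norm_pos_iff.2 fun h0 => ?_
    have h1 : u j = 0 := by
      ext k
      have := congrArg (fun v : EE ι => v k) h0
      simp only [hG, dop_apply, PiLp.zero_apply, mul_eq_zero] at this
      rcases this with h | h
      · exact absurd h (by exact_mod_cast (Real.exp_pos (ψ k)).ne')
      · simpa using h
    exact hu.ne_zero j h1
  refine ⟨u, fun j => ‖G (u j)‖, hu, hS, hpos, fun j => rfl, ⟨fun j => ?_, fun i j hij => ?_⟩, ?_⟩
  · rw [norm_smul, norm_inv, Complex.norm_real, norm_norm, inv_mul_cancel₀ (hpos j).ne']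
  · simp only [inner_smul_left, inner_smul_right, horth i j hij, mul_zero]
  · have h1 : tilt S ψ = Submodule.span ℂ (Set.range fun j => G (u j)) := by
      conv_lhs => rw [← hS]
      unfold tilt
      rw [Submodule.map_span, ← Set.range_comp]
      rfl
    rw [h1]
    apply le_antisymm
    · rw [Submodule.span_le]
      rintro _ ⟨j, rfl⟩
      exact Submodule.smul_mem _ _ (Submodule.subset_span ⟨j, rfl⟩)
    · rw [Submodule.span_le]
      rintro _ ⟨j, rfl⟩
      have hz : ((‖G (u j)‖ : ℝ) : ℂ) ≠ 0 := by exact_mod_cast (hpos j).ne'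
      have : G (u j) = ((‖G (u j)‖ : ℝ) : ℂ) • (((‖G (u j)‖ : ℝ) : ℂ)⁻¹ • G (u j)) := by
        rw [smul_smul, mul_inv_cancel₀ hz, one_smul]
      show G (u j) ∈ _
      rw [this]
      exact Submodule.smul_mem _ _ (Submodule.subset_span ⟨j, rfl⟩)

theorem leak_tilt_right (W' W : Submodule ℂ (EE ι)) (B : EE ι →L[ℂ] EE ι) (ψ : ι → ℝ) (Γ : ℝ)
    (hψ : ∀ k, |ψ k| ≤ Γ) :
    leak W' (B * dop fun k => Real.exp (-ψ k)) (tilt W ψ) ≤ Real.exp (2 * Γ) * leak W' B W := by
  obtain ⟨u, z, hu, hS, hz, hzn, hu', hS'⟩ := exists_onb_tilt W ψ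
  unfold leak
  rw [hs_mul_pr _ _ hu' hS', hs_mul_pr _ _ hu hS, Finset.mul_sum]
  refine Finset.sum_le_sum fun j _ => ?_
  have hinv : (dop fun k => Real.exp (-ψ k)) ((dop fun k => Real.exp (ψ k)) (u j)) = u j := by
    rw [← mul_apply_eq_comp, dop_mul]
    have : (fun k => Real.exp (-ψ k) * Real.exp (ψ k)) = fun _ => (1 : ℝ) := by
      funext k
      rw [← Real.exp_add]
      simp
    rw [this, dop_one]
    rfl
  have h1 : ((1 - pr W') * (B * dop fun k => Real.exp (-ψ k)))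
      (((z j : ℂ))⁻¹ • dop (fun k => Real.exp (ψ k)) (u j)) =
      ((z j : ℂ))⁻¹ • ((1 - pr W') * B) (u j) := by
    rw [map_smul]
    congr 1
    simp only [mul_apply_eq_comp, hinv]
  have h2 : Real.exp (-Γ) ≤ z j := by
    have := le_norm_dop_apply (fun k => Real.exp (ψ k)) (Real.exp (-Γ)) (Real.exp_pos _).le
      (fun k => by
        rw [abs_of_pos (Real.exp_pos _)]
        exact Real.exp_le_exp.2 (neg_le_of_abs_le (hψ k))) (u j)
    rwa [hu.1 j, mul_one, ← hzn j] at this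
  have h3 : (z j)⁻¹ ≤ Real.exp Γ := by
    rw [inv_le_comm₀ (hz j) (Real.exp_pos _), ← Real.exp_neg]
    exact h2
  rw [h1, norm_smul, norm_inv, Complex.norm_real, Real.norm_eq_abs, abs_of_pos (hz j), mul_pow]
  refine mul_le_mul_of_nonneg_right ?_ (sq_nonneg _)
  rw [two_mul, Real.exp_add, ← sq]
  exact pow_le_pow_left₀ (inv_nonneg.2 (hz j).le) h3 2

theorem leak_tilt_left (W' S : Submodule ℂ (EE ι)) (B : EE ι →L[ℂ] EE ι) (ψ : ι → ℝ) (Γ : ℝ)
    (hψ : ∀ k, |ψ k| ≤ Γ) :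
    leak (tilt W' ψ) ((dop fun k => Real.exp (ψ k)) * B) S ≤ Real.exp (2 * Γ) * leak W' B S := by
  set G : EE ι →L[ℂ] EE ι := dop fun k => Real.exp (ψ k) with hG
  have h0 : (1 - pr (tilt W' ψ)) * G * pr W' = 0 := by
    ext1 v
    have : G (pr W' v) ∈ tilt W' ψ := Submodule.mem_map_of_mem (pr_mem W' v)
    simpa using one_sub_pr_of_mem _ this
  have h1 : (1 - pr (tilt W' ψ)) * (G * B) * pr S =
      ((1 - pr (tilt W' ψ)) * G) * ((1 - pr W') * B * pr S) := by
    have : ((1 - pr (tilt W' ψ)) * G) * ((1 - pr W') * B * pr S) =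
        (1 - pr (tilt W' ψ)) * (G * B) * pr S -
          ((1 - pr (tilt W' ψ)) * G * pr W') * (B * pr S) := ring_aux3 _ _ _ _ _
    rw [this, h0, zero_mul, sub_zero]
  unfold leak
  rw [h1, two_mul, Real.exp_add, ← sq]
  refine hs_mul_le_left _ _ _ (Real.exp_pos _).le fun v => ?_
  refine (norm_one_sub_pr_le _ (G v)).trans ?_
  refine norm_dop_apply_le _ _ (Real.exp_pos _).le (fun k => ?_) v
  rw [abs_of_pos (Real.exp_pos _)]
  exact Real.exp_le_exp.2 (le_of_abs_le (hψ k))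

end

namespace FinLeakAux

theorem shiftM_apply {n : ℕ} (w : ℕ → ℝ) (v : EE (Fin n)) (k : Fin n) :
    mop (shiftM n w) v k =
      if h : 1 ≤ (k : ℕ) then
        (w (k - 1) : ℂ) * v ⟨k - 1, lt_of_le_of_lt (Nat.sub_le _ _) k.2⟩ else 0 := by
  rw [mop_apply]
  split_ifs with h
  · rw [Finset.sum_eq_single (⟨k - 1, lt_of_le_of_lt (Nat.sub_le _ _) k.2⟩ : Fin n)]
    · have : (k : ℕ) = k - 1 + 1 := by omega
      simp only [shiftM]
      rw [if_pos this]
    · intro l _ hl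
      have : ¬ (k : ℕ) = (l : ℕ) + 1 := fun h' => hl (Fin.ext (by simp only; omega))
      simp [shiftM, this]
    · intro h'
      exact absurd (Finset.mem_univ _) h'
  · refine Finset.sum_eq_zero fun l _ => ?_
    have : ¬ (k : ℕ) = (l : ℕ) + 1 := by omega
    simp [shiftM, this]

end FinLeakAux

theorem shiftM_pow_apply {n : ℕ} (w : ℕ → ℝ) (t : ℕ) (v : EE (Fin n)) (k : Fin n) :
    ((mop (shiftM n w)) ^ t) v k =
      if h : t ≤ (k : ℕ) then
        (wprod w (k - t) t : ℂ) * v ⟨k - t, lt_of_le_of_lt (Nat.sub_le _ _) k.2⟩ else 0 := by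
  induction t generalizing k with
  | zero => simp [wprod]
  | succ t ih =>
    rw [pow_succ', mul_apply_eq_comp, shiftM_apply]
    by_cases h1 : 1 ≤ (k : ℕ)
    · rw [dif_pos h1, ih]
      by_cases h2 : t + 1 ≤ (k : ℕ)
      · have h3 : t ≤ (k : ℕ) - 1 := by omega
        rw [dif_pos h2, dif_pos h3]
        have e1 : (k : ℕ) - 1 - t = k - (t + 1) := by omega
        have e2 : (k : ℕ) - (t + 1) + t = k - 1 := by omega
        simp only [e1]
        rw [wprod, wprod, Finset.prod_range_succ, e2]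
        push_cast
        ring
      · have h3 : ¬ t ≤ (k : ℕ) - 1 := by omega
        rw [dif_neg h2, dif_neg h3, mul_zero]
    · have h2 : ¬ t + 1 ≤ (k : ℕ) := by omega
      rw [dif_neg h1, dif_neg h2]

theorem norm_shiftM_le {n : ℕ} (w : ℕ → ℝ) (hw0 : ∀ k, 0 ≤ w k) (hw1 : ∀ k, w k ≤ 1)
    (v : EE (Fin n)) : ‖mop (shiftM n w) v‖ ≤ ‖v‖ := by
  refine (pow_le_pow_iff_left₀ (norm_nonneg _) (norm_nonneg _) two_ne_zero).1 ?_
  rw [EuclideanSpace.norm_sq_eq, EuclideanSpace.norm_sq_eq]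
  cases n with
  | zero => simp
  | succ m =>
    rw [Fin.sum_univ_succ, Fin.sum_univ_castSucc]
    have h0 : mop (shiftM (m + 1) w) v 0 = 0 := by
      rw [shiftM_apply]
      simp
    have h1 : ∀ i : Fin m, ‖mop (shiftM (m + 1) w) v i.succ‖ ^ 2 ≤ ‖v i.castSucc‖ ^ 2 := by
      intro i
      rw [shiftM_apply, dif_pos (by simp)]
      have e : (⟨(i.succ : ℕ) - 1, lt_of_le_of_lt (Nat.sub_le _ _) i.succ.2⟩ : Fin (m + 1)) =
          i.castSucc := Fin.ext (by simp)
      rw [e, norm_mul, Complex.norm_real, Real.norm_eq_abs, abs_of_nonneg (hw0 _)]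
      exact pow_le_pow_left₀ (mul_nonneg (hw0 _) (norm_nonneg _))
        (mul_le_of_le_one_left (norm_nonneg _) (hw1 _)) 2
    rw [h0]
    have h2 := Finset.sum_le_sum fun i (_ : i ∈ Finset.univ) => h1 i
    have h3 := sq_nonneg ‖v (Fin.last m)‖
    simp only [norm_zero, ne_eq, OfNat.ofNat_ne_zero, not_false_eq_true, zero_pow, zero_add]
    linarith

end Crest.Agent.R113
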