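import Crest.Agent.R113.FinLeak

/-! Row 113, S0149: monotonicity of the diagonal along the shift. -/

set_option autoImplicit false

noncomputable section

namespace Crest.Agent.R113

open Module

namespace FinMono

open FinBasicAux

variable {ι : Type} [Fintype ι] [DecidableEq ι]

omit [DecidableEq ι] in
theorem sum_add_le (T : Finset ι) (a b : EE ι) (ha : ‖a‖ ≤ 1) :
    ∑ l ∈ T, ‖(a + b) l‖ ^ 2 ≤ ∑ l ∈ T, ‖a l‖ ^ 2 + 2 * ‖b‖ + ‖b‖ ^ 2 := by
  have hA : ∑ l ∈ T, ‖a l‖ ^ 2 ≤ 1 := by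
    refine (Finset.sum_le_univ_sum_of_nonneg fun _ => by positivity).trans ?_
    rw [← EuclideanSpace.norm_sq_eq]
    exact pow_le_one₀ (norm_nonneg _) ha
  have hB : ∑ l ∈ T, ‖b l‖ ^ 2 ≤ ‖b‖ ^ 2 := by
    rw [EuclideanSpace.norm_sq_eq]
    exact Finset.sum_le_univ_sum_of_nonneg fun _ => by positivity
  have hC : ∑ l ∈ T, ‖a l‖ * ‖b l‖ ≤ ‖b‖ := by
    have h := Finset.sum_mul_sq_le_sq_mul_sq T (fun l => ‖a l‖) (fun l => ‖b l‖)
    refine (sq_le_sq₀ (Finset.sum_nonneg fun _ _ => by positivity) (norm_nonneg _)).1 (h.trans ?_)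
    calc _ ≤ 1 * ‖b‖ ^ 2 := mul_le_mul hA hB (Finset.sum_nonneg fun _ _ => by positivity) one_pos.le
      _ = _ := one_mul _
  calc _ ≤ ∑ l ∈ T, (‖a l‖ ^ 2 + 2 * (‖a l‖ * ‖b l‖) + ‖b l‖ ^ 2) := by
        refine Finset.sum_le_sum fun l _ => ?_
        calc ‖(a + b) l‖ ^ 2 ≤ (‖a l‖ + ‖b l‖) ^ 2 :=
              pow_le_pow_left₀ (norm_nonneg _) (norm_add_le (a l) (b l)) 2
          _ = _ := by ring
    _ ≤ _ := by
        rw [Finset.sum_add_distrib, Finset.sum_add_distrib, ← Finset.mul_sum]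
        linarith

omit [DecidableEq ι] in
theorem exists_sub (S : Submodule ℂ (EE ι)) (X : Finset ι) :
    ∃ S' : Submodule ℂ (EE ι), S' ≤ S ∧ (∀ v ∈ S', ∀ k ∈ X, v k = 0) ∧
      finrank ℂ S ≤ finrank ℂ S' + X.card := by
  let r : EE ι →ₗ[ℂ] (X → ℂ) :=
    { toFun := fun v k => v k
      map_add' := fun _ _ => rfl
      map_smul' := fun _ _ => rfl }
  refine ⟨S ⊓ LinearMap.ker r, inf_le_left, fun v hv k hk => congrFun hv.2 ⟨k, hk⟩, ?_⟩
  have h1 := Submodule.finrank_sup_add_finrank_inf_eq S (LinearMap.ker r)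
  have h2 := LinearMap.finrank_range_add_finrank_ker r
  have h3 := Submodule.finrank_le (S ⊔ LinearMap.ker r)
  have h4 := Submodule.finrank_le (LinearMap.range r)
  rw [Module.finrank_fintype_fun_eq_card, Fintype.card_coe] at h4
  omega

theorem abs_mono (S : Submodule ℂ (EE ι)) (G : EE ι →L[ℂ] EE ι) (X Z : Finset ι) (f : ι → ι)
    (hf : Set.InjOn f Z) (hG : ∀ v : EE ι, (∀ k ∈ X, v k = 0) → ‖G v‖ ≤ ‖v‖)
    (hZ : ∀ k ∈ Z, ∀ v : EE ι, ‖G v (f k)‖ = ‖v k‖) :
    ∑ k ∈ Z, (dg S k - dg S (f k)) ≤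
      X.card + 2 * √(Fintype.card ι * leak S G S) + leak S G S := by
  obtain ⟨S', hS', hX, hr⟩ := exists_sub S X
  obtain ⟨u, hu, hsp, -⟩ := exists_onb_orth S' 1
  have hu' : ∀ j, u j ∈ S' := fun j => hsp ▸ Submodule.subset_span ⟨j, rfl⟩
  have h1 : ∑ k ∈ Z, dg S k ≤ ∑ k ∈ Z, dg S' k + X.card := by
    have a1 : ∑ k ∈ Z, (dg S k - dg S' k) ≤ ∑ k, (dg S k - dg S' k) :=
      Finset.sum_le_univ_sum_of_nonneg fun k => sub_nonneg.2 (dg_mono hS' k)
    rw [Finset.sum_sub_distrib, Finset.sum_sub_distrib, sum_dg, sum_dg] at a1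
    have a2 : (finrank ℂ S : ℝ) ≤ finrank ℂ S' + X.card := by exact_mod_cast hr
    linarith
  set G' : EE ι →L[ℂ] EE ι := G * dop (fun k => if k ∈ X then 0 else 1) with hG'
  have hG'1 : ‖G'‖ ≤ 1 := by
    refine ContinuousLinearMap.opNorm_le_bound _ one_pos.le fun v => ?_
    refine (hG _ fun k hk => ?_).trans (norm_dop_apply_le _ 1 one_pos.le (fun k => ?_) v)
    · exact (dop_apply _ v k).trans (by rw [if_pos hk]; simp)
    · split_ifs <;> simp
  have hG'u : ∀ j, G' (u j) = G (u j) := fun j => by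
    have : dop (fun k => if k ∈ X then 0 else 1) (u j) = u j := by
      ext k
      rw [dop_apply]
      split_ifs with hk
      · simp [hX _ (hu' j) k hk]
      · simp
    show G (dop _ (u j)) = _
    rw [this]
  set b : Fin (finrank ℂ S') → EE ι := fun j => ((1 - pr S) * G * pr S) (u j) with hb
  have hdec : ∀ j, G (u j) = (pr S * G') (u j) + b j := fun j => by
    have : pr S (u j) = u j := Submodule.starProjection_eq_self_iff.2 (hS' (hu' j))
    show G (u j) = pr S (G' (u j)) + (G (pr S (u j)) - pr S (G (pr S (u j))))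
    rw [this, hG'u]; abel
  have ha : ∀ j, ‖(pr S * G') (u j)‖ ≤ 1 := fun j => by
    refine (S.norm_starProjection_apply_le (G' (u j))).trans ?_
    refine (G'.le_opNorm _).trans ?_
    rw [hu.1 j, mul_one]; exact hG'1
  have hB : ∑ j, ‖b j‖ ^ 2 ≤ leak S G S := sum_norm_sq_le_hs u hu _
  have hB1 : ∑ j, ‖b j‖ ≤ √(Fintype.card ι * leak S G S) := by
    apply Real.le_sqrt_of_sq_le
    refine (sq_sum_le_card_mul_sum_sq).trans ?_
    have : finrank ℂ S' ≤ Fintype.card ι := by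
      have := Submodule.finrank_le S'
      rwa [finrank_euclideanSpace] at this
    rw [Finset.card_univ, Fintype.card_fin]
    exact mul_le_mul (by exact_mod_cast this) hB (Finset.sum_nonneg fun _ _ => by positivity)
      (by positivity)
  have hA : ∀ l, ∑ j, ‖(pr S * G') (u j) l‖ ^ 2 ≤ dg S l := fun l => by
    simp only [entry (pr S * G'), norm_inner_symm (star (pr S * G') (dl l))]
    refine (hu.sum_inner_products_le _).trans ?_
    rw [star_mul, star_pr, dg]
    refine pow_le_pow_left₀ (norm_nonneg _) ?_ 2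
    refine ((star G').le_opNorm (pr S (dl l))).trans ?_
    refine mul_le_of_le_one_left (norm_nonneg _) (le_trans (le_of_eq ?_) hG'1)
    rw [ContinuousLinearMap.star_eq_adjoint]
    exact ContinuousLinearMap.adjoint.norm_map G'
  have h2 : ∑ k ∈ Z, dg S' k ≤ ∑ k ∈ Z, dg S (f k) + 2 * ∑ j, ‖b j‖ + ∑ j, ‖b j‖ ^ 2 := by
    calc ∑ k ∈ Z, dg S' k = ∑ j, ∑ l ∈ Z.image f, ‖((pr S * G') (u j) + b j) l‖ ^ 2 := by
          simp only [dg_eq_sum S' u hu hsp]
          rw [Finset.sum_comm]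
          refine Finset.sum_congr rfl fun j _ => ?_
          rw [Finset.sum_image hf, ← hdec]
          exact Finset.sum_congr rfl fun k hk => by rw [hZ k hk]
      _ ≤ ∑ j, (∑ l ∈ Z.image f, ‖(pr S * G') (u j) l‖ ^ 2 + 2 * ‖b j‖ + ‖b j‖ ^ 2) :=
          Finset.sum_le_sum fun j _ => sum_add_le _ _ _ (ha j)
      _ ≤ _ := by
          rw [Finset.sum_add_distrib, Finset.sum_add_distrib, ← Finset.mul_sum, Finset.sum_comm,
            ← Finset.sum_image (f := dg S) hf]
          gcongr with l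
          exact hA l
  rw [Finset.sum_sub_distrib]
  linarith

theorem leak_smul (S : Submodule ℂ (EE ι)) (B : EE ι →L[ℂ] EE ι) (ν : ℝ) :
    leak S ((ν : ℂ) • B) S = ν ^ 2 * leak S B S := by
  simp only [leak, hs, mul_smul_comm, smul_mul_assoc, smul_apply, norm_smul,
    mul_pow, Complex.norm_real, Real.norm_eq_abs, sq_abs, Finset.mul_sum]

end FinMono

open FinMono

/-- The diagonal of the tilted projection does not decrease along the shift on `Z`. -/
theorem mono_shift {n : ℕ} (W : Submodule ℂ (EE (Fin n))) (w : ℕ → ℝ) (hw0 : ∀ k, 0 ≤ w k)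
    (hw1 : ∀ k, w k ≤ 1) (ψ : Fin n → ℝ) (Γ : ℝ) (hψ : ∀ k, |ψ k| ≤ Γ) (s : ℕ) (ν : ℝ)
    (hν : 0 ≤ ν) (X Z : Finset (Fin n)) (f : Fin n → Fin n)
    (h1 : ∀ k : Fin n, k ∉ X → ∀ h : (k : ℕ) + s < n,
      ν * Real.exp (ψ ⟨k + s, h⟩ - ψ k) * wprod w k s ≤ 1)
    (h2 : ∀ k ∈ Z, k ∉ X ∧ (f k : ℕ) = k + s ∧ ν * Real.exp (ψ (f k) - ψ k) * wprod w k s = 1) :
    ∑ k ∈ Z, (dg (tilt W ψ) k - dg (tilt W ψ) (f k)) ≤ X.card
      + 2 * √(n * (ν ^ 2 * Real.exp (4 * Γ) * (s : ℝ) ^ 2 * leak W (mop (shiftM n w)) W))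
      + ν ^ 2 * Real.exp (4 * Γ) * (s : ℝ) ^ 2 * leak W (mop (shiftM n w)) W := by
  set G : EE (Fin n) →L[ℂ] EE (Fin n) := (ν : ℂ) • ((dop fun k => Real.exp (ψ k)) *
    (mop (shiftM n w) ^ s * dop fun k => Real.exp (-ψ k))) with hG
  have hwp : ∀ k, 0 ≤ wprod w k s := fun k => Finset.prod_nonneg fun l _ => hw0 _
  have hGa : ∀ (v : EE (Fin n)) (k l : Fin n), (l : ℕ) = k + s →
      ‖G v l‖ = ν * Real.exp (ψ l - ψ k) * wprod w k s * ‖v k‖ := by
    intro v k l hl
    have e : G v l = (ν : ℂ) * dop (fun k => Real.exp (ψ k))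
        ((mop (shiftM n w) ^ s) (dop (fun k => Real.exp (-ψ k)) v)) l := rfl
    have e2 : (⟨l - s, lt_of_le_of_lt (Nat.sub_le _ _) l.2⟩ : Fin n) = k := Fin.ext (by
      show (l : ℕ) - s = k
      omega)
    have e3 : (l : ℕ) - s = k := by omega
    rw [e, dop_apply, shiftM_pow_apply, dif_pos (by omega), e2, e3, dop_apply]
    simp only [norm_mul, Complex.norm_real, Real.norm_of_nonneg hν,
      Real.norm_of_nonneg (Real.exp_pos _).le, Real.norm_of_nonneg (hwp _)]
    rw [sub_eq_add_neg, Real.exp_add]; ring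
  have hG0 : ∀ (v : EE (Fin n)) (l : Fin n), ¬ s ≤ (l : ℕ) → G v l = 0 := by
    intro v l hl
    have e : G v l = (ν : ℂ) * dop (fun k => Real.exp (ψ k))
        ((mop (shiftM n w) ^ s) (dop (fun k => Real.exp (-ψ k)) v)) l := rfl
    rw [e, dop_apply, shiftM_pow_apply, dif_neg hl, mul_zero, mul_zero]
  have key := abs_mono (tilt W ψ) G X Z f (fun k hk l hl h => Fin.ext (by
      have a := (h2 k hk).2.1
      have b := (h2 l hl).2.1
      rw [h] at a
      omega)) (fun v hv => ?_) (fun k hk v => by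
      rw [hGa v k (f k) (h2 k hk).2.1, (h2 k hk).2.2, one_mul])
  · have hL : leak (tilt W ψ) G (tilt W ψ) ≤
        ν ^ 2 * Real.exp (4 * Γ) * (s : ℝ) ^ 2 * leak W (mop (shiftM n w)) W := by
      have e' : Real.exp (4 * Γ) = Real.exp (2 * Γ) * Real.exp (2 * Γ) := by
        rw [← Real.exp_add]; ring_nf
      rw [hG, leak_smul, e']
      calc _ ≤ ν ^ 2 * (Real.exp (2 * Γ) * (Real.exp (2 * Γ) *
            ((s : ℝ) ^ 2 * leak W (mop (shiftM n w)) W))) := by
            refine mul_le_mul_of_nonneg_left ((leak_tilt_left _ _ _ ψ Γ hψ).trans ?_) (sq_nonneg _)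
            refine mul_le_mul_of_nonneg_left ((leak_tilt_right _ _ _ ψ Γ hψ).trans ?_)
              (Real.exp_pos _).le
            exact mul_le_mul_of_nonneg_left (leak_pow W _ (norm_shiftM_le w hw0 hw1) s)
              (Real.exp_pos _).le
        _ = _ := by ring
    rw [Fintype.card_fin] at key
    refine key.trans ?_
    gcongr
  · refine (sq_le_sq₀ (norm_nonneg _) (norm_nonneg _)).1 ?_
    rw [EuclideanSpace.norm_sq_eq, EuclideanSpace.norm_sq_eq]
    let g : Fin n → Fin n := fun l => ⟨l - s, lt_of_le_of_lt (Nat.sub_le _ _) l.2⟩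
    calc ∑ l, ‖G v l‖ ^ 2 ≤ ∑ l ∈ Finset.univ.filter (fun l : Fin n => s ≤ (l : ℕ)),
          ‖v (g l)‖ ^ 2 := by
          rw [Finset.sum_filter]
          refine Finset.sum_le_sum fun l _ => ?_
          split_ifs with hl
          · have hl' : (l : ℕ) = (g l : ℕ) + s := by
              show (l : ℕ) = (l : ℕ) - s + s
              omega
            refine pow_le_pow_left₀ (norm_nonneg _) ?_ 2
            rw [hGa v (g l) l hl']
            by_cases hx : g l ∈ X
            · rw [hv _ hx]; simp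
            · have := h1 (g l) hx (hl' ▸ l.2)
              have e : (⟨(g l : ℕ) + s, hl' ▸ l.2⟩ : Fin n) = l := Fin.ext hl'.symm
              rw [e] at this
              exact mul_le_of_le_one_left (norm_nonneg _) this
          · rw [hG0 v l hl]; simp
      _ = ∑ k ∈ (Finset.univ.filter (fun l : Fin n => s ≤ (l : ℕ))).image g, ‖v k‖ ^ 2 := by
          rw [Finset.sum_image]
          intro a ha b hb h
          have h' : (a : ℕ) - s = (b : ℕ) - s := congrArg Fin.val h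
          simp only [Finset.coe_filter, Finset.mem_univ, true_and, Set.mem_ofPred_eq] at ha hb
          exact Fin.ext (by omega)
      _ ≤ _ := Finset.sum_le_univ_sum_of_nonneg fun _ => by positivity

end Crest.Agent.R113
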