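import Crest.Agent.R113.FinBasic

/-! Row 113, S0149: rounding an almost projection. -/

set_option autoImplicit false

noncomputable section

namespace Crest.Agent.R113

variable {ι : Type} [Fintype ι] [DecidableEq ι]

namespace FinRound

omit [DecidableEq ι] in
theorem inner_diag (b : OrthonormalBasis ι ℂ (EE ι)) (D : EE ι →L[ℂ] EE ι) (d : ι → ℂ)
    (h : ∀ j, D (b j) = d j • b j) (i : ι) (v : EE ι) :
    inner ℂ (b i) (D v) = d i * inner ℂ (b i) v := by
  conv_lhs => rw [← b.sum_repr' v]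
  simp only [map_sum, map_smul, h, smul_smul]
  rw [b.orthonormal.inner_right_fintype, mul_comm]

theorem hs_eq (b : OrthonormalBasis ι ℂ (EE ι)) (B : EE ι →L[ℂ] EE ι) :
    hs B = ∑ j, ∑ i, ‖inner ℂ (b i) (B (b j))‖ ^ 2 := by
  have h1 := hs_mul_pr ⊤ b b.orthonormal (by rw [← b.coe_toBasis]; exact b.toBasis.span_eq) B
  have h2 : pr (⊤ : Submodule ℂ (EE ι)) = 1 := Submodule.starProjection_top'
  rw [h2, mul_one] at h1
  rw [h1]
  exact Finset.sum_congr rfl fun j _ => (b.sum_sq_norm_inner_right _).symm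

theorem hs_diag (b : OrthonormalBasis ι ℂ (EE ι)) (D : EE ι →L[ℂ] EE ι) (d : ι → ℝ)
    (h : ∀ j, D (b j) = (d j : ℂ) • b j) : hs D = ∑ j, d j ^ 2 := by
  rw [hs_eq b]
  refine Finset.sum_congr rfl fun j _ => ?_
  rw [b.sum_sq_norm_inner_right, h, norm_smul, b.orthonormal.1 j, mul_one, Complex.norm_real,
    Real.norm_eq_abs, sq_abs]

theorem hs_sandwich (b : OrthonormalBasis ι ℂ (EE ι)) (D T : EE ι →L[ℂ] EE ι) (d : ι → ℝ)
    (h : ∀ j, D (b j) = (d j : ℂ) • b j) :
    hs ((1 - D) * T * D) = ∑ j, ∑ i, ((1 - d i) * d j) ^ 2 * ‖inner ℂ (b i) (T (b j))‖ ^ 2 := by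
  rw [hs_eq b]
  refine Finset.sum_congr rfl fun j _ => Finset.sum_congr rfl fun i _ => ?_
  have h1 : ∀ j, (1 - D) (b j) = ((1 - d j : ℝ) : ℂ) • b j := fun j => by
    rw [sub_apply, h, Complex.ofReal_sub, sub_smul, Complex.ofReal_one, one_smul]
    rfl
  change ‖inner ℂ (b i) ((1 - D) (T (D (b j))))‖ ^ 2 = _
  rw [inner_diag b _ _ h1, h, map_smul, inner_smul_right, ← mul_assoc, ← Complex.ofReal_mul,
    norm_mul, mul_pow, Complex.norm_real, Real.norm_eq_abs, sq_abs]

end FinRound

open FinRound in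
/-- Rounding a Hermitian almost-idempotent, almost-invariant matrix to a subspace. -/
theorem exists_round (P T : Matrix ι ι ℂ) (hP : P.IsHermitian) :
    ∃ W : Submodule ℂ (EE ι),
      (∑ k, ∑ l, ‖P k l - pr W (dl l) k‖ ^ 2 ≤ 4 * mhs (P * P - P)) ∧
      leak W (mop T) W ≤ 16 * mhs ((1 - P) * T * P) := by
  set b := hP.eigenvectorBasis with hb
  set lam := hP.eigenvalues with hlam
  set W : Submodule ℂ (EE ι) := Submodule.span ℂ (b '' {j | 1 / 2 < lam j}) with hW
  set r : ι → ℝ := fun j => if 1 / 2 < lam j then 1 else 0 with hr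
  have h1 : ∀ j, mop P (b j) = (lam j : ℂ) • b j := by
    intro j
    ext k
    have := congrFun (hP.mulVec_eigenvectorBasis j) k
    rw [mop_apply]
    simpa [Matrix.mulVec, dotProduct] using this
  have h2 : ∀ j, pr W (b j) = (r j : ℂ) • b j := by
    intro j
    simp only [hr]
    split_ifs with hj
    · rw [Complex.ofReal_one, one_smul]
      exact Submodule.starProjection_eq_self_iff.2 (Submodule.subset_span ⟨j, hj, rfl⟩)
    · rw [Complex.ofReal_zero, zero_smul]
      refine (Submodule.starProjection_apply_eq_zero_iff _).2 ?_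
      intro u hu
      induction hu using Submodule.span_induction with
      | mem u hu =>
        obtain ⟨i, hi, rfl⟩ := hu
        exact b.orthonormal.2 fun h => hj (h ▸ hi)
      | zero => simp
      | add u v _ _ hu hv => rw [inner_add_left, hu, hv, add_zero]
      | smul c u _ hu => rw [inner_smul_left, hu, mul_zero]
  have hsub : ∀ A B : Matrix ι ι ℂ, mop (A - B) = mop A - mop B := fun A B =>
    map_sub (Matrix.toEuclideanCLM (𝕜 := ℂ)) A B
  have hone : mop (1 : Matrix ι ι ℂ) = 1 := map_one (Matrix.toEuclideanCLM (𝕜 := ℂ))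
  refine ⟨W, ?_, ?_⟩
  · have e1 : ∑ k, ∑ l, ‖P k l - pr W (dl l) k‖ ^ 2 = hs (mop P - pr W) := by
      rw [Finset.sum_comm, hs]
      refine Finset.sum_congr rfl fun l _ => ?_
      rw [EuclideanSpace.norm_sq_eq]
      refine Finset.sum_congr rfl fun k _ => ?_
      rw [sub_apply, PiLp.sub_apply, mop_apply]
      simp [dl]
    rw [e1, ← hs_mop, hsub, mop_mul,
      hs_diag b _ (fun j => lam j - r j) (fun j => by
        rw [sub_apply, h1, h2, Complex.ofReal_sub, sub_smul]),
      hs_diag b _ (fun j => lam j * lam j - lam j) (fun j => by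
        rw [sub_apply, Complex.ofReal_sub, sub_smul, Complex.ofReal_mul, mul_smul, ← h1, ← map_smul,
          ← h1]
        rfl),
      Finset.mul_sum]
    refine Finset.sum_le_sum fun j _ => ?_
    simp only [hr]
    split_ifs with hj
    · have : 0 ≤ (lam j - 1) ^ 2 * (4 * lam j ^ 2 - 1) :=
        mul_nonneg (sq_nonneg _) (by nlinarith)
      nlinarith
    · have : 0 ≤ lam j ^ 2 * (4 * (lam j - 1) ^ 2 - 1) :=
        mul_nonneg (sq_nonneg _) (by nlinarith)
      nlinarith
  · rw [leak, ← hs_mop, mop_mul, mop_mul, hsub, hone, hs_sandwich b _ _ r h2,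
      hs_sandwich b _ _ lam h1, Finset.mul_sum]
    refine Finset.sum_le_sum fun j _ => ?_
    rw [Finset.mul_sum]
    refine Finset.sum_le_sum fun i _ => ?_
    rw [← mul_assoc]
    refine mul_le_mul_of_nonneg_right ?_ (sq_nonneg _)
    simp only [hr]
    split_ifs with hi hj hj
    · nlinarith [sq_nonneg ((1 - lam i) * lam j)]
    · nlinarith [sq_nonneg ((1 - lam i) * lam j)]
    · have h3 : 1 / 2 * (1 / 2) ≤ (1 - lam i) * lam j :=
        mul_le_mul (by linarith) hj.le (by norm_num) (by linarith)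
      nlinarith
    · nlinarith [sq_nonneg ((1 - lam i) * lam j)]

end Crest.Agent.R113
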