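import Crest.Agent.R113.FinLeak

/-! Row 113, S0149: the test inequality and the monotonicity along the shift. -/

set_option autoImplicit false

noncomputable section

namespace Crest.Agent.R113

open Module

namespace FinTestAux

section
variable {ι : Type} [Fintype ι] [DecidableEq ι]

/-- The coordinate projection onto `A`. -/
def ind (A : Finset ι) : EE ι →L[ℂ] EE ι := dop fun k => if k ∈ A then 1 else 0

theorem ind_apply (A : Finset ι) (v : EE ι) (k : ι) : ind A v k = if k ∈ A then v k else 0 := by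
  rw [ind, dop_apply]; split_ifs <;> simp

theorem norm_ind_sq (A : Finset ι) (v : EE ι) : ‖ind A v‖ ^ 2 = ∑ k ∈ A, ‖v k‖ ^ 2 := by
  rw [EuclideanSpace.norm_sq_eq, ← Finset.sum_filter_add_sum_filter_not Finset.univ (· ∈ A)]
  have h1 : ∑ k ∈ Finset.univ.filter (fun k => ¬ k ∈ A), ‖ind A v k‖ ^ 2 = 0 :=
    Finset.sum_eq_zero fun k hk => by
      rw [ind_apply, if_neg (Finset.mem_filter.1 hk).2]; simp
  rw [h1, add_zero]
  have h2 : Finset.univ.filter (· ∈ A) = A := by ext k; simp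
  rw [h2]
  exact Finset.sum_congr rfl fun k hk => by rw [ind_apply, if_pos hk]

theorem inner_ind (A : Finset ι) (u v : EE ι) : inner ℂ (ind A u) v = inner ℂ u (ind A v) := by
  simp only [PiLp.inner_apply, ind_apply]
  exact Finset.sum_congr rfl fun k _ => by split_ifs <;> simp

theorem ind_ind (A : Finset ι) (v : EE ι) : ind A (ind A v) = ind A v := by
  ext k; simp only [ind_apply]; split_ifs <;> rfl

theorem ind_add_compl (A : Finset ι) (v : EE ι) : ind A v + ind Aᶜ v = v := by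
  ext k; simp only [PiLp.add_apply, ind_apply, Finset.mem_compl]; split_ifs <;> simp

theorem norm_ind_add (A : Finset ι) (v : EE ι) : ‖ind A v‖ ^ 2 + ‖ind Aᶜ v‖ ^ 2 = ‖v‖ ^ 2 := by
  rw [norm_ind_sq, norm_ind_sq, Finset.sum_add_sum_compl, EuclideanSpace.norm_sq_eq]

theorem ind_dl (A : Finset ι) (l : ι) : ind A (dl l) = if l ∈ A then dl l else 0 := by
  ext k
  rw [ind_apply]
  by_cases h : k = l
  · subst h; split_ifs <;> simp
  · split_ifs <;> simp [dl, h]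

theorem hs_mul_ind (B : EE ι →L[ℂ] EE ι) (A : Finset ι) :
    hs (B * ind A) = ∑ l ∈ A, ‖B (dl l)‖ ^ 2 := by
  rw [hs, ← Finset.sum_add_sum_compl A]
  have h1 : ∑ l ∈ Aᶜ, ‖(B * ind A) (dl l)‖ ^ 2 = 0 :=
    Finset.sum_eq_zero fun l hl => by
      rw [mul_apply_eq_comp, ind_dl, if_neg (Finset.mem_compl.1 hl)]; simp
  rw [h1, add_zero]
  exact Finset.sum_congr rfl fun l hl => by
    rw [mul_apply_eq_comp, ind_dl, if_pos hl]

omit [DecidableEq ι] in
theorem inner_pr (S : Submodule ℂ (EE ι)) (u v : EE ι) :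
    inner ℂ (pr S u) v = inner ℂ u (pr S v) := Submodule.inner_starProjection_left_eq_right S u v

omit [DecidableEq ι] in
theorem pr_mem {S : Submodule ℂ (EE ι)} {v : EE ι} (h : v ∈ S) : pr S v = v :=
  Submodule.starProjection_eq_self_iff.2 h

omit [DecidableEq ι] in
theorem pr_pr (S : Submodule ℂ (EE ι)) (v : EE ι) : pr S (pr S v) = pr S v :=
  pr_mem (S.starProjection_apply_mem _)

omit [DecidableEq ι] in
theorem norm_pr_le (S : Submodule ℂ (EE ι)) (v : EE ι) : ‖pr S v‖ ≤ ‖v‖ :=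
  S.norm_starProjection_apply_le v

theorem pow_four_le {S : Submodule ℂ (EE ι)} (A : Finset ι) {u : EE ι} (hu : u ∈ S)
    (h1 : ‖u‖ = 1) : (‖ind A u‖ ^ 2) ^ 4 ≤ ‖(ind A * pr S * ind A) u‖ ^ 2 := by
  have e1 : (‖ind A u‖ ^ 2 : ℝ) ≤ ‖pr S (ind A u)‖ := by
    have h : inner ℂ u (pr S (ind A u)) = inner ℂ (ind A u) (ind A u) := by
      rw [← inner_pr, pr_mem hu, inner_ind, ind_ind]
    have h2 := norm_inner_le_norm (𝕜 := ℂ) u (pr S (ind A u))
    rw [h, inner_self_eq_norm_sq_to_K, h1, one_mul] at h2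
    simpa using h2
  have e2 : (‖pr S (ind A u)‖ ^ 2 : ℝ) ≤ ‖(ind A * pr S * ind A) u‖ := by
    have h : inner ℂ u ((ind A * pr S * ind A) u) =
        inner ℂ (pr S (ind A u)) (pr S (ind A u)) := by
      rw [inner_pr, pr_pr, inner_ind]; rfl
    have h2 := norm_inner_le_norm (𝕜 := ℂ) u ((ind A * pr S * ind A) u)
    rw [h, inner_self_eq_norm_sq_to_K, h1, one_mul] at h2
    simpa using h2
  calc (‖ind A u‖ ^ 2) ^ 4 = ((‖ind A u‖ ^ 2) ^ 2) ^ 2 := by ring
    _ ≤ (‖pr S (ind A u)‖ ^ 2) ^ 2 := by gcongr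
    _ ≤ _ := by gcongr

omit [DecidableEq ι] in
theorem norm_sum_orth {J : Type} [Fintype J] (x : J → EE ι)
    (hx : ∀ i j, i ≠ j → inner ℂ (x i) (x j) = 0) (a : J → ℂ) :
    ‖∑ j, a j • x j‖ ^ 2 = ∑ j, ‖a j‖ ^ 2 * ‖x j‖ ^ 2 := by
  have h : inner ℂ (∑ j, a j • x j) (∑ j, a j • x j) =
      ∑ j, ((‖a j‖ ^ 2 * ‖x j‖ ^ 2 : ℝ) : ℂ) := by
    rw [sum_inner]
    refine Finset.sum_congr rfl fun i _ => ?_
    rw [inner_sum, Finset.sum_eq_single i]
    · rw [inner_self_eq_norm_sq_to_K, norm_smul]; simp [mul_pow]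
    · intro j _ hj
      rw [inner_smul_left, inner_smul_right, hx i j hj.symm]; simp
    · simp
  rw [inner_self_eq_norm_sq_to_K] at h
  have h2 : ((‖∑ j, a j • x j‖ ^ 2 : ℝ) : ℂ) = ((∑ j, ‖a j‖ ^ 2 * ‖x j‖ ^ 2 : ℝ) : ℂ) := by
    rw [Complex.ofReal_sum, ← h]; simp
  exact_mod_cast h2

/-- A large subspace of `S` on which the mass off `A` is bounded below. -/
theorem exists_sub (S : Submodule ℂ (EE ι)) (A : Finset ι) (ε' : ℝ) (hε' : 0 < ε') :
    ∃ F : Submodule ℂ (EE ι), F ≤ S ∧ (∀ v ∈ F, ε' * ‖v‖ ^ 2 ≤ ‖ind Aᶜ v‖ ^ 2) ∧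
      (finrank ℂ S : ℝ) ≤ finrank ℂ F + ∑ k ∈ A, ∑ l ∈ A, ker2 S k l +
        4 * ε' * Fintype.card ι := by
  classical
  obtain ⟨u, hu, hS, ho⟩ := exists_onb_orth S (ind A)
  have huS : ∀ j, u j ∈ S := fun j => hS ▸ Submodule.subset_span ⟨j, rfl⟩
  let P : Fin (finrank ℂ S) → Prop := fun j => ‖ind A (u j)‖ ^ 2 ≤ 1 - ε'
  let u' : {j // P j} → EE ι := fun j => u j.1
  have hu' : Orthonormal ℂ u' := hu.comp _ Subtype.val_injective
  refine ⟨Submodule.span ℂ (Set.range u'), ?_, ?_, ?_⟩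
  · rw [Submodule.span_le]; rintro _ ⟨j, rfl⟩; exact huS _
  · intro v hv
    have h1 := FinBasicAux.pr_eq _ u' hu' rfl v
    have h2 := FinBasicAux.norm_pr_sq _ u' hu' rfl v
    rw [pr_mem hv] at h1 h2
    have h3 : ‖ind A v‖ ^ 2 = ∑ j, ‖inner ℂ (u' j) v‖ ^ 2 * ‖ind A (u' j)‖ ^ 2 := by
      rw [← norm_sum_orth (fun j => ind A (u' j))
        (fun i j hij => ho _ _ (fun h => hij (Subtype.ext h)))]
      congr 2
      conv_lhs => rw [h1]
      simp only [map_sum, map_smul]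
    have h4 : ‖ind A v‖ ^ 2 ≤ (1 - ε') * ‖v‖ ^ 2 := by
      rw [h3, h2, Finset.mul_sum]
      refine Finset.sum_le_sum fun j _ => ?_
      rw [mul_comm (1 - ε')]
      exact mul_le_mul_of_nonneg_left j.2 (sq_nonneg _)
    have h5 := norm_ind_add A v
    linarith
  · rw [finrank_span_eq_card hu'.linearIndependent, Fintype.card_subtype]
    have h1 : ∑ k ∈ A, ∑ l ∈ A, ker2 S k l = hs (ind A * pr S * ind A) := by
      rw [hs_mul_ind, Finset.sum_comm]
      refine Finset.sum_congr rfl fun l _ => ?_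
      rw [mul_apply_eq_comp, norm_ind_sq]; rfl
    have h2 := sum_norm_sq_le_hs u hu (ind A * pr S * ind A)
    have h3 : ∑ j ∈ Finset.univ.filter (fun j => ¬ P j), (1 - 4 * ε') ≤
        ∑ j, ‖(ind A * pr S * ind A) (u j)‖ ^ 2 := by
      refine le_trans (Finset.sum_le_sum fun j hj => ?_)
        (Finset.sum_le_sum_of_subset_of_nonneg (Finset.filter_subset _ _) fun _ _ _ => sq_nonneg _)
      refine le_trans ?_ (pow_four_le A (huS j) (hu.1 j))
      have h4 : ¬ ‖ind A (u j)‖ ^ 2 ≤ 1 - ε' := (Finset.mem_filter.1 hj).2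
      have h5 := one_add_mul_le_pow (a := ‖ind A (u j)‖ ^ 2 - 1)
        (by linarith [sq_nonneg ‖ind A (u j)‖]) 4
      push_cast at h5
      rw [add_sub_cancel] at h5
      linarith
    rw [Finset.sum_const, nsmul_eq_mul] at h3
    have h4 := Finset.card_filter_add_card_filter_not (s := Finset.univ) P
    rw [Finset.card_univ, Fintype.card_fin] at h4
    have h5 : ((Finset.univ.filter P).card : ℝ) +
        (Finset.univ.filter (fun j => ¬ P j)).card = finrank ℂ S := by exact_mod_cast h4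
    have h6 : finrank ℂ S ≤ Fintype.card ι := by
      have := S.finrank_le
      rwa [finrank_euclideanSpace] at this
    have h7 : ((Finset.univ.filter (fun j => ¬ P j)).card : ℝ) ≤ Fintype.card ι := by
      exact_mod_cast (by omega : (Finset.univ.filter (fun j => ¬ P j)).card ≤ Fintype.card ι)
    nlinarith

/-- The mass of `W` off `A'` is at least the dimension of `F`, up to errors. -/
theorem mass_ge (W S F : Submodule ℂ (EE ι)) (hF : F ≤ S) (G : EE ι →L[ℂ] EE ι) (A' : Finset ι)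
    (c d : ℝ) (hc : 0 < c) (hd : 0 ≤ d) (h1 : ∀ v ∈ F, c * ‖v‖ ≤ ‖G v‖)
    (h2 : ∀ v, ‖ind A' (G v)‖ ≤ d * ‖v‖) :
    (finrank ℂ F : ℝ) ≤ ∑ k ∈ A'ᶜ, dg W k + 2 * Fintype.card ι * (d / c) +
      2 * √(Fintype.card ι * (leak W G S / c ^ 2)) := by
  obtain ⟨v, hv, hS, ho⟩ := exists_onb_orth F G
  have hvF : ∀ j, v j ∈ F := fun j => hS ▸ Submodule.subset_span ⟨j, rfl⟩
  have hg : ∀ j, c ≤ ‖G (v j)‖ := fun j => by simpa [hv.1 j] using h1 _ (hvF j)
  have hg0 : ∀ j, 0 < ‖G (v j)‖ := fun j => hc.trans_le (hg j)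
  let y : Fin (finrank ℂ F) → EE ι := fun j => ((‖G (v j)‖⁻¹ : ℝ) : ℂ) • G (v j)
  have hn : ∀ (B : EE ι →L[ℂ] EE ι) j, ‖B (y j)‖ = ‖B (G (v j))‖ / ‖G (v j)‖ := by
    intro B j
    simp only [y, map_smul, norm_smul, Complex.norm_real, norm_inv, norm_norm]
    rw [div_eq_inv_mul]
  have hy : Orthonormal ℂ y := by
    constructor
    · intro j
      have := hn 1 j
      simp only [one_apply_eq_self] at this
      rw [this, div_self (hg0 j).ne']
    · intro i j hij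
      simp only [y, inner_smul_left, inner_smul_right, ho i j hij, mul_zero]
  have e1 : ∑ k ∈ A'ᶜ, dg W k = hs (pr W * ind A'ᶜ) := by rw [hs_mul_ind]; rfl
  have e2 := sum_norm_sq_le_hs y hy (pr W * ind A'ᶜ)
  have e3 : ∀ j, 1 - 2 * ‖(1 - pr W) (y j)‖ - 2 * (d / c) ≤ ‖(pr W * ind A'ᶜ) (y j)‖ ^ 2 := by
    intro j
    have a1 : ‖ind A' (y j)‖ ≤ d / c := by
      rw [hn]
      have := h2 (v j)
      rw [hv.1 j, mul_one] at this
      exact div_le_div₀ hd this hc (hg j)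
    have a2 : y j = (1 - pr W) (y j) + pr W (ind A' (y j)) + (pr W * ind A'ᶜ) (y j) := by
      rw [mul_apply_eq_comp, add_assoc, ← map_add, ind_add_compl]; simp
    have a3 : ‖y j‖ ≤ ‖(1 - pr W) (y j)‖ + ‖pr W (ind A' (y j))‖ + ‖(pr W * ind A'ᶜ) (y j)‖ := by
      conv_lhs => rw [a2]
      exact norm_add₃_le
    have a4 := norm_pr_le W (ind A' (y j))
    rw [hy.1 j] at a3
    nlinarith [sq_nonneg (‖(pr W * ind A'ᶜ) (y j)‖ - 1)]
  have e4 := Finset.sum_le_sum (s := Finset.univ) fun j _ => e3 j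
  rw [Finset.sum_sub_distrib, Finset.sum_sub_distrib, ← Finset.mul_sum] at e4
  simp only [Finset.sum_const, Finset.card_univ, Fintype.card_fin, nsmul_eq_mul, mul_one] at e4
  have hm : (finrank ℂ F : ℝ) ≤ Fintype.card ι := by
    have := F.finrank_le
    rw [finrank_euclideanSpace] at this
    exact_mod_cast this
  have e5 : ∑ j, ‖(1 - pr W) (y j)‖ ^ 2 ≤ leak W G S / c ^ 2 := by
    have b1 := sum_norm_sq_le_hs v hv ((1 - pr W) * G * pr S)
    rw [le_div_iff₀ (by positivity), Finset.sum_mul]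
    refine le_trans (Finset.sum_le_sum fun j _ => ?_) b1
    rw [mul_apply_eq_comp, pr_mem (hF (hvF j)), mul_apply_eq_comp, hn,
      ← mul_pow, div_mul_eq_mul_div]
    gcongr
    rw [div_le_iff₀ (hg0 j)]
    gcongr
    exact hg j
  have e6 : ∑ j, ‖(1 - pr W) (y j)‖ ≤ √(Fintype.card ι * (leak W G S / c ^ 2)) := by
    apply Real.le_sqrt_of_sq_le
    refine le_trans (sq_sum_le_card_mul_sum_sq (s := Finset.univ)) ?_
    rw [Finset.card_univ, Fintype.card_fin]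
    exact mul_le_mul hm e5 (Finset.sum_nonneg fun _ _ => sq_nonneg _) (by positivity)
  have e7 : (finrank ℂ F : ℝ) * (2 * (d / c)) ≤ Fintype.card ι * (2 * (d / c)) :=
    mul_le_mul_of_nonneg_right hm (by positivity)
  linarith

end

theorem wprod_nonneg {w : ℕ → ℝ} (hw0 : ∀ k, 0 ≤ w k) (k t : ℕ) : 0 ≤ wprod w k t :=
  Finset.prod_nonneg fun _ _ => hw0 _

theorem shift_lower {n : ℕ} (w : ℕ → ℝ) (t : ℕ) (A : Finset (Fin n)) (κ : ℝ) (hκ : 0 < κ)
    (h1 : ∀ k : Fin n, k ∉ A → (k : ℕ) + t < n ∧ κ ≤ wprod w k t) (x : EE (Fin n)) :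
    κ * ‖ind Aᶜ x‖ ≤ ‖((mop (shiftM n w)) ^ t) x‖ := by
  rw [← pow_le_pow_iff_left₀ (by positivity) (norm_nonneg _) two_ne_zero, mul_pow, norm_ind_sq,
    EuclideanSpace.norm_sq_eq, Finset.mul_sum]
  let f : Fin n → Fin n := fun k => if h : (k : ℕ) + t < n then ⟨k + t, h⟩ else k
  have hf : ∀ k ∈ Aᶜ, (f k : ℕ) = k + t := fun k hk => by
    simp only [f, dif_pos (h1 k (Finset.mem_compl.1 hk)).1]
  refine le_trans (Finset.sum_le_sum fun k hk => ?_)
    (le_trans (le_of_eq (Finset.sum_image (s := Aᶜ) (g := f)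
      (f := fun k => ‖((mop (shiftM n w)) ^ t) x k‖ ^ 2) ?_).symm)
      (Finset.sum_le_sum_of_subset_of_nonneg (Finset.subset_univ _) fun _ _ _ => sq_nonneg _))
  · have h2 := hf k hk
    have h3 := (h1 k (Finset.mem_compl.1 hk)).2
    rw [shiftM_pow_apply, dif_pos (by omega), norm_mul, mul_pow, Complex.norm_real]
    have h4 : (f k : ℕ) - t = k := by omega
    simp only [h4, Fin.eta]
    gcongr
    exact h3.trans (le_abs_self _)
  · intro k hk l hl hkl
    have h2 := hf k hk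
    have h3 := hf l hl
    rw [hkl] at h2
    exact Fin.ext (by omega)

theorem shift_upper {n : ℕ} (w : ℕ → ℝ) (hw0 : ∀ k, 0 ≤ w k) (t : ℕ) (A' : Finset (Fin n)) (ε : ℝ)
    (hε : 0 ≤ ε)
    (h2 : ∀ (k : ℕ) (h : k + t < n), (⟨k + t, h⟩ : Fin n) ∈ A' → wprod w k t ≤ ε)
    (x : EE (Fin n)) : ‖ind A' (((mop (shiftM n w)) ^ t) x)‖ ≤ ε * ‖x‖ := by
  rw [← pow_le_pow_iff_left₀ (norm_nonneg _) (by positivity) two_ne_zero, mul_pow, norm_ind_sq,
    EuclideanSpace.norm_sq_eq, Finset.mul_sum,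
    ← Finset.sum_filter_add_sum_filter_not A' (fun k : Fin n => t ≤ (k : ℕ))]
  have e0 : ∑ k ∈ A'.filter (fun k : Fin n => ¬ t ≤ (k : ℕ)), ‖((mop (shiftM n w)) ^ t) x k‖ ^ 2 = 0 :=
    Finset.sum_eq_zero fun k hk => by
      rw [shiftM_pow_apply, dif_neg (Finset.mem_filter.1 hk).2]; simp
  rw [e0, add_zero]
  let f : Fin n → Fin n := fun k => ⟨k - t, lt_of_le_of_lt (Nat.sub_le _ _) k.2⟩
  refine le_trans (Finset.sum_le_sum fun k hk => ?_)
    (le_trans (le_of_eq (Finset.sum_image (s := A'.filter (fun k : Fin n => t ≤ (k : ℕ))) (g := f)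
      (f := fun k => ε ^ 2 * ‖x k‖ ^ 2) ?_).symm)
      (Finset.sum_le_sum_of_subset_of_nonneg (Finset.subset_univ _) fun _ _ _ => by positivity))
  · obtain ⟨h3, h4⟩ := Finset.mem_filter.1 hk
    rw [shiftM_pow_apply, dif_pos h4, norm_mul, mul_pow, Complex.norm_real, Real.norm_eq_abs,
      abs_of_nonneg (wprod_nonneg hw0 _ _)]
    have h5 := h2 (k - t) (by have := k.2; omega) (by
      have : (⟨k - t + t, by have := k.2; omega⟩ : Fin n) = k := Fin.ext (by simp; omega)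
      rw [this]; exact h3)
    have h6 := wprod_nonneg hw0 (k - t) t
    simp only [f]
    gcongr
  · intro k hk l hl hkl
    have h3 := (Finset.mem_filter.1 hk).2
    have h4 := (Finset.mem_filter.1 hl).2
    have h5 : (k : ℕ) - t = l - t := congrArg Fin.val hkl
    exact Fin.ext (by omega)

end FinTestAux

open FinTestAux in
/-- Test inequality. If the `t`-step weights are `≥ κ` off `A` and `≤ ε` into `A'`, then the mass
of `W` on `A'` is at most the robust mass of every moderate tilt of `W` on `A`. -/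
theorem test_shift {n : ℕ} (W : Submodule ℂ (EE (Fin n))) (w : ℕ → ℝ) (hw0 : ∀ k, 0 ≤ w k)
    (hw1 : ∀ k, w k ≤ 1) (ψ : Fin n → ℝ) (Γ : ℝ) (hψ : ∀ k, |ψ k| ≤ Γ) (t : ℕ)
    (A A' : Finset (Fin n)) (κ ε ε' : ℝ) (hκ : 0 < κ) (hε : 0 ≤ ε) (hε' : 0 < ε')
    (h1 : ∀ k : Fin n, k ∉ A → (k : ℕ) + t < n ∧ κ ≤ wprod w k t)
    (h2 : ∀ (k : ℕ) (h : k + t < n), (⟨k + t, h⟩ : Fin n) ∈ A' → wprod w k t ≤ ε) :
    ∑ k ∈ A', dg W k ≤ ∑ k ∈ A, ∑ l ∈ A, ker2 (tilt W ψ) k l + 4 * ε' * n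
      + 2 * n * (ε * Real.exp (2 * Γ) / (κ * √ε'))
      + 2 * √(n * (Real.exp (4 * Γ) * (t : ℝ) ^ 2 * leak W (mop (shiftM n w)) W / (κ ^ 2 * ε'))) := by
  set T := mop (shiftM n w) with hT
  set D : EE (Fin n) →L[ℂ] EE (Fin n) := dop fun k => Real.exp (-ψ k) with hD
  obtain ⟨F, hFS, hF1, hF2⟩ := exists_sub (tilt W ψ) A ε' hε'
  have hs0 : 0 < √ε' := Real.sqrt_pos.2 hε'
  have hc : 0 < κ * Real.exp (-Γ) * √ε' := by positivity
  have hup : ∀ k, |Real.exp (-ψ k)| ≤ Real.exp Γ := fun k => by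
    rw [abs_of_pos (Real.exp_pos _)]
    exact Real.exp_le_exp.2 (by linarith [(abs_le.1 (hψ k)).1])
  have hlo : ∀ k, Real.exp (-Γ) ≤ |Real.exp (-ψ k)| := fun k => by
    rw [abs_of_pos (Real.exp_pos _)]
    exact Real.exp_le_exp.2 (by linarith [(abs_le.1 (hψ k)).2])
  have key := mass_ge W (tilt W ψ) F hFS (T ^ t * D) A' (κ * Real.exp (-Γ) * √ε')
    (ε * Real.exp Γ) hc (by positivity) ?_ ?_
  · have e1 := sum_dg W
    rw [← Finset.sum_add_sum_compl A'] at e1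
    rw [finrank_tilt, Fintype.card_fin] at hF2
    rw [Fintype.card_fin] at key
    have e2 : ε * Real.exp Γ / (κ * Real.exp (-Γ) * √ε') = ε * Real.exp (2 * Γ) / (κ * √ε') := by
      rw [Real.exp_neg, two_mul, Real.exp_add]; field_simp
    have e3 : leak W (T ^ t * D) (tilt W ψ) / (κ * Real.exp (-Γ) * √ε') ^ 2 ≤
        Real.exp (4 * Γ) * (t : ℝ) ^ 2 * leak W T W / (κ ^ 2 * ε') := by
      have a1 := leak_tilt_right W W (T ^ t) ψ Γ hψ
      have a2 := leak_pow W T (norm_shiftM_le w hw0 hw1) t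
      have a3 : leak W (T ^ t * D) (tilt W ψ) ≤ Real.exp (2 * Γ) * ((t : ℝ) ^ 2 * leak W T W) :=
        a1.trans (mul_le_mul_of_nonneg_left a2 (Real.exp_pos _).le)
      refine (div_le_div_of_nonneg_right a3 (by positivity)).trans (le_of_eq ?_)
      have a4 : Real.exp (4 * Γ) = Real.exp Γ ^ 4 := by rw [← Real.exp_nat_mul]; norm_num
      have a5 : Real.exp (2 * Γ) = Real.exp Γ ^ 2 := by rw [← Real.exp_nat_mul]; norm_num
      rw [mul_pow, mul_pow, Real.sq_sqrt hε'.le, Real.exp_neg, a4, a5]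
      field_simp
    have e4 := Real.sqrt_le_sqrt (mul_le_mul_of_nonneg_left e3 (Nat.cast_nonneg n))
    rw [e2] at key
    linarith
  · intro v hv
    have a1 := shift_lower w t A κ hκ h1 (D v)
    have a2 : ind Aᶜ (D v) = D (ind Aᶜ v) := by
      ext k; simp only [hD, ind_apply, dop_apply]; split_ifs <;> simp
    have a3 := le_norm_dop_apply (fun k => Real.exp (-ψ k)) _ (Real.exp_pos _).le hlo (ind Aᶜ v)
    have a4 : √ε' * ‖v‖ ≤ ‖ind Aᶜ v‖ := by
      rw [← pow_le_pow_iff_left₀ (by positivity) (norm_nonneg _) two_ne_zero, mul_pow,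
        Real.sq_sqrt hε'.le]
      exact hF1 v hv
    rw [a2] at a1
    calc κ * Real.exp (-Γ) * √ε' * ‖v‖ = κ * (Real.exp (-Γ) * (√ε' * ‖v‖)) := by ring
      _ ≤ κ * (Real.exp (-Γ) * ‖ind Aᶜ v‖) := by gcongr
      _ ≤ κ * ‖D (ind Aᶜ v)‖ := by gcongr
      _ ≤ _ := a1
  · intro v
    have a1 := shift_upper w hw0 t A' ε hε h2 (D v)
    have a2 := norm_dop_apply_le (fun k => Real.exp (-ψ k)) _ (Real.exp_pos _).le hup v
    calc _ ≤ ε * ‖D v‖ := a1
      _ ≤ ε * (Real.exp Γ * ‖v‖) := by gcongr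
      _ = _ := by ring

end Crest.Agent.R113
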