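import Crest.Agent.R113.FinLeak

/-! Row 113, S0149: monotonicity of the diagonal under tilts, far-range bound, rounding. -/

set_option autoImplicit false

noncomputable section

namespace Crest.Agent.R113

open Module

variable {ι : Type} [Fintype ι] [DecidableEq ι]

namespace FinTilt

omit [DecidableEq ι] in
theorem cov_eq {π : ι → ℝ} (h1 : ∑ k, π k = 1) (E φ : ι → ℝ) :
    ∑ k, ∑ l, π k * π l * ((E k - E l) * (φ k - φ l)) =
      2 * (∑ k, π k * E k * φ k - (∑ k, π k * E k) * ∑ k, π k * φ k) := by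
  have e : ∀ k l, π k * π l * ((E k - E l) * (φ k - φ l)) =
      π k * E k * φ k * π l + π k * (π l * E l * φ l) - π k * E k * (π l * φ l) -
        π k * φ k * (π l * E l) := fun k l => by ring
  simp only [e, Finset.sum_sub_distrib, Finset.sum_add_distrib, ← Finset.mul_sum,
    ← Finset.sum_mul, h1]
  ring

omit [DecidableEq ι] in
theorem step_eq {π : ι → ℝ} (h1 : ∑ k, π k = 1) (E φ : ι → ℝ) {Z : ℝ} (hZ : Z = ∑ k, π k * E k)
    (h0 : Z ≠ 0) : ∑ k, (π k * E k / Z - π k) * φ k =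
      (∑ k, ∑ l, π k * π l * ((E k - E l) * (φ k - φ l))) / (2 * Z) := by
  have e : ∀ k, (π k * E k / Z - π k) * φ k = π k * E k * φ k / Z - π k * φ k := fun k => by ring
  rw [cov_eq h1, ← hZ]
  simp only [e, Finset.sum_sub_distrib, ← Finset.sum_div]
  field_simp

theorem exp_mul_ge {a b c : ℝ} (ha : -c ≤ a) (hb : -c ≤ b) :
    2 * Real.exp (-(2 * c)) * ((a - b) * (a - b)) ≤
      (Real.exp (2 * a) - Real.exp (2 * b)) * (a - b) := by
  wlog h : b ≤ a generalizing a b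
  · have := this hb ha (le_of_not_ge h)
    linarith
  have h1 : Real.exp (2 * a) = Real.exp (2 * b) * Real.exp (2 * (a - b)) := by
    rw [← Real.exp_add]; ring_nf
  have h2 := Real.add_one_le_exp (2 * (a - b))
  have h3 : Real.exp (-(2 * c)) ≤ Real.exp (2 * b) := Real.exp_le_exp.2 (by linarith)
  have h4 := Real.exp_pos (-(2 * c))
  rw [← mul_assoc]
  refine mul_le_mul_of_nonneg_right ?_ (by linarith)
  rw [h1]
  nlinarith

theorem exp_mul_nonneg (a b : ℝ) : 0 ≤ (Real.exp (2 * a) - Real.exp (2 * b)) * (a - b) :=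
  le_trans (mul_nonneg (by positivity) (mul_self_nonneg _))
    (exp_mul_ge (c := max (-a) (-b)) (by linarith [le_max_left (-a) (-b)])
      (by linarith [le_max_right (-a) (-b)]))

theorem norm_dop_sq (χ : ι → ℝ) (v : EE ι) : ‖dop χ v‖ ^ 2 = ∑ k, ‖v k‖ ^ 2 * χ k ^ 2 := by
  rw [EuclideanSpace.norm_sq_eq]
  refine Finset.sum_congr rfl fun k _ => ?_
  rw [dop_apply, norm_mul, mul_pow, Complex.norm_real, Real.norm_eq_abs, sq_abs, mul_comm]

theorem exp_sq (x : ℝ) : Real.exp x ^ 2 = Real.exp (2 * x) := by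
  rw [← Real.exp_nat_mul]; norm_num

/-- The diagonals of `S` and of its tilt in terms of probability vectors. -/
theorem decomp (S : Submodule ℂ (EE ι)) (φ : ι → ℝ) :
    ∃ (u : Fin (finrank ℂ S) → EE ι) (Z : Fin (finrank ℂ S) → ℝ), Orthonormal ℂ u ∧
      Submodule.span ℂ (Set.range u) = S ∧ (∀ j, 0 < Z j) ∧ (∀ j, ∑ k, ‖u j k‖ ^ 2 = 1) ∧
      (∀ j, Z j = ∑ k, ‖u j k‖ ^ 2 * Real.exp (2 * φ k)) ∧
      ∀ k, dg (tilt S φ) k - dg S k =
        ∑ j, (‖u j k‖ ^ 2 * Real.exp (2 * φ k) / Z j - ‖u j k‖ ^ 2) := by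
  obtain ⟨u, z, hu, hS, hz, hz', hu', hS'⟩ := exists_onb_tilt S φ
  refine ⟨u, fun j => z j ^ 2, hu, hS, fun j => pow_pos (hz j) 2, fun j => ?_, fun j => ?_,
    fun k => ?_⟩
  · rw [← EuclideanSpace.norm_sq_eq, hu.1 j, one_pow]
  · simp only [hz' j, norm_dop_sq, exp_sq]
  · rw [dg_eq_sum _ _ hu' hS', dg_eq_sum _ _ hu hS, ← Finset.sum_sub_distrib]
    refine Finset.sum_congr rfl fun j _ => ?_
    rw [PiLp.smul_apply, dop_apply, norm_smul, norm_mul, norm_inv, Complex.norm_real,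
      Complex.norm_real, Real.norm_of_nonneg (hz j).le, Real.norm_of_nonneg (Real.exp_pos _).le,
      mul_pow, mul_pow, exp_sq]
    ring

omit [DecidableEq ι] in
theorem Z_bounds {π φ : ι → ℝ} {a : ℝ} (h0 : ∀ k, 0 ≤ π k) (h1 : ∑ k, π k = 1)
    (h : ∀ k, |φ k| ≤ a) : Real.exp (-(2 * a)) ≤ ∑ k, π k * Real.exp (2 * φ k) ∧
      ∑ k, π k * Real.exp (2 * φ k) ≤ Real.exp (2 * a) := by
  constructor
  · rw [← one_mul (Real.exp _), ← h1, Finset.sum_mul]
    exact Finset.sum_le_sum fun k _ => mul_le_mul_of_nonneg_left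
      (Real.exp_le_exp.2 (by linarith [(abs_le.1 (h k)).1])) (h0 k)
  · rw [← one_mul (Real.exp (2 * a)), ← h1, Finset.sum_mul]
    exact Finset.sum_le_sum fun k _ => mul_le_mul_of_nonneg_left
      (Real.exp_le_exp.2 (by linarith [(abs_le.1 (h k)).2])) (h0 k)

/-- The leakage of a unit vector of `S` is at most its variance. -/
theorem leak_le_var {S : Submodule ℂ (EE ι)} {v : EE ι} (hv : v ∈ S) (h1 : ∑ k, ‖v k‖ ^ 2 = 1)
    (φ : ι → ℝ) : 2 * ‖((1 - pr S) * dop φ) v‖ ^ 2 ≤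
      ∑ k, ∑ l, ‖v k‖ ^ 2 * ‖v l‖ ^ 2 * ((φ k - φ l) * (φ k - φ l)) := by
  set m := ∑ k, ‖v k‖ ^ 2 * φ k with hm
  have e1 : dop φ v = dop (fun k => φ k - m) v + (m : ℂ) • v := by
    ext k
    simp only [PiLp.add_apply, PiLp.smul_apply, dop_apply, smul_eq_mul]
    push_cast
    ring
  have e2 : ((1 - pr S) * dop φ) v = Sᗮ.starProjection (dop (fun k => φ k - m) v) := by
    have : Sᗮ.starProjection v = 0 := by
      rw [Submodule.starProjection_orthogonal', sub_apply,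
        Submodule.starProjection_eq_self_iff.2 hv]
      simp
    rw [mul_apply_eq_comp, pr, ← Submodule.starProjection_orthogonal', e1, map_add,
      map_smul, this, smul_zero, add_zero]
  have e3 : ∀ k, ‖v k‖ ^ 2 * (φ k - m) ^ 2 =
      ‖v k‖ ^ 2 * φ k * φ k - 2 * m * (‖v k‖ ^ 2 * φ k) + m ^ 2 * ‖v k‖ ^ 2 := fun k => by ring
  have h2 := pow_le_pow_left₀ (norm_nonneg _)
    (Sᗮ.norm_starProjection_apply_le (dop (fun k => φ k - m) v)) 2
  rw [norm_dop_sq] at h2
  simp only [e3, Finset.sum_add_distrib, Finset.sum_sub_distrib, ← Finset.mul_sum, h1, ← hm] at h2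
  rw [cov_eq h1, e2, ← hm]
  linarith

omit [DecidableEq ι] in
theorem sum_ind (blk : ι → ℕ) (k l : ι) :
    ∑ b ∈ Finset.univ.image blk,
      ((if blk k = b then (1 : ℝ) else 0) - if blk l = b then 1 else 0) ^ 2 =
        if blk k ≠ blk l then 2 else 0 := by
  by_cases h : blk k = blk l
  · simp [h]
  · have e : ∀ b, ((if blk k = b then (1 : ℝ) else 0) - if blk l = b then 1 else 0) ^ 2 =
        (if blk k = b then (1 : ℝ) else 0) + if blk l = b then 1 else 0 := fun b => by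
      split_ifs with h1 h2
      · exact absurd (h1.trans h2.symm) h
      all_goals norm_num
    simp only [e, Finset.sum_add_distrib, Finset.sum_ite_eq]
    simp [h]
    norm_num

theorem far_eq (S : Submodule ℂ (EE ι)) (blk : ι → ℕ) :
    ∑ k, ∑ l, (if blk k ≠ blk l then ker2 S k l else 0) =
      ∑ b ∈ Finset.univ.image blk, leak S (dop fun k => if blk k = b then 1 else 0) S := by
  apply mul_left_cancel₀ (two_ne_zero (α := ℝ))
  simp only [Finset.mul_sum, leak_dop]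
  rw [Finset.sum_comm (s := Finset.univ.image blk)]
  refine Finset.sum_congr rfl fun k _ => ?_
  rw [Finset.sum_comm]
  refine Finset.sum_congr rfl fun l _ => ?_
  rw [← Finset.mul_sum, sum_ind]
  split_ifs <;> ring

end FinTilt

open FinTilt

theorem tilt_mono (S : Submodule ℂ (EE ι)) (φ : ι → ℝ) :
    0 ≤ ∑ k, (dg (tilt S φ) k - dg S k) * φ k := by
  obtain ⟨u, Z, -, -, hZ, h1, hZ', h⟩ := decomp S φ
  simp only [h, Finset.sum_mul]
  rw [Finset.sum_comm]
  refine Finset.sum_nonneg fun j _ => ?_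
  rw [step_eq (h1 j) _ _ (hZ' j) (hZ j).ne']
  exact div_nonneg (Finset.sum_nonneg fun k _ => Finset.sum_nonneg fun l _ =>
    mul_nonneg (by positivity) (exp_mul_nonneg _ _)) (by have := hZ j; positivity)

theorem tilt_gain (S : Submodule ℂ (EE ι)) (φ : ι → ℝ) (h : ∀ k, |φ k| ≤ 1) :
    Real.exp (-4) * ∑ k, ∑ l, ker2 S k l * (φ k - φ l) ^ 2 ≤
      ∑ k, (dg (tilt S φ) k - dg S k) * φ k := by
  obtain ⟨u, Z, hu, hS, hZ, h1, hZ', hd⟩ := decomp S φ
  simp only [hd, Finset.sum_mul]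
  rw [Finset.sum_comm (f := fun k j => _ * φ k), ← leak_dop, leak, hs_mul_pr S u hu hS,
    Finset.mul_sum, Finset.mul_sum]
  refine Finset.sum_le_sum fun j _ => ?_
  rw [step_eq (h1 j) _ _ (hZ' j) (hZ j).ne', le_div_iff₀ (by have := hZ j; positivity)]
  have h2 := leak_le_var (hS ▸ Submodule.subset_span ⟨j, rfl⟩ : u j ∈ S) (h1 j) φ
  have h3 := (Z_bounds (fun k => by positivity) (h1 j) h).2
  rw [← hZ' j] at h3
  have h4 : Real.exp (-4) * Real.exp (2 * 1) = Real.exp (-(2 * 1)) := by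
    rw [← Real.exp_add]; norm_num
  calc _ ≤ Real.exp (-4) * (∑ k, ∑ l, ‖u j k‖ ^ 2 * ‖u j l‖ ^ 2 * ((φ k - φ l) * (φ k - φ l))) *
        (2 * Real.exp (2 * 1)) := by
        have := (hZ j).le
        have := le_trans (by positivity) h2
        gcongr
    _ = ∑ k, ∑ l, ‖u j k‖ ^ 2 * ‖u j l‖ ^ 2 *
        (2 * Real.exp (-(2 * 1)) * ((φ k - φ l) * (φ k - φ l))) := by
        rw [← h4]
        simp only [Finset.mul_sum, Finset.sum_mul]
        exact Finset.sum_congr rfl fun k _ => Finset.sum_congr rfl fun l _ => by ring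
    _ ≤ _ := Finset.sum_le_sum fun k _ => Finset.sum_le_sum fun l _ => mul_le_mul_of_nonneg_left
        (exp_mul_ge (abs_le.1 (h k)).1 (abs_le.1 (h l)).1) (by positivity)

theorem tilt_lip (S : Submodule ℂ (EE ι)) (φ : ι → ℝ) (a : ℝ) (h : ∀ k, |φ k| ≤ a) (k : ι) :
    |dg (tilt S φ) k - dg S k| ≤ 8 * a := by
  have ha : 0 ≤ a := (abs_nonneg _).trans (h k)
  by_cases ha' : 1 ≤ 4 * a
  · rw [abs_le]
    constructor <;>
      linarith [dg_nonneg S k, dg_le_one S k, dg_nonneg (tilt S φ) k, dg_le_one (tilt S φ) k]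
  obtain ⟨u, Z, hu, hS, hZ, h1, hZ', hd⟩ := decomp S φ
  have h2 : ∀ j, |Real.exp (2 * φ k) / Z j - 1| ≤ 8 * a := fun j => by
    obtain ⟨h3, h4⟩ := Z_bounds (fun k => by positivity) (h1 j) h
    rw [← hZ' j] at h3 h4
    have h5 : |2 * φ k - Real.log (Z j)| ≤ 4 * a := by
      have := (Real.le_log_iff_exp_le (hZ j)).2 h3
      have := (Real.log_le_iff_le_exp (hZ j)).2 h4
      have := abs_le.1 (h k)
      rw [abs_le]
      constructor <;> linarith
    have h6 := Real.abs_exp_sub_one_le (h5.trans (not_le.1 ha').le)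
    rw [Real.exp_sub, Real.exp_log (hZ j)] at h6
    linarith
  rw [hd]
  calc _ ≤ ∑ j, ‖u j k‖ ^ 2 * (8 * a) :=
        (Finset.abs_sum_le_sum_abs _ _).trans (Finset.sum_le_sum fun j _ => by
          rw [mul_div_assoc, ← mul_sub_one, abs_mul, abs_of_nonneg (by positivity)]
          exact mul_le_mul_of_nonneg_left (h2 j) (by positivity))
    _ = dg S k * (8 * a) := by rw [← Finset.sum_mul, dg_eq_sum S u hu hS]
    _ ≤ _ := mul_le_of_le_one_left (by positivity) (dg_le_one S k)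

/-- The family of projections onto the tilts of `W`. -/
def dppOf (W : Submodule ℂ (EE ι)) : DPP ι where
  d ψ := dg (tilt W ψ)
  K ψ := ker2 (tilt W ψ)
  K_nonneg ψ k l := ker2_nonneg _ k l
  K_symm ψ k l := ker2_symm _ k l
  sum_K ψ k := sum_ker2 _ k
  K_diag ψ k := ker2_diag _ k
  d_nonneg ψ k := dg_nonneg _ k
  d_le_one ψ k := dg_le_one _ k
  sum_d ψ := by rw [sum_dg, sum_dg, finrank_tilt, finrank_tilt]
  mono ψ φ := by rw [← tilt_tilt]; exact tilt_mono _ φ
  gain ψ φ h := by rw [← tilt_tilt]; exact tilt_gain _ φ h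
  lip ψ φ a h k := by rw [← tilt_tilt]; exact tilt_lip _ φ a h k

theorem far_tilt (W : Submodule ℂ (EE ι)) (ψ : ι → ℝ) (Γ : ℝ) (hψ : ∀ k, |ψ k| ≤ Γ)
    (blk : ι → ℕ) :
    ∑ k, ∑ l, (if blk k ≠ blk l then ker2 (tilt W ψ) k l else 0) ≤
      Real.exp (4 * Γ) * ∑ k, ∑ l, (if blk k ≠ blk l then ker2 W k l else 0) := by
  rw [far_eq, far_eq, Finset.mul_sum]
  refine Finset.sum_le_sum fun b _ => ?_
  generalize (fun k => if blk k = b then (1 : ℝ) else 0) = χ
  have e : dop χ = (dop fun k => Real.exp (ψ k)) * (dop χ * dop fun k => Real.exp (-ψ k)) := by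
    rw [dop_mul, dop_mul]
    congr 1
    funext k
    rw [Real.exp_neg]
    field_simp
  have e' : Real.exp (4 * Γ) = Real.exp (2 * Γ) * Real.exp (2 * Γ) := by
    rw [← Real.exp_add]; ring_nf
  conv_lhs => rw [e]
  rw [e', mul_assoc]
  exact (leak_tilt_left _ _ _ ψ Γ hψ).trans
    (mul_le_mul_of_nonneg_left (leak_tilt_right _ _ _ ψ Γ hψ) (Real.exp_pos _).le)

end Crest.Agent.R113
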