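import Crest.Agent.R113.OrbitMain
import Crest.Agent.R113.FinRound
import Crest.Agent.R113.CovB

/-! Row 113, S0149: choice of the parameters and of the orbit. -/

set_option autoImplicit false

noncomputable section

namespace Crest.Agent.R113

open MeasureTheory Filter

namespace Fin8

open Finset

theorem markov (Φ : TT → ℝ) (hΦ : Measurable Φ) (t : ℝ) (ht : 0 < t)
    (h : ∫⁻ x, ENNReal.ofReal (Φ x) ≤ ENNReal.ofReal (0.12 * t)) :
    volume {x | t < Φ x} ≤ ENNReal.ofReal 0.12 := by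
  have h1 := mul_meas_ge_le_lintegral (μ := volume) (ENNReal.measurable_ofReal.comp hΦ)
    (ENNReal.ofReal t)
  have h2 : volume {x | t < Φ x} ≤ volume {x | ENNReal.ofReal t ≤ (ENNReal.ofReal ∘ Φ) x} :=
    measure_mono fun x hx => ENNReal.ofReal_le_ofReal (le_of_lt hx)
  have h3 : ENNReal.ofReal t * volume {x | t < Φ x} ≤ ENNReal.ofReal t * ENNReal.ofReal 0.12 := by
    rw [← ENNReal.ofReal_mul ht.le, mul_comm t]
    exact (mul_le_mul_right h2 _).trans (h1.trans h)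
  exact (ENNReal.mul_le_mul_iff_right (by simpa using ht) ENNReal.ofReal_ne_top).1 h3

theorem pigeon (p : TT → Prop) (hp : ∀ᵐ x, p x) (A : Fin 8 → Set TT)
    (hA : ∀ i, volume (A i) ≤ ENNReal.ofReal 0.12) : ∃ x, p x ∧ ∀ i, x ∉ A i := by
  by_contra hcon
  push Not at hcon
  have h1 : volume (Set.univ : Set TT) ≤ volume (⋃ i, A i) :=
    measure_mono_ae (hp.mono fun x hx _ => Set.mem_iUnion.2 (hcon x hx))
  have h2 := (h1.trans (measure_iUnion_fintype_le _ _)).trans (sum_le_sum fun i _ => hA i)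
  rw [UnitAddCircle.measure_univ, ← ENNReal.ofReal_sum_of_nonneg (fun _ _ => by norm_num),
    ENNReal.one_le_ofReal] at h2
  norm_num at h2

theorem pigeon8 {p : TT → Prop} (hp : ∀ᵐ x, p x) {Φ0 Φ1 Φ2 Φ3 Φ4 Φ5 Φ6 Φ7 : TT → ℝ}
    {t0 t1 t2 t3 t4 t5 t6 t7 : ℝ}
    (h0 : volume {x | t0 < Φ0 x} ≤ ENNReal.ofReal 0.12)
    (h1 : volume {x | t1 < Φ1 x} ≤ ENNReal.ofReal 0.12)
    (h2 : volume {x | t2 < Φ2 x} ≤ ENNReal.ofReal 0.12)
    (h3 : volume {x | t3 < Φ3 x} ≤ ENNReal.ofReal 0.12)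
    (h4 : volume {x | t4 < Φ4 x} ≤ ENNReal.ofReal 0.12)
    (h5 : volume {x | t5 < Φ5 x} ≤ ENNReal.ofReal 0.12)
    (h6 : volume {x | t6 < Φ6 x} ≤ ENNReal.ofReal 0.12)
    (h7 : volume {x | t7 < Φ7 x} ≤ ENNReal.ofReal 0.12) :
    ∃ x, p x ∧ Φ0 x ≤ t0 ∧ Φ1 x ≤ t1 ∧ Φ2 x ≤ t2 ∧ Φ3 x ≤ t3 ∧ Φ4 x ≤ t4 ∧ Φ5 x ≤ t5 ∧
      Φ6 x ≤ t6 ∧ Φ7 x ≤ t7 := by
  obtain ⟨x, hx, hA⟩ := pigeon p hp ![{x | t0 < Φ0 x}, {x | t1 < Φ1 x}, {x | t2 < Φ2 x},
    {x | t3 < Φ3 x}, {x | t4 < Φ4 x}, {x | t5 < Φ5 x}, {x | t6 < Φ6 x}, {x | t7 < Φ7 x}]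
    (fun i => by fin_cases i <;> assumption)
  exact ⟨x, hx, not_lt.1 (hA 0), not_lt.1 (hA 1), not_lt.1 (hA 2), not_lt.1 (hA 3),
    not_lt.1 (hA 4), not_lt.1 (hA 5), not_lt.1 (hA 6), not_lt.1 (hA 7)⟩

theorem lintegral_sum_shift {ι : Type} (s : Finset ι) (f : ι → TT → ℝ) (c : ι → TT)
    (hf : ∀ i, Measurable (f i)) (h0 : ∀ i y, 0 ≤ f i y) :
    ∫⁻ x, ENNReal.ofReal (∑ i ∈ s, f i (x + c i)) = ∑ i ∈ s, ∫⁻ x, ENNReal.ofReal (f i x) := by
  simp only [ENNReal.ofReal_sum_of_nonneg (fun i _ => h0 i _)]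
  rw [lintegral_finsetSum]
  · exact sum_congr rfl fun i _ =>
      lintegral_add_right_eq_self (fun x => ENNReal.ofReal (f i x)) (c i)
  · exact fun i _ => ENNReal.measurable_ofReal.comp ((hf i).comp (measurable_add_const _))

theorem birkhoff (θ : TT) (f : TT → ℝ) (hf : Measurable f) (h0 : ∀ y, 0 ≤ f y) (B t : ℝ)
    (hB : ∫⁻ x, ENNReal.ofReal (f x) ≤ ENNReal.ofReal B) (n : ℕ) (ht : 0 < t)
    (h : B * n ≤ 0.12 * t) :
    volume {x | t < ∑ k ∈ range n, f (x + k • θ)} ≤ ENNReal.ofReal 0.12 := by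
  refine markov (fun x => ∑ k ∈ range n, f (x + k • θ))
    (Finset.measurable_sum _ fun k _ => hf.comp (measurable_add_const _)) t ht ?_
  rw [lintegral_sum_shift (range n) (fun _ => f) (fun k => k • θ) (fun _ => hf) (fun _ => h0)]
  refine (sum_le_sum fun _ _ => hB).trans ?_
  rw [sum_const, card_range, nsmul_eq_mul, ← ENNReal.ofReal_natCast,
    ← ENNReal.ofReal_mul (Nat.cast_nonneg _), mul_comm]
  exact ENNReal.ofReal_le_ofReal h

variable {n : ℕ}

/-- entrywise measurability -/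
def MM (A : TT → Matrix (Fin n) (Fin n) ℂ) : Prop := ∀ j k, Measurable fun x => A x j k

theorem MM.mul {A B : TT → Matrix (Fin n) (Fin n) ℂ} (hA : MM A) (hB : MM B) :
    MM fun x => A x * B x := fun j k => by
  simp only [Matrix.mul_apply]
  exact Finset.measurable_sum _ fun l _ => (hA j l).mul (hB l k)

theorem MM.sub {A B : TT → Matrix (Fin n) (Fin n) ℂ} (hA : MM A) (hB : MM B) :
    MM fun x => A x - B x := fun j k => (hA j k).sub (hB j k)

theorem MM.mhs {A : TT → Matrix (Fin n) (Fin n) ℂ} (hA : MM A) : Measurable fun x => mhs (A x) :=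
  Finset.measurable_sum _ fun j _ => Finset.measurable_sum _ fun k _ => (hA j k).norm.pow_const 2

theorem avg_le (n l : ℕ) (hl : 1 ≤ l) (d e : ℕ → ℝ) (α : ℝ) :
    ∑ k ∈ range (n - l), ((∑ j ∈ range l, d (k + j)) / l - α) ^ 2 ≤
      2 * ∑ k ∈ range n, (d k - e k) ^ 2 +
        2 * ∑ k ∈ range n, ((∑ j ∈ range l, e (k + j)) / l - α) ^ 2 := by
  have hl' : (0 : ℝ) < l := by exact_mod_cast hl
  have h1 : ∀ k, ((∑ j ∈ range l, d (k + j)) / l - α) ^ 2 ≤
      2 * ((∑ j ∈ range l, (d (k + j) - e (k + j)) ^ 2) / l) +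
        2 * ((∑ j ∈ range l, e (k + j)) / l - α) ^ 2 := by
    intro k
    have h2 := sq_sum_le_card_mul_sum_sq (s := range l) (f := fun j => d (k + j) - e (k + j))
    rw [card_range, sum_sub_distrib] at h2
    have h3 : ((∑ j ∈ range l, d (k + j)) / l - (∑ j ∈ range l, e (k + j)) / l) ^ 2 ≤
        (∑ j ∈ range l, (d (k + j) - e (k + j)) ^ 2) / l := by
      rw [← sub_div, div_pow, div_le_div_iff₀ (by positivity) hl']
      nlinarith
    nlinarith [sq_nonneg ((∑ j ∈ range l, d (k + j)) / l - 2 * ((∑ j ∈ range l, e (k + j)) / l) + α)]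
  refine (sum_le_sum fun k _ => h1 k).trans ?_
  rw [sum_add_distrib, ← mul_sum, ← mul_sum]
  gcongr with k
  · rw [← sum_div, sum_comm, div_le_iff₀ hl']
    calc _ ≤ ∑ _j ∈ range l, ∑ k ∈ range n, (d k - e k) ^ 2 := by
          refine sum_le_sum fun j hj => ?_
          rw [← sum_image (s := range (n - l)) (g := fun k => k + j)
            (f := fun k => (d k - e k) ^ 2) (fun _ _ _ _ h => Nat.add_right_cancel h)]
          refine sum_le_sum_of_subset_of_nonneg (fun k hk => ?_) fun _ _ _ => sq_nonneg _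
          obtain ⟨i, hi, rfl⟩ := mem_image.1 hk
          rw [mem_range] at *
          omega
      _ = _ := by rw [sum_const, card_range, nsmul_eq_mul, mul_comm]
  · exact Nat.sub_le _ _

theorem block_le (W : Submodule ℂ (EE (Fin n))) (P : Matrix (Fin n) (Fin n) ℂ) (L L0 : ℕ)
    (hL : 1 ≤ L) :
    ∑ k : Fin n, ∑ k' : Fin n, (if (k : ℕ) / L ≠ (k' : ℕ) / L then ker2 W k k' else 0) ≤
      2 * ∑ k' : Fin n, ∑ k : Fin n with (L0 : ℤ) < |(k.1 : ℤ) - (k'.1 : ℤ)|, ‖P k k'‖ ^ 2 +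
      2 * ∑ k, ∑ l, ‖P k l - pr W (dl l) k‖ ^ 2 + 2 * L0 * (n / L) := by
  let Bd : Finset ℕ := (Icc 1 (n / L)).biUnion fun m => Ico (m * L - L0) (m * L + L0)
  have h1 : ∀ k k' : Fin n, (if (k : ℕ) / L ≠ (k' : ℕ) / L then ker2 W k k' else 0) ≤
      2 * (if (L0 : ℤ) < |(k.1 : ℤ) - (k'.1 : ℤ)| then ‖P k k'‖ ^ 2 else 0) +
      2 * ‖P k k' - pr W (dl k') k‖ ^ 2 + if (k : ℕ) ∈ Bd then ker2 W k k' else 0 := by
    intro k k'
    have h0 := ker2_nonneg W k k'
    have h2 : 0 ≤ (if (k : ℕ) ∈ Bd then ker2 W k k' else 0) := by split_ifs <;> linarith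
    by_cases hfar : (L0 : ℤ) < |(k.1 : ℤ) - (k'.1 : ℤ)|
    · have h3 : ker2 W k k' ≤ 2 * ‖P k k'‖ ^ 2 + 2 * ‖P k k' - pr W (dl k') k‖ ^ 2 := by
        have h4 : ‖pr W (dl k') k‖ ≤ ‖P k k'‖ + ‖P k k' - pr W (dl k') k‖ := by
          simpa using norm_sub_le (P k k') (P k k' - pr W (dl k') k)
        have h5 := pow_le_pow_left₀ (norm_nonneg _) h4 2
        unfold ker2
        nlinarith [sq_nonneg (‖P k k'‖ - ‖P k k' - pr W (dl k') k‖)]
      rw [if_pos hfar]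
      split_ifs <;> nlinarith [sq_nonneg ‖P k k'‖, sq_nonneg ‖P k k' - pr W (dl k') k‖]
    · rw [if_neg hfar]
      by_cases hne : (k : ℕ) / L ≠ (k' : ℕ) / L
      · have h3 : (k : ℕ) ∈ Bd := by
          rw [not_lt, abs_le] at hfar
          have a1 := Nat.div_mul_le_self k L
          have a2 := Nat.div_mul_le_self k' L
          rcases lt_or_gt_of_ne hne with h | h
          · have a3 := (Nat.div_lt_iff_lt_mul hL).1 h
            refine mem_biUnion.2 ⟨k' / L, mem_Icc.2 ⟨Nat.one_le_of_lt h, Nat.div_le_div_right k'.2.le⟩, ?_⟩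
            rw [mem_Ico]
            omega
          · have a3 := (Nat.div_lt_iff_lt_mul hL).1 h
            refine mem_biUnion.2 ⟨k / L, mem_Icc.2 ⟨Nat.one_le_of_lt h, Nat.div_le_div_right k.2.le⟩, ?_⟩
            rw [mem_Ico]
            omega
        rw [if_pos hne, if_pos h3]
        nlinarith [sq_nonneg ‖P k k' - pr W (dl k') k‖]
      · rw [if_neg hne]
        nlinarith [sq_nonneg ‖P k k' - pr W (dl k') k‖]
  refine (sum_le_sum fun k _ => sum_le_sum fun k' _ => h1 k k').trans ?_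
  simp only [sum_add_distrib, ← mul_sum, sum_filter]
  rw [sum_comm]
  gcongr
  have h2 : ∑ k : Fin n, ∑ k' : Fin n, (if (k : ℕ) ∈ Bd then ker2 W k k' else 0) ≤
      ∑ k : Fin n, if (k : ℕ) ∈ Bd then (1 : ℝ) else 0 := by
    refine sum_le_sum fun k _ => ?_
    split_ifs
    · rw [sum_ker2]; exact dg_le_one W k
    · simp
  have h3 : (univ.filter fun k : Fin n => (k : ℕ) ∈ Bd).card ≤ Bd.card :=
    card_le_card_of_injOn (fun k => k.1) (fun k hk => (mem_filter.1 hk).2)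
      Fin.val_injective.injOn
  have h4 : Bd.card ≤ (n / L) * (2 * L0) := by
    refine (card_biUnion_le_card_mul _ _ (2 * L0) fun m _ => ?_).trans (by simp)
    rw [Nat.card_Ico]
    omega
  have h5 : ((n / L : ℕ) : ℝ) ≤ n / L := Nat.cast_div_le
  have h6 : ((univ.filter fun k : Fin n => (k : ℕ) ∈ Bd).card : ℝ) ≤ ((n / L : ℕ) : ℝ) * (2 * L0) := by
    exact_mod_cast h3.trans h4
  rw [sum_boole] at h2
  nlinarith [mul_le_mul_of_nonneg_right h5 (by positivity : (0 : ℝ) ≤ 2 * L0)]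

end Fin8

open Finset Fin8 in
theorem no_symbols {θ : ℝ} (S : Sys θ) (a : ℤ → TT → ℂ) (α : ℝ) (hα0 : 0 < α) (hα1 : α < 1)
    (ha : ∀ j, Measurable (a j))
    (hherm : ∀ᵐ x : TT, ∀ n : ℕ, (Pm a θ n x).IsHermitian)
    (hidem : ∀ ε : ℝ, 0 < ε → ∀ᶠ n : ℕ in atTop,
      ∫⁻ x : TT, ENNReal.ofReal (mhs (Pm a θ n x * Pm a θ n x - Pm a θ n x)) ≤
        ENNReal.ofReal (ε * n))
    (hinv : ∀ ε : ℝ, 0 < ε → ∀ᶠ n : ℕ in atTop,
      ∫⁻ x : TT, ENNReal.ofReal (mhs ((1 - Pm a θ n x) * shiftM n (S.wt x) * Pm a θ n x)) ≤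
        ENNReal.ofReal (ε * n))
    (htail : ∀ ε : ℝ, 0 < ε → ∃ L0 : ℕ, ∀ J : Finset ℤ, (∀ j ∈ J, (L0 : ℤ) < |j|) →
      ∑ j ∈ J, ∫⁻ x : TT, ENNReal.ofReal (‖a j x‖ ^ 2) ≤ ENNReal.ofReal ε)
    (herg : ∀ ε : ℝ, 0 < ε → ∃ l : ℕ, 1 ≤ l ∧
      ∫⁻ x : TT, ENNReal.ofReal
        (((∑ j ∈ Finset.range l, (a 0 (x + j • (θ : TT))).re) / l - α) ^ 2) ≤
        ENNReal.ofReal ε) : False := by
  obtain ⟨η, hη, H⟩ := orbit_main S α hα0 hα1
  obtain ⟨l, hl, hl2⟩ := herg (0.12 * (η / 4)) (by positivity)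
  obtain ⟨s, ζ, hζ, H⟩ := H l hl
  obtain ⟨L0, hL0⟩ := htail (0.12 * (ζ / 8)) (by positivity)
  obtain ⟨L, hL⟩ := exists_nat_gt (8 * L0 / ζ)
  have hLpos : (0 : ℝ) < L := lt_of_le_of_lt (by positivity) hL
  have hL1 : 1 ≤ L := by exact_mod_cast hLpos
  obtain ⟨e1, ρ, hρ, n0, H⟩ := H L hL1
  have hm : 0 < min η ζ := lt_min hη hζ
  obtain ⟨n, hn0, hn1, hn2, hn3⟩ := ((eventually_ge_atTop n0).and ((eventually_ge_atTop 1).and
    ((hidem (0.12 * (min η ζ / 16)) (by positivity)).and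
      (hinv (0.12 * (ρ / 16)) (by positivity))))).exists
  have hn : (0 : ℝ) < n := by exact_mod_cast hn1
  obtain ⟨Nb, hNb⟩ := S.toSeq.lintegral_NN (2 ^ s) (Seq.top s e1)
  have hP : MM (Pm a θ n) := fun j k => (ha _).comp (measurable_add_const _)
  have hT : MM (fun x => shiftM n (S.wt x)) := fun j k => by
    by_cases e : (j : ℕ) = (k : ℕ) + 1
    · simp only [shiftM, if_pos e]
      exact Complex.measurable_ofReal.comp (S.F_cont.measurable.comp (measurable_add_const _))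
    · simp only [shiftM, if_neg e]
      exact measurable_const
  have v0 := birkhoff θ (ind (S.toSeq.BadSet s e1))
    (measurable_one.indicator (S.toSeq.measurableSet_BadSet s e1))
    (ind_nonneg _) (1 / 100) (n / 4) (by
      refine le_trans (le_of_eq ?_) (S.toSeq.volume_BadSet s e1)
      rw [← lintegral_indicator_one (S.toSeq.measurableSet_BadSet s e1)]
      refine lintegral_congr fun y => ?_
      by_cases hy : y ∈ S.toSeq.BadSet s e1 <;> simp [ind, hy]) n (by positivity) (by linarith)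
  have v1 := birkhoff θ (fun y => (S.toSeq.NN (2 ^ s) (Seq.top s e1) y - Nb) ^ 2)
    (((S.toSeq.measurable_NN _ _).sub_const _).pow_const 2) (fun _ => sq_nonneg _) _ (10000 * n)
    hNb n (by positivity) (by linarith)
  have v2 := birkhoff θ (fun y => S.toSeq.Xi (2 ^ s) (Seq.top s e1) y ^ 2)
    ((S.toSeq.measurable_Xi _ _).pow_const 2) (fun _ => sq_nonneg _) _ (10000 * n)
    (S.toSeq.lintegral_Xi _ _) n (by positivity) (by linarith)
  have v3 := birkhoff θ (S.toSeq.Exc (2 ^ s) (Seq.top s e1)) (S.toSeq.measurable_Exc _ _)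
    (fun y => sum_nonneg fun i _ => S.toSeq.Exc1_nonneg i y) _ (1000 / 2 ^ (2 ^ s) * n)
    (S.toSeq.lintegral_Exc _ _) n (by positivity) (by
      have : (0 : ℝ) ≤ (2 ^ (2 ^ s))⁻¹ * n := by positivity
      simp only [div_eq_mul_inv]
      linarith)
  have v4 := birkhoff θ (fun y => ((∑ j ∈ range l, (a 0 (y + j • (θ : TT))).re) / l - α) ^ 2)
    ((((Finset.measurable_sum _ fun j _ => Complex.measurable_re.comp
      ((ha 0).comp (measurable_add_const _))).div_const _).sub_const _).pow_const 2)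
    (fun _ => sq_nonneg _) _ (η / 4 * n) hl2 n (by positivity) (by linarith)
  have v5 := markov (fun x => ∑ k' : Fin n,
      ∑ k : Fin n with (L0 : ℤ) < |(k.1 : ℤ) - (k'.1 : ℤ)|, ‖Pm a θ n x k k'‖ ^ 2)
    (Finset.measurable_sum _ fun j _ => Finset.measurable_sum _ fun k _ =>
      (hP k j).norm.pow_const 2) (ζ / 8 * n) (by positivity) (by
      have h1 := lintegral_sum_shift univ (fun (k' : Fin n) y =>
        ∑ k : Fin n with (L0 : ℤ) < |(k.1 : ℤ) - (k'.1 : ℤ)|,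
          ‖a ((k.1 : ℤ) - (k'.1 : ℤ)) y‖ ^ 2) (fun k' => (k' : ℕ) • (θ : TT))
        (fun k' => Finset.measurable_sum _ fun k _ => (ha _).norm.pow_const 2)
        (fun k' y => sum_nonneg fun _ _ => sq_nonneg _)
      refine h1.le.trans ((sum_le_sum (g := fun _ => ENNReal.ofReal (0.12 * (ζ / 8)))
        fun k' _ => ?_).trans (le_of_eq ?_))
      · simp only [ENNReal.ofReal_sum_of_nonneg (fun i _ => sq_nonneg _)]
        rw [lintegral_finsetSum _ fun k _ => ((ha _).norm.pow_const 2).ennreal_ofReal]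
        refine le_trans (le_of_eq ?_) (hL0 ((univ.filter fun k : Fin n =>
          (L0 : ℤ) < |(k.1 : ℤ) - (k'.1 : ℤ)|).image
            fun k : Fin n => (k.1 : ℤ) - (k'.1 : ℤ)) fun j hj => ?_)
        · rw [sum_image fun _ _ _ _ h => Fin.ext (by simpa using h)]
        · obtain ⟨k, hk, rfl⟩ := mem_image.1 hj
          exact (mem_filter.1 hk).2
      · rw [sum_const, card_univ, Fintype.card_fin, nsmul_eq_mul, ← ENNReal.ofReal_natCast,
          ← ENNReal.ofReal_mul (Nat.cast_nonneg _)]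
        congr 1
        ring)
  have v6 := markov _ ((hP.mul hP).sub hP).mhs (min η ζ / 16 * n) (by positivity)
    (by rwa [← mul_assoc])
  have v7 := markov _ (((MM.sub (A := fun _ => 1) (fun _ _ => measurable_const) hP).mul hT).mul
    hP).mhs (ρ / 16 * n) (by positivity) (by rwa [← mul_assoc])
  obtain ⟨x, hx, b0, b1, b2, b3, b4, b5, b6, b7⟩ := pigeon8 hherm v0 v1 v2 v3 v4 v5 v6 v7
  obtain ⟨W, hW1, hW2⟩ := exists_round (Pm a θ n x) (shiftM n (S.wt x)) (hx n)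
  have m1 := mul_le_mul_of_nonneg_right (min_le_left η ζ) hn.le
  have m2 := mul_le_mul_of_nonneg_right (min_le_right η ζ) hn.le
  refine H n hn0 x W Nb (fun k => if h : k < n then dg W ⟨k, h⟩ else 0) (fun k => dif_pos k.2)
    b0 b1 b2 b3 ?_ ?_ (by linarith)
  · refine (avg_le n l hl (fun k => if h : k < n then dg W ⟨k, h⟩ else 0)
      (fun k => (a 0 (x + k • (θ : TT))).re) α).trans ?_
    simp only [add_nsmul, ← add_assoc]
    have h1 : ∑ k ∈ range n, ((if h : k < n then dg W ⟨k, h⟩ else 0) -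
        (a 0 (x + k • (θ : TT))).re) ^ 2 ≤ ∑ k, ∑ l, ‖Pm a θ n x k l - pr W (dl l) k‖ ^ 2 := by
      rw [sum_range]
      refine sum_le_sum fun k _ => le_trans ?_
        (single_le_sum (f := fun l => ‖Pm a θ n x k l - pr W (dl l) k‖ ^ 2)
          (fun _ _ => sq_nonneg _) (mem_univ k))
      have h2 := Complex.abs_re_le_norm (Pm a θ n x k k - pr W (dl k) k)
      rw [← sq_le_sq₀ (abs_nonneg _) (norm_nonneg _), sq_abs] at h2
      refine le_trans (le_of_eq ?_) h2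
      rw [pr_dl_self, dif_pos k.2, Complex.sub_re, Complex.ofReal_re, Pm, sub_self]
      ring
    linarith
  · refine (block_le W (Pm a θ n x) L L0 hL1).trans ?_
    have h1 : 2 * (L0 : ℝ) * (n / L) ≤ ζ / 4 * n := by
      rw [div_lt_iff₀ hζ] at hL
      rw [← mul_div_assoc, div_le_iff₀ hLpos]
      nlinarith
    linarith

end Crest.Agent.R113
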