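import Crest.Agent.R113.SysDefs

/-! Row 113, S0149: existence of non-resonant rotation numbers. -/

set_option autoImplicit false

noncomputable section

namespace Crest.Agent.R113

open Finset

namespace LemmaSAux

/-- A set of naturals in an open interval of length `L` has at most `L + 1` points. -/
theorem card_le_of_interval (s : Finset ℕ) (x L : ℝ) (hL : 0 ≤ L)
    (h : ∀ k ∈ s, x < (k : ℝ) ∧ (k : ℝ) < x + L) : (s.card : ℝ) ≤ L + 1 := by
  have h1 : s.card ≤ (Finset.Ico ⌈x⌉ ⌈x + L⌉).card := by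
    refine Finset.card_le_card_of_injOn (fun k => (k : ℤ)) ?_ ?_
    · intro k hk
      have := h k hk
      simp only [Finset.coe_Ico, Set.mem_Ico]
      constructor
      · rw [Int.ceil_le]; push_cast; exact this.1.le
      · rw [Int.lt_ceil]; push_cast; exact this.2
    · intro a _ b _ hab
      exact Nat.cast_injective (R := ℤ) hab
  rw [Int.card_Ico] at h1
  have h2 : (((⌈x + L⌉ - ⌈x⌉).toNat : ℕ) : ℝ) ≤ L + 1 := by
    have h3 : ⌈x⌉ ≤ ⌈x + L⌉ := Int.ceil_le_ceil (by linarith)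
    have h4 : (((⌈x + L⌉ - ⌈x⌉).toNat : ℕ) : ℤ) = ⌈x + L⌉ - ⌈x⌉ :=
      Int.toNat_of_nonneg (by linarith)
    have h5 : (((⌈x + L⌉ - ⌈x⌉).toNat : ℕ) : ℝ) = (⌈x + L⌉ : ℝ) - (⌈x⌉ : ℝ) := by
      exact_mod_cast h4
    rw [h5]
    have := Int.ceil_lt_add_one (x + L)
    have := Int.le_ceil x
    linarith
  exact le_trans (by exact_mod_cast h1) h2

/-- Few grid points of `[1,2]` are resonant with a given `a ≥ 1`. -/
theorem count_le (a ε : ℝ) (ha : 1 ≤ a) (hε : 0 < ε) (M : ℕ) (hM : 0 < M) (haM : a ≤ ε * M) :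
    ((((range M).filter fun k : ℕ =>
      ‖((a * (1 + (k : ℝ) / M) : ℝ) : TT)‖ < ε).card : ℕ) : ℝ) ≤ 12 * ε * M := by
  classical
  have hMr : (0 : ℝ) < M := by exact_mod_cast hM
  have ha0 : 0 < a := by linarith
  set s := (range M).filter fun k : ℕ => ‖((a * (1 + (k : ℝ) / M) : ℝ) : TT)‖ < ε with hs
  set I : Finset ℤ := Finset.Icc ⌊a⌋ ⌈2 * a⌉ with hI
  have hmap : ∀ k ∈ s, round (a * (1 + (k : ℝ) / M)) ∈ I := by
    intro k hk
    rw [hs, Finset.mem_filter, Finset.mem_range] at hk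
    have hk1 : (k : ℝ) / M ≤ 1 := by
      rw [div_le_one hMr]; exact_mod_cast hk.1.le
    have hk0 : 0 ≤ (k : ℝ) / M := by positivity
    have hx1 : a ≤ a * (1 + (k : ℝ) / M) := by nlinarith
    have hx2 : a * (1 + (k : ℝ) / M) ≤ 2 * a := by nlinarith
    rw [hI, Finset.mem_Icc, round_eq]
    constructor
    · exact Int.floor_le_floor (by linarith)
    · have h1 : ⌊a * (1 + (k : ℝ) / M) + 1 / 2⌋ < ⌈2 * a⌉ + 1 := by
        rw [Int.floor_lt]
        push_cast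
        have := Int.le_ceil (2 * a)
        linarith
      omega
  have hfib : ∀ n ∈ I, (((s.filter fun k : ℕ => round (a * (1 + (k : ℝ) / M)) = n).card : ℕ) : ℝ)
      ≤ 2 * ε * M / a + 1 := by
    intro n _
    refine card_le_of_interval _ ((((n : ℝ) - ε) / a - 1) * M) _ (by positivity) ?_
    intro k hk
    rw [Finset.mem_filter, hs, Finset.mem_filter] at hk
    obtain ⟨⟨-, h1⟩, h2⟩ := hk
    rw [UnitAddCircle.norm_eq, h2, abs_lt] at h1
    have e1 : (k : ℝ) = (a * (1 + (k : ℝ) / M) / a - 1) * M := by field_simp; ring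
    have e2 : (((n : ℝ) - ε) / a - 1) * M + 2 * ε * M / a = (((n : ℝ) + ε) / a - 1) * M := by
      field_simp; ring
    rw [e2]
    constructor
    · rw [e1]
      refine mul_lt_mul_of_pos_right ?_ hMr
      have : ((n : ℝ) - ε) / a < a * (1 + (k : ℝ) / M) / a :=
        div_lt_div_of_pos_right (by linarith [h1.1]) ha0
      linarith
    · rw [e1]
      refine mul_lt_mul_of_pos_right ?_ hMr
      have : a * (1 + (k : ℝ) / M) / a < ((n : ℝ) + ε) / a :=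
        div_lt_div_of_pos_right (by linarith [h1.2]) ha0
      linarith
  have hcard : (s.card : ℝ) = ∑ n ∈ I,
      (((s.filter fun k : ℕ => round (a * (1 + (k : ℝ) / M)) = n).card : ℕ) : ℝ) := by
    rw [Finset.card_eq_sum_card_fiberwise (f := fun k : ℕ => round (a * (1 + (k : ℝ) / M)))
      (t := I) (fun k hk => hmap k hk)]
    push_cast
    rfl
  have hIc : (I.card : ℝ) ≤ 4 * a := by
    rw [hI, Int.card_Icc]
    have h3 : ⌊a⌋ ≤ ⌈2 * a⌉ := le_trans (Int.floor_le_ceil a) (Int.ceil_le_ceil (by linarith))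
    have h4 : (((⌈2 * a⌉ + 1 - ⌊a⌋).toNat : ℕ) : ℤ) = ⌈2 * a⌉ + 1 - ⌊a⌋ :=
      Int.toNat_of_nonneg (by linarith)
    have h5 : (((⌈2 * a⌉ + 1 - ⌊a⌋).toNat : ℕ) : ℝ) = (⌈2 * a⌉ : ℝ) + 1 - (⌊a⌋ : ℝ) := by
      exact_mod_cast h4
    rw [h5]
    have := Int.ceil_lt_add_one (2 * a)
    have := Int.sub_one_lt_floor a
    linarith
  calc (s.card : ℝ) ≤ ∑ _n ∈ I, (2 * ε * M / a + 1) := by
        rw [hcard]; exact Finset.sum_le_sum hfib
    _ = I.card * (2 * ε * M / a + 1) := by rw [Finset.sum_const, nsmul_eq_mul]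
    _ ≤ 4 * a * (2 * ε * M / a + 1) := mul_le_mul_of_nonneg_right hIc (by positivity)
    _ = 8 * ε * M + 4 * a := by field_simp; ring
    _ ≤ 12 * ε * M := by linarith

/-- The weight of a test. -/
def wt (ε z x : ℝ) : ℝ := if ‖((x : ℝ) : TT)‖ < ε then 1 + z else 1

theorem wt_nonneg (ε z x : ℝ) (hz : 0 ≤ z) : 0 ≤ wt ε z x := by
  unfold wt; split_ifs <;> linarith

/-- One greedy step. -/
theorem step {ι : Type} (J : Finset ι) (c a : ι → ℝ) (hc : ∀ j ∈ J, 0 ≤ c j)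
    (ha : ∀ j ∈ J, 1 ≤ a j) (ε z : ℝ) (hε : 0 < ε) (hz : 0 ≤ z) :
    ∃ g : ℝ, 1 ≤ g ∧ g ≤ 2 ∧
      ∑ j ∈ J, c j * wt ε z (a j * g) ≤ (1 + 12 * ε * z) * ∑ j ∈ J, c j := by
  classical
  obtain ⟨M0, hM0⟩ := exists_nat_ge ((∑ j ∈ J, a j) / ε)
  set M := M0 + 1 with hMdef
  have hM : 0 < M := Nat.succ_pos _
  have hMr : (0 : ℝ) < M := by exact_mod_cast hM
  have haM : ∀ j ∈ J, a j ≤ ε * M := by
    intro j hj
    have h1 : a j ≤ ∑ j ∈ J, a j :=
      Finset.single_le_sum (f := a) (fun i hi => le_trans zero_le_one (ha i hi)) hj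
    rw [div_le_iff₀ hε] at hM0
    have h2 : (M0 : ℝ) ≤ M := by rw [hMdef]; push_cast; linarith
    nlinarith
  have hsum : ∀ j ∈ J, ∑ k ∈ range M, wt ε z (a j * (1 + (k : ℝ) / M))
      ≤ (1 + 12 * ε * z) * M := by
    intro j hj
    have h1 := count_le (a j) ε (ha j hj) hε M hM (haM j hj)
    have h2 : ∑ k ∈ range M, wt ε z (a j * (1 + (k : ℝ) / M)) = M + z *
        ((((range M).filter fun k : ℕ =>
          ‖((a j * (1 + (k : ℝ) / M) : ℝ) : TT)‖ < ε).card : ℕ) : ℝ) := by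
      have : ∀ k ∈ range M, wt ε z (a j * (1 + (k : ℝ) / M)) =
          1 + z * (if ‖((a j * (1 + (k : ℝ) / M) : ℝ) : TT)‖ < ε then 1 else 0) := by
        intro k _
        unfold wt; split_ifs <;> simp
      rw [Finset.sum_congr rfl this, Finset.sum_add_distrib, ← Finset.mul_sum, Finset.sum_boole]
      simp
    rw [h2]
    nlinarith
  have hall : ∑ k ∈ range M, ∑ j ∈ J, c j * wt ε z (a j * (1 + (k : ℝ) / M))
      ≤ ∑ _k ∈ range M, (1 + 12 * ε * z) * ∑ j ∈ J, c j := by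
    rw [Finset.sum_comm, Finset.sum_const, Finset.card_range, nsmul_eq_mul, Finset.mul_sum,
      Finset.mul_sum]
    refine Finset.sum_le_sum fun j hj => ?_
    rw [← Finset.mul_sum]
    calc c j * ∑ k ∈ range M, wt ε z (a j * (1 + (k : ℝ) / M))
        ≤ c j * ((1 + 12 * ε * z) * M) := mul_le_mul_of_nonneg_left (hsum j hj) (hc j hj)
      _ = M * ((1 + 12 * ε * z) * c j) := by ring
  obtain ⟨k, hk, hk2⟩ := Finset.exists_le_of_sum_le (Finset.nonempty_range_iff.mpr hM.ne') hall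
  refine ⟨1 + (k : ℝ) / M, ?_, ?_, hk2⟩
  · have : 0 ≤ (k : ℝ) / M := by positivity
    linarith
  · have : (k : ℝ) / M ≤ 1 := by
      rw [div_le_one hMr]; exact_mod_cast (Finset.mem_range.mp hk).le
    linarith

/-- The greedy choice. -/
theorem greedy {ι : Type} (J : Finset ι) (a : ι → ℕ → ℝ) (ε z : ℝ) (hε : 0 < ε) (hz : 0 ≤ z)
    (n : ℕ) (ha : ∀ j ∈ J, ∀ i < n, 1 ≤ a j i) :
    ∃ γ : ℕ → ℝ, (∀ i, 1 ≤ γ i ∧ γ i ≤ 2) ∧
      ∑ j ∈ J, ∏ i ∈ range n, wt ε z (a j i * γ i) ≤ (1 + 12 * ε * z) ^ n * J.card := by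
  induction n with
  | zero => exact ⟨fun _ => 1, fun _ => ⟨le_rfl, by norm_num⟩, by simp⟩
  | succ n ih =>
    obtain ⟨γ, hγ, hs⟩ := ih fun j hj i hi => ha j hj i (by omega)
    obtain ⟨g, hg1, hg2, hg⟩ := step J (fun j => ∏ i ∈ range n, wt ε z (a j i * γ i))
      (fun j => a j n) (fun j _ => Finset.prod_nonneg fun i _ => wt_nonneg _ _ _ hz)
      (fun j hj => ha j hj n (by omega)) ε z hε hz
    refine ⟨Function.update γ n g, ?_, ?_⟩
    · intro i
      by_cases h : i = n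
      · subst h; simp [hg1, hg2]
      · rw [Function.update_of_ne h]; exact hγ i
    · have h1 : ∀ j ∈ J, ∏ i ∈ range (n + 1), wt ε z (a j i * Function.update γ n g i) =
          (∏ i ∈ range n, wt ε z (a j i * γ i)) * wt ε z (a j n * g) := by
        intro j _
        rw [Finset.prod_range_succ, Function.update_self]
        congr 1
        refine Finset.prod_congr rfl fun i hi => ?_
        rw [Function.update_of_ne (Finset.mem_range.mp hi).ne]
      rw [Finset.sum_congr rfl h1]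
      refine hg.trans ?_
      rw [pow_succ', mul_assoc (1 + 12 * ε * z)]
      exact mul_le_mul_of_nonneg_left hs (by positivity)

theorem prod_wt (ε z : ℝ) (n : ℕ) (x : ℕ → ℝ) :
    ∏ i ∈ range n, wt ε z (x i) =
      (1 + z) ^ ((range n).filter fun i => ‖((x i : ℝ) : TT)‖ < ε).card := by
  unfold wt
  rw [Finset.prod_ite, Finset.prod_const, Finset.prod_const, one_pow, mul_one]

theorem norm_le_add (x y : ℝ) : ‖((x : ℝ) : TT)‖ ≤ ‖((y : ℝ) : TT)‖ + |x - y| := by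
  have h1 : ((x : ℝ) : TT) = ((y : ℝ) : TT) + (((x - y : ℝ)) : TT) := by
    rw [← AddCircle.coe_add]; congr 1; ring
  rw [h1]
  refine (norm_add_le _ _).trans ?_
  have h2 : ‖(((x - y : ℝ)) : TT)‖ ≤ |x - y| := by
    rw [UnitAddCircle.norm_eq]
    simpa using round_le (x - y) 0
  linarith

end LemmaSAux

open LemmaSAux in
/-- Non-resonance in one block. -/
theorem lemmaS (R : ℕ) (hR : 2 ≤ R) : ∃ δ : ℝ, 0 < δ ∧ δ ≤ 1 / (12 * (R : ℝ)) ∧
    ∀ len : ℕ, 4 ≤ len → ∃ γ : ℕ → ℝ, (∀ i, 1 ≤ γ i ∧ γ i ≤ 2) ∧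
      ∀ D : ℝ, (R : ℝ) ^ len ≤ D → D ≤ (R : ℝ) ^ (5 * len) →
        2 * ((range len).filter fun i => ‖((D * (γ i / (R : ℝ) ^ i) : ℝ) : TT)‖ < 2 * δ).card
          ≤ len := by
  have hR1 : (1 : ℝ) ≤ R := by exact_mod_cast (by omega : 1 ≤ R)
  have hR0 : (0 : ℝ) < R := by linarith
  obtain ⟨B, hB⟩ : ∃ B : ℝ, B = 37 ^ 2 * (R : ℝ) ^ 10 := ⟨_, rfl⟩
  have hRB : (R : ℝ) ≤ (R : ℝ) ^ 10 := le_self_pow₀ hR1 (by norm_num)
  have hB12 : 12 * (R : ℝ) ≤ B := by rw [hB]; nlinarith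
  have hB5 : 5 ≤ B := by linarith
  have hB1 : 1 ≤ B := by linarith
  obtain ⟨z, hz⟩ : ∃ z : ℝ, z = B ^ 2 := ⟨_, rfl⟩
  have hzB : B ≤ z := by rw [hz]; nlinarith
  have hz0 : 0 < z := by linarith
  have hz1 : 1 ≤ z := by linarith
  refine ⟨1 / z, by positivity, one_div_le_one_div_of_le (by positivity) (by linarith), ?_⟩
  intro len hlen
  obtain ⟨N, hN⟩ : ∃ N : ℕ, N = ⌊2 * (R : ℝ) ^ (5 * len) * z⌋₊ + 1 := ⟨_, rfl⟩
  have hP1 : (1 : ℝ) ≤ (R : ℝ) ^ (5 * len) := one_le_pow₀ hR1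
  have hNle : (N : ℝ) ≤ 4 * (R : ℝ) ^ (5 * len) * z := by
    rw [hN]; push_cast
    have h1 := Nat.floor_le (show 0 ≤ 2 * (R : ℝ) ^ (5 * len) * z by positivity)
    have h2 : 1 ≤ (R : ℝ) ^ (5 * len) * z := one_le_mul_of_one_le_of_one_le hP1 hz1
    linarith
  obtain ⟨γ, hγ, hs⟩ := greedy (range N)
    (fun j i => ((R : ℝ) ^ len + (j : ℝ) / (2 * z)) / (R : ℝ) ^ i) (3 * (1 / z)) z
    (by positivity) hz0.le len (by
      intro j _ i hi
      rw [one_le_div (by positivity)]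
      have h1 : (R : ℝ) ^ i ≤ (R : ℝ) ^ len := pow_le_pow_right₀ hR1 hi.le
      have h2 : 0 ≤ (j : ℝ) / (2 * z) := by positivity
      linarith)
  refine ⟨γ, hγ, ?_⟩
  intro D hD1 hD2
  by_contra hcon
  push Not at hcon
  obtain ⟨j, hj⟩ : ∃ j : ℕ, j = ⌊(D - (R : ℝ) ^ len) * (2 * z)⌋₊ := ⟨_, rfl⟩
  have hDpos : 0 ≤ (D - (R : ℝ) ^ len) * (2 * z) := mul_nonneg (by linarith) (by positivity)
  have hj1 : (j : ℝ) ≤ (D - (R : ℝ) ^ len) * (2 * z) := hj ▸ Nat.floor_le hDpos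
  have hj2 : (D - (R : ℝ) ^ len) * (2 * z) < j + 1 := hj ▸ Nat.lt_floor_add_one _
  have hjN : j ∈ range N := by
    rw [Finset.mem_range, hN, hj, Nat.lt_succ_iff]
    refine Nat.floor_le_floor ?_
    have : 0 ≤ (R : ℝ) ^ len := by positivity
    nlinarith
  have hclose : |((R : ℝ) ^ len + (j : ℝ) / (2 * z)) - D| ≤ 1 / (2 * z) := by
    have h1 : (j : ℝ) / (2 * z) ≤ D - (R : ℝ) ^ len := by
      rw [div_le_iff₀ (by positivity)]; exact hj1
    have h2 : D - (R : ℝ) ^ len < ((j : ℝ) + 1) / (2 * z) := by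
      rw [lt_div_iff₀ (by positivity)]; exact hj2
    rw [add_div] at h2
    have h3 : 0 ≤ 1 / (2 * z) := by positivity
    rw [abs_le]; constructor <;> linarith
  have hsub : ((range len).filter fun i =>
        ‖((D * (γ i / (R : ℝ) ^ i) : ℝ) : TT)‖ < 2 * (1 / z)) ⊆
      (range len).filter fun i =>
        ‖((((R : ℝ) ^ len + (j : ℝ) / (2 * z)) / (R : ℝ) ^ i * γ i : ℝ) : TT)‖ < 3 * (1 / z) := by
    intro i hi
    rw [Finset.mem_filter] at hi ⊢
    refine ⟨hi.1, ?_⟩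
    have h1 := norm_le_add (((R : ℝ) ^ len + (j : ℝ) / (2 * z)) / (R : ℝ) ^ i * γ i)
      (D * (γ i / (R : ℝ) ^ i))
    have h2 : ((R : ℝ) ^ len + (j : ℝ) / (2 * z)) / (R : ℝ) ^ i * γ i - D * (γ i / (R : ℝ) ^ i)
        = (((R : ℝ) ^ len + (j : ℝ) / (2 * z)) - D) * (γ i / (R : ℝ) ^ i) := by ring
    have h3 : γ i / (R : ℝ) ^ i ≤ 2 := by
      rw [div_le_iff₀ (by positivity)]
      have := one_le_pow₀ (n := i) hR1
      linarith [(hγ i).2]
    have h4 : 0 ≤ γ i / (R : ℝ) ^ i := div_nonneg (by linarith [(hγ i).1]) (by positivity)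
    rw [h2, abs_mul, abs_of_nonneg h4] at h1
    have h5 : |((R : ℝ) ^ len + (j : ℝ) / (2 * z)) - D| * (γ i / (R : ℝ) ^ i)
        ≤ 1 / (2 * z) * 2 := mul_le_mul hclose h3 h4 (by positivity)
    have h6 : 1 / (2 * z) * 2 = 1 / z := by field_simp
    linarith [hi.2]
  have hcard := Finset.card_le_card hsub
  have hone := Finset.single_le_sum (f := fun j : ℕ => ∏ i ∈ range len, wt (3 * (1 / z)) z
      (((R : ℝ) ^ len + (j : ℝ) / (2 * z)) / (R : ℝ) ^ i * γ i))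
    (fun j _ => Finset.prod_nonneg fun i _ => wt_nonneg _ _ _ hz0.le) hjN
  have hle := hone.trans hs
  rw [prod_wt, Finset.card_range] at hle
  have e37 : 1 + 12 * (3 * (1 / z)) * z = 37 := by field_simp; norm_num
  rw [e37] at hle
  generalize ((range len).filter fun i =>
    ‖((((R : ℝ) ^ len + (j : ℝ) / (2 * z)) / (R : ℝ) ^ i * γ i : ℝ) : TT)‖ < 3 * (1 / z)).card
    = c at hcard hle
  have hc : len + 1 ≤ 2 * c := by omega
  have h1 : z ^ c ≤ 37 ^ len * (4 * (R : ℝ) ^ (5 * len) * z) :=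
    calc z ^ c ≤ (1 + z) ^ c := pow_le_pow_left₀ hz0.le (by linarith) c
      _ ≤ 37 ^ len * N := hle
      _ ≤ _ := mul_le_mul_of_nonneg_left hNle (by positivity)
  have h2 : z ^ (len + 1) ≤ 16 * B ^ len * z ^ 2 :=
    calc z ^ (len + 1) ≤ z ^ (2 * c) := pow_le_pow_right₀ hz1 hc
      _ = (z ^ c) ^ 2 := by rw [← pow_mul, mul_comm]
      _ ≤ (37 ^ len * (4 * (R : ℝ) ^ (5 * len) * z)) ^ 2 :=
        pow_le_pow_left₀ (by positivity) h1 2
      _ = 16 * B ^ len * z ^ 2 := by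
        rw [hB, mul_pow (37 ^ 2 : ℝ), ← pow_mul, ← pow_mul, mul_comm 2 len, pow_mul,
          show 10 * len = 5 * len * 2 by ring, pow_mul]
        ring
  have h3 : B ^ len * B ^ 2 * z ^ 2 ≤ z ^ (len + 1) := by
    rw [hz, ← pow_mul, ← pow_mul, ← pow_add, ← pow_add]
    exact pow_le_pow_right₀ hB1 (by omega)
  have h4 : 0 < B ^ len * z ^ 2 := by positivity
  have h5 : 25 ≤ B ^ 2 := by nlinarith
  nlinarith

end Crest.Agent.R113
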