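import Crest.Agent.R113.SysDefs

/-! Row 113, S0149: elementary facts about walls along an orbit. -/

set_option autoImplicit false

noncomputable section

namespace Crest.Agent.R113

open Finset

theorem fr_nonneg (y : TT) : 0 ≤ fr y := by
  exact (AddCircle.equivIco 1 0 y).2.1

theorem fr_lt_one (y : TT) : fr y < 1 := by
  simpa [fr] using (AddCircle.equivIco 1 0 y).2.2

theorem fr_coe (r : ℝ) : fr (r : TT) = Int.fract r := by
  simp [fr]

theorem coe_fr (y : TT) : ((fr y : ℝ) : TT) = y := by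
  exact AddCircle.coe_equivIco

theorem fr_add_coe (y : TT) (r : ℝ) (h0 : 0 ≤ fr y + r) (h1 : fr y + r < 1) :
    fr (y + (r : TT)) = fr y + r := by
  conv_lhs => rw [← coe_fr y, ← AddCircle.coe_add, fr_coe]
  exact Int.fract_eq_self.2 ⟨h0, h1⟩

theorem measurable_fr : Measurable fr := by
  exact measurable_subtype_coe.comp (AddCircle.measurableEquivIco 1 0).measurable

theorem ind_nonneg (A : Set TT) (y : TT) : 0 ≤ ind A y := by
  exact Set.indicator_nonneg (fun _ _ => zero_le_one) y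

theorem ind_le_one (A : Set TT) (y : TT) : ind A y ≤ 1 := by
  exact Set.indicator_le_self' (fun _ _ => zero_le_one) y

theorem ind_of_mem {A : Set TT} {y : TT} (h : y ∈ A) : ind A y = 1 := by
  simp [ind, h]

theorem ind_of_notMem {A : Set TT} {y : TT} (h : y ∉ A) : ind A y = 0 := by
  simp [ind, h]

namespace Seq

variable {θ : ℝ} (S : Seq θ)

theorem om_pos (m i : ℕ) : 0 < om m i := by
  unfold om
  positivity

theorem om_le_one (m i : ℕ) : om m i ≤ 1 := by
  unfold om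
  rw [div_le_one (by positivity)]
  have : (0 : ℝ) ≤ ((i - m : ℕ) : ℝ) := Nat.cast_nonneg _
  linarith

theorem om_self (m : ℕ) : om m m = 1 := by
  simp [om]

theorem sum_om_sq_le (m M : ℕ) : ∑ i ∈ Icc m M, om m i ^ 2 ≤ 2 := by
  have key : ∀ n : ℕ, ∑ k ∈ range (n + 1), (1 / ((k : ℝ) + 1)) ^ 2 ≤ 2 - 1 / ((n : ℝ) + 1) := by
    intro n
    induction n with
    | zero => norm_num
    | succ n ih =>
      rw [Finset.sum_range_succ]
      have h : (1 / (((n + 1 : ℕ) : ℝ) + 1)) ^ 2 ≤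
          1 / ((n : ℝ) + 1) - 1 / (((n + 1 : ℕ) : ℝ) + 1) := by
        push_cast
        rw [div_sub_div _ _ (by positivity) (by positivity), div_pow, div_le_div_iff₀
          (by positivity) (by positivity)]
        have : (0 : ℝ) ≤ n := Nat.cast_nonneg _
        nlinarith
      linarith
  rw [← Finset.Ico_add_one_right_eq_Icc, Finset.sum_Ico_eq_sum_range]
  simp only [om, Nat.add_sub_cancel_left]
  rcases M + 1 - m with _ | n
  · simp
  · exact (key n).trans (sub_le_self _ (by positivity))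

theorem two_le_R : (2 : ℝ) ≤ S.R := by
  have h : 2 ≤ S.R := le_trans (by norm_num) S.R_ge
  exact_mod_cast h

theorem th_pos (j : ℕ) : 0 < S.th j := by
  have := S.two_le_R
  exact lt_of_lt_of_le (by positivity) (S.th_lo j)

theorem N_pos (i : ℕ) : 0 < S.N i := by
  exact Nat.ceil_pos.2 (one_div_pos.2 (S.th_pos i))

theorem N_le (i : ℕ) : (S.N i : ℝ) ≤ 3 * (S.R : ℝ) ^ i := by
  have h1 := Nat.ceil_lt_add_one (one_div_pos.2 (S.th_pos i)).le
  have h2 := S.two_le_R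
  have h3 : 1 / S.th i ≤ 2 * (S.R : ℝ) ^ i :=
    (one_div_le (S.th_pos i) (by positivity)).2 (S.th_lo i)
  have h4 : (1 : ℝ) ≤ (S.R : ℝ) ^ i := one_le_pow₀ (by linarith)
  unfold N
  linarith

theorem le_N (i : ℕ) : (S.R : ℝ) ^ i / 3 ≤ S.N i := by
  have h2 := S.two_le_R
  refine le_trans ?_ (Nat.le_ceil _)
  rw [le_one_div (by positivity) (S.th_pos i), one_div_div]
  exact S.th_hi i

theorem one_le_N_mul_th (i : ℕ) : 1 ≤ (S.N i : ℝ) * S.th i := by
  exact (div_le_iff₀ (S.th_pos i)).1 (Nat.le_ceil _)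

theorem N_mul_th_le (i : ℕ) : (S.N i : ℝ) * S.th i ≤ 1 + S.th i := by
  have h1 := Nat.ceil_lt_add_one (one_div_pos.2 (S.th_pos i)).le
  have h2 := S.th_pos i
  calc (S.N i : ℝ) * S.th i ≤ (1 / S.th i + 1) * S.th i := mul_le_mul_of_nonneg_right h1.le h2.le
    _ = 1 + S.th i := by field_simp

theorem m_dvd_of_le {i j : ℕ} (h : i ≤ j) : S.m i ∣ S.m j := by
  induction j, h using Nat.le_induction with
  | base => exact dvd_rfl
  | succ j _ ih => exact ih.trans (S.m_dvd j)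

theorem smul_add_nsmul (j l : ℕ) (y : TT) :
    S.m j • (y + l • (θ : TT)) = S.m j • y + (((l : ℝ) * S.th j : ℝ) : TT) := by
  rw [smul_add, smul_comm, ← AddCircle.coe_nsmul, nsmul_eq_mul, S.th_eq, ← AddCircle.coe_nsmul,
    nsmul_eq_mul]

theorem fr_smul_add (j l : ℕ) (y : TT) (h : (l : ℝ) * S.th j < 1 - fr (S.m j • y)) :
    fr (S.m j • (y + l • (θ : TT))) = fr (S.m j • y) + l * S.th j := by
  have h1 := fr_nonneg (S.m j • y)
  have h2 := S.th_pos j
  rw [smul_add_nsmul, fr_add_coe _ _ (by positivity) (by linarith)]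

/-- As long as no class `j` wall is crossed, the phase moves linearly. -/
theorem lt_of_no_wall1 (j t : ℕ) (y : TT) (h : ∀ l : ℕ, l < t → y + l • (θ : TT) ∉ S.wall1 j) :
    (t : ℝ) * S.th j < 1 - fr (S.m j • y) := by
  induction t with
  | zero => simpa using fr_lt_one (S.m j • y)
  | succ t ih =>
    have h1 := ih fun l hl => h l (by omega)
    have h2 : ¬ 1 - fr (S.m j • (y + t • (θ : TT))) ≤ S.th j := h t (by omega)
    rw [S.fr_smul_add j t y h1] at h2
    push_cast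
    linarith

theorem Wall_subset_Zone (i : ℕ) : S.Wall i ⊆ S.Zone i := by
  rintro y ⟨j, hj, hy⟩
  refine ⟨j, hj, le_trans hy (le_mul_of_one_le_left (S.th_pos j).le ?_)⟩
  have : (0 : ℝ) ≤ j := Nat.cast_nonneg _
  linarith

theorem Wall_anti {i j : ℕ} (h : i ≤ j) : S.Wall j ⊆ S.Wall i := by
  rintro y ⟨k, hk, hy⟩
  exact ⟨k, h.trans hk, hy⟩

theorem Aset_mono (i : ℕ) {t t' : ℕ} (h : t ≤ t') : S.Aset i t ⊆ S.Aset i t' := by
  rintro y ⟨l, hl, hy⟩
  exact ⟨l, hl.trans_le h, hy⟩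

theorem mem_Aset_N (i : ℕ) (y : TT) : y ∈ S.Aset i (S.N i) := by
  by_contra h
  have h1 := S.lt_of_no_wall1 i (S.N i) y fun l hl hw => h ⟨l, hl, i, le_rfl, hw⟩
  have h2 := S.one_le_N_mul_th i
  have h3 := fr_nonneg (S.m i • y)
  linarith

theorem mem_Aset_iff (i t : ℕ) (y : TT) : y ∈ S.Aset i t ↔ S.P i y ≤ t := by
  exact ⟨fun h => Nat.sInf_le h, fun h => S.Aset_mono i h
    (Nat.sInf_mem (s := {t | y ∈ S.Aset i t}) ⟨_, S.mem_Aset_N i y⟩)⟩

theorem P_pos (i : ℕ) (y : TT) : 0 < S.P i y := by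
  obtain ⟨l, hl, -⟩ := (S.mem_Aset_iff i _ y).2 le_rfl
  omega

theorem P_le_N (i : ℕ) (y : TT) : S.P i y ≤ S.N i := by
  exact (S.mem_Aset_iff i _ y).1 (S.mem_Aset_N i y)

theorem P_mono {i j : ℕ} (h : i ≤ j) (y : TT) : S.P i y ≤ S.P j y := by
  obtain ⟨l, hl, hy⟩ := (S.mem_Aset_iff j _ y).2 le_rfl
  exact (S.mem_Aset_iff i _ y).1 ⟨l, hl, S.Wall_anti h hy⟩

theorem P_add (i D : ℕ) (y : TT) (h : D < S.P i y) :
    S.P i (y + D • (θ : TT)) + D = S.P i y := by
  refine le_antisymm ?_ ?_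
  · obtain ⟨l, hl, hy⟩ := (S.mem_Aset_iff i _ y).2 le_rfl
    have h1 := (S.mem_Aset_iff i (l + 1) y).1 ⟨l, by omega, hy⟩
    obtain ⟨k, rfl⟩ : ∃ k, l = D + k := ⟨l - D, by omega⟩
    have h2 := (S.mem_Aset_iff i (k + 1) (y + D • (θ : TT))).1
      ⟨k, by omega, by rwa [add_assoc, ← add_nsmul]⟩
    omega
  · obtain ⟨l, hl, hy⟩ := (S.mem_Aset_iff i _ (y + D • (θ : TT))).2 le_rfl
    exact (S.mem_Aset_iff i _ y).1 ⟨D + l, by omega, by rwa [add_nsmul, ← add_assoc]⟩

theorem P_le_add (i D : ℕ) (y : TT) : S.P i y ≤ S.P i (y + D • (θ : TT)) + D := by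
  obtain ⟨l, hl, hy⟩ := (S.mem_Aset_iff i _ (y + D • (θ : TT))).2 le_rfl
  exact (S.mem_Aset_iff i _ y).1 ⟨D + l, by omega, by rwa [add_nsmul, ← add_assoc]⟩

/-- If no higher wall interferes, `P i` is the distance to the next class `i` wall. -/
theorem P_own (i : ℕ) (y : TT) (h : S.N i < S.P (i + 1) y) :
    ((S.P i y : ℝ) - 1) * S.th i < 1 - fr (S.m i • y) ∧
      1 - fr (S.m i • y) ≤ (S.P i y : ℝ) * S.th i := by
  obtain ⟨l, hl, j, hj, hy⟩ := (S.mem_Aset_iff i _ y).2 le_rfl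
  have h1 := (S.mem_Aset_iff i (l + 1) y).1 ⟨l, by omega, j, hj, hy⟩
  have h2 := S.P_le_N i y
  have h3 : j = i := by
    by_contra hc
    have := (S.mem_Aset_iff (i + 1) (l + 1) y).1 ⟨l, by omega, j, by omega, hy⟩
    omega
  subst h3
  have h4 := S.lt_of_no_wall1 j l y fun k hk hw => by
    have := (S.mem_Aset_iff j (k + 1) y).1 ⟨k, by omega, j, le_rfl, hw⟩
    omega
  have h5 : 1 - fr (S.m j • (y + l • (θ : TT))) ≤ S.th j := hy
  rw [S.fr_smul_add j l y h4] at h5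
  rw [show S.P j y = l + 1 by omega]
  push_cast
  constructor <;> linarith

theorem sum_ind_Aset (i : ℕ) (y : TT) :
    ∑ t ∈ Icc 1 (S.N i), ind (S.Aset i t) y = (S.N i : ℝ) + 1 - S.P i y := by
  have h1 := S.P_pos i y
  have h2 := S.P_le_N i y
  have h3 : ∀ t ∈ Icc 1 (S.N i), ind (S.Aset i t) y = if S.P i y ≤ t then 1 else 0 := by
    intro t _
    split_ifs with h
    · exact ind_of_mem ((S.mem_Aset_iff i t y).2 h)
    · exact ind_of_notMem fun h' => h ((S.mem_Aset_iff i t y).1 h')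
  have h4 : (Icc 1 (S.N i)).filter (fun t => S.P i y ≤ t) = Icc (S.P i y) (S.N i) := by
    ext t
    simp only [mem_filter, mem_Icc]
    omega
  rw [Finset.sum_congr rfl h3, Finset.sum_boole, h4, Nat.card_Icc, Nat.cast_sub (by omega)]
  push_cast
  ring

theorem NN1_eq (i : ℕ) (y : TT) : S.NN1 i y = ((S.N i : ℝ) + 1 - S.P i y) / S.N i := by
  rw [NN1, sum_ind_Aset]

theorem sum_abs_ind_Aset (i : ℕ) (y y' : TT) :
    ∑ t ∈ Icc 1 (S.N i), |ind (S.Aset i t) y - ind (S.Aset i t) y'| =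
      |(S.P i y : ℝ) - (S.P i y' : ℝ)| := by
  wlog h : S.P i y ≤ S.P i y' generalizing y y'
  · simp only [abs_sub_comm (ind _ y), abs_sub_comm (S.P i y : ℝ)]
    exact this y' y (by omega)
  have h1 : ∀ t ∈ Icc 1 (S.N i), |ind (S.Aset i t) y - ind (S.Aset i t) y'| =
      ind (S.Aset i t) y - ind (S.Aset i t) y' := by
    intro t _
    refine abs_of_nonneg (sub_nonneg.2 ?_)
    by_cases h2 : y' ∈ S.Aset i t
    · rw [ind_of_mem h2, ind_of_mem ((S.mem_Aset_iff i t y).2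
        (h.trans ((S.mem_Aset_iff i t y').1 h2)))]
    · rw [ind_of_notMem h2]
      exact ind_nonneg _ _
  have h3 : (S.P i y : ℝ) ≤ S.P i y' := by exact_mod_cast h
  rw [Finset.sum_congr rfl h1, Finset.sum_sub_distrib, sum_ind_Aset, sum_ind_Aset,
    abs_of_nonpos (sub_nonpos.2 h3)]
  ring

theorem abs_Xi1_le (i : ℕ) (y : TT) : |S.Xi1 i y| ≤ 1 := by
  have hN : (0 : ℝ) < S.N i := by exact_mod_cast S.N_pos i
  rw [Xi1, abs_div, abs_of_pos hN, div_le_one hN]
  refine (Finset.abs_sum_le_sum_abs _ _).trans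
    ((Finset.sum_le_card_nsmul _ _ 1 fun t _ => ?_).trans (by simp))
  have := ind_nonneg (S.Aset i t) y
  have := ind_le_one (S.Aset i t) y
  have := ind_nonneg (S.Aset i t) (y - t • (θ : TT))
  have := ind_le_one (S.Aset i t) (y - t • (θ : TT))
  rw [abs_le]
  constructor <;> linarith

theorem Exc1_nonneg (i : ℕ) (y : TT) : 0 ≤ S.Exc1 i y := by
  exact div_nonneg (Finset.sum_nonneg fun t _ => ind_nonneg _ _) (Nat.cast_nonneg _)

theorem ind_Zone_le_Exc1 (i : ℕ) (y : TT) : ind (S.Zone i) y ≤ S.Exc1 i y := by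
  by_cases h : y ∈ S.Zone i
  · have hN : (0 : ℝ) < S.N i := by exact_mod_cast S.N_pos i
    rw [ind_of_mem h, Exc1, one_le_div hN,
      Finset.sum_congr rfl fun t _ => ind_of_mem (A := S.Xset i t) (Or.inl h)]
    simp
  · rw [ind_of_notMem h]
    exact S.Exc1_nonneg i y

theorem abs_Xi1_step (i : ℕ) (y : TT) :
    |S.Xi1 i (y + (θ : TT)) - S.Xi1 i y| ≤ 2 / S.N i + 2 * S.Exc1 i y := by
  have hN : (0 : ℝ) < S.N i := by exact_mod_cast S.N_pos i
  by_cases h : y ∈ S.Wall i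
  · have h1 := S.ind_Zone_le_Exc1 i y
    rw [ind_of_mem (S.Wall_subset_Zone i h)] at h1
    have h2 := S.abs_Xi1_le i (y + (θ : TT))
    have h3 := S.abs_Xi1_le i y
    have h4 : 0 ≤ 2 / (S.N i : ℝ) := by positivity
    linarith [abs_sub (S.Xi1 i (y + (θ : TT))) (S.Xi1 i y)]
  refine le_trans ?_ (le_add_of_nonneg_right (mul_nonneg zero_le_two (S.Exc1_nonneg i y)))
  have h1 : 1 < S.P i y := by
    by_contra hc
    obtain ⟨l, hl, hy⟩ := (S.mem_Aset_iff i 1 y).2 (by omega)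
    obtain rfl : l = 0 := by omega
    exact h (by simpa using hy)
  have h2 := S.P_add i 1 y h1
  rw [one_nsmul] at h2
  have h3 : (S.P i (y + (θ : TT)) : ℝ) + 1 = S.P i y := by exact_mod_cast h2
  have h4 : ∀ s : ℕ, ind (S.Aset i (s + 1)) (y + (θ : TT) - (s + 1) • (θ : TT)) =
      ind (S.Aset i s) (y - s • (θ : TT)) := by
    intro s
    rw [succ_nsmul, add_sub_add_right_eq_sub]
    by_cases h5 : y - s • (θ : TT) ∈ S.Aset i s
    · rw [ind_of_mem h5, ind_of_mem (S.Aset_mono i (Nat.le_succ s) h5)]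
    · rw [ind_of_notMem h5, ind_of_notMem]
      rintro ⟨l, hl, hy⟩
      rcases Nat.lt_succ_iff_lt_or_eq.1 hl with hl | rfl
      · exact h5 ⟨l, hl, hy⟩
      · exact h (by simpa using hy)
  have h5 : ∀ f : ℕ → ℝ, ∑ t ∈ Icc 1 (S.N i), f t = ∑ t ∈ range (S.N i), f (t + 1) := by
    intro f
    rw [← Finset.Ico_add_one_right_eq_Icc, Finset.sum_Ico_eq_sum_range, Nat.add_sub_cancel]
    simp only [add_comm]
  have h6 := (Finset.sum_range_succ (fun s => ind (S.Aset i s) (y - s • (θ : TT))) (S.N i)).symm.trans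
    (Finset.sum_range_succ' _ _)
  rw [Xi1, Xi1, ← sub_div, abs_div, abs_of_pos hN, Finset.sum_sub_distrib, Finset.sum_sub_distrib,
    sum_ind_Aset, sum_ind_Aset, h5, h5, Finset.sum_congr rfl fun s _ => h4 s]
  gcongr
  have := ind_nonneg (S.Aset i 0) (y - 0 • (θ : TT))
  have := ind_le_one (S.Aset i 0) (y - 0 • (θ : TT))
  have := ind_nonneg (S.Aset i (S.N i)) (y - S.N i • (θ : TT))
  have := ind_le_one (S.Aset i (S.N i)) (y - S.N i • (θ : TT))
  rw [abs_le]
  constructor <;> linarith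

theorem sum_inv_N_le (m M : ℕ) : ∑ i ∈ Icc m M, 1 / (S.N i : ℝ) ≤ 6 / (S.R : ℝ) ^ m := by
  have hR := S.two_le_R
  have key : ∀ n : ℕ, ∑ k ∈ range n, 1 / (S.N (m + k) : ℝ) + 6 / (S.R : ℝ) ^ (m + n) ≤
      6 / (S.R : ℝ) ^ m := by
    intro n
    induction n with
    | zero => simp
    | succ n ih =>
      have h1 : 1 / (S.N (m + n) : ℝ) ≤ 3 / (S.R : ℝ) ^ (m + n) := by
        rw [← one_div_div _ (3 : ℝ)]
        exact one_div_le_one_div_of_le (by positivity) (S.le_N _)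
      have h2 : 6 / (S.R : ℝ) ^ (m + (n + 1)) ≤ 3 / (S.R : ℝ) ^ (m + n) := by
        rw [← add_assoc, pow_succ, div_le_div_iff₀ (by positivity) (by positivity)]
        have : (0 : ℝ) < (S.R : ℝ) ^ (m + n) := by positivity
        nlinarith
      have h3 : 6 / (S.R : ℝ) ^ (m + n) = 3 / (S.R : ℝ) ^ (m + n) + 3 / (S.R : ℝ) ^ (m + n) := by
        ring
      rw [Finset.sum_range_succ]
      linarith
  rw [← Finset.Ico_add_one_right_eq_Icc, Finset.sum_Ico_eq_sum_range]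
  exact le_trans (le_add_of_nonneg_right (by positivity)) (key _)

end Seq

end Crest.Agent.R113
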