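import Crest.Agent.R113.Orbit1

/-! Row 113, S0149: weights along an orbit, the gauge, and the sliding-average lemma. -/

set_option autoImplicit false

noncomputable section

namespace Crest.Agent.R113

open Finset

/-- Sliding averages: a slowly varying function is almost uncorrelated with `e`. -/
theorem abs_sum_mul_le (n l : ℕ) (hl : 1 ≤ l) (e φ : ℕ → ℝ) (B V : ℝ) (he : ∀ k, |e k| ≤ 1)
    (hB : ∀ k, |φ k| ≤ B) (hV : ∑ k ∈ range (n - 1), |φ (k + 1) - φ k| ≤ V) :
    |∑ k ∈ range n, e k * φ k| ≤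
      √(∑ k ∈ range (n - l), ((∑ j ∈ range l, e (k + j)) / l) ^ 2) * √(∑ k ∈ range n, φ k ^ 2)
        + l * (B + V) := by
  have hB0 : 0 ≤ B := (abs_nonneg _).trans (hB 0)
  have hV0 : 0 ≤ V := (sum_nonneg fun k _ => abs_nonneg _).trans hV
  have hterm : ∀ k, |e k * φ k| ≤ B := fun k => by
    rw [abs_mul]
    calc |e k| * |φ k| ≤ 1 * B := mul_le_mul (he k) (hB k) (abs_nonneg _) zero_le_one
      _ = B := one_mul B
  have hsum : ∀ (a : ℕ) (f : ℕ → ℕ), |∑ k ∈ range a, e (f k) * φ (f k)| ≤ a * B := fun a f => by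
    refine (abs_sum_le_sum_abs _ _).trans ((sum_le_card_nsmul _ _ B fun k _ => hterm _).trans ?_)
    simp
  rcases lt_or_ge n l with hn | hn
  · have h1 := hsum n id
    have h2 : (n : ℝ) ≤ l := by exact_mod_cast hn.le
    have h3 : (n : ℝ) * B ≤ l * (B + V) := mul_le_mul h2 (by linarith) hB0 (by positivity)
    refine le_trans (h1.trans h3) (le_add_of_nonneg_left (by positivity))
  obtain ⟨m, rfl⟩ : ∃ m, n = m + l := ⟨n - l, by omega⟩
  rw [Nat.add_sub_cancel]
  have hvar : ∀ j, j ≤ l → ∑ k ∈ range m, |φ (k + j) - φ k| ≤ j * V := by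
    intro j
    induction j with
    | zero => intro _; simp
    | succ j ih =>
      intro hj
      have h1 := ih (by omega)
      have h2 : ∑ k ∈ range m, |φ (k + j + 1) - φ (k + j)| ≤ V := by
        refine le_trans ?_ hV
        have : ∑ k ∈ range m, |φ (k + j + 1) - φ (k + j)| =
            ∑ k ∈ Ico j (m + j), |φ (k + 1) - φ k| := by
          rw [sum_Ico_eq_sum_range, Nat.add_sub_cancel]
          simp only [add_comm j]
        rw [this]
        refine sum_le_sum_of_subset_of_nonneg (fun k hk => ?_) fun k _ _ => abs_nonneg _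
        rw [mem_Ico] at hk
        rw [mem_range]
        omega
      calc ∑ k ∈ range m, |φ (k + (j + 1)) - φ k|
          ≤ ∑ k ∈ range m, (|φ (k + j + 1) - φ (k + j)| + |φ (k + j) - φ k|) :=
            sum_le_sum fun k _ => abs_sub_le _ _ _
        _ ≤ V + j * V := by rw [sum_add_distrib]; linarith
        _ = _ := by push_cast; ring
  have hj : ∀ j ∈ range l, |∑ k ∈ range (m + l), e k * φ k - ∑ k ∈ range m, e (k + j) * φ k| ≤
      l * (B + V) := by
    intro j hj
    rw [mem_range] at hj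
    obtain ⟨d, rfl⟩ : ∃ d, l = j + d := ⟨l - j, by omega⟩
    have e1 : m + (j + d) = j + m + d := by omega
    rw [e1, sum_range_add, sum_range_add]
    have h1 := hsum j id
    have h2 := hsum d fun k => j + m + k
    have h3 : |∑ k ∈ range m, e (j + k) * φ (j + k) - ∑ k ∈ range m, e (k + j) * φ k| ≤ j * V := by
      refine le_trans ?_ (hvar j hj.le)
      rw [← sum_sub_distrib]
      refine (abs_sum_le_sum_abs _ _).trans (sum_le_sum fun k _ => ?_)
      rw [add_comm j k, ← mul_sub, abs_mul]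
      exact mul_le_of_le_one_left (abs_nonneg _) (he _)
    simp only [id] at h1
    have h4 : (0 : ℝ) ≤ d * V := by positivity
    rw [abs_le] at h1 h2 h3 ⊢
    push_cast
    constructor <;> nlinarith
  have hl0 : (0 : ℝ) < l := by exact_mod_cast hl
  have havg : |∑ k ∈ range (m + l), e k * φ k -
      ∑ k ∈ range m, ((∑ j ∈ range l, e (k + j)) / l) * φ k| ≤ l * (B + V) := by
    have h1 : ∑ k ∈ range (m + l), e k * φ k -
        ∑ k ∈ range m, ((∑ j ∈ range l, e (k + j)) / l) * φ k =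
        (∑ j ∈ range l, (∑ k ∈ range (m + l), e k * φ k - ∑ k ∈ range m, e (k + j) * φ k)) / l := by
      rw [sum_sub_distrib, sum_const, card_range, nsmul_eq_mul, sum_comm, sub_div,
        mul_div_cancel_left₀ _ hl0.ne', sum_div]
      congr 1
      refine sum_congr rfl fun k _ => ?_
      rw [← sum_mul]
      ring
    rw [h1, abs_div, abs_of_pos hl0, div_le_iff₀ hl0]
    refine (abs_sum_le_sum_abs _ _).trans ((sum_le_card_nsmul _ _ _ hj).trans ?_)
    rw [card_range, nsmul_eq_mul, mul_comm]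
  have hcs : |∑ k ∈ range m, ((∑ j ∈ range l, e (k + j)) / l) * φ k| ≤
      √(∑ k ∈ range m, ((∑ j ∈ range l, e (k + j)) / l) ^ 2) *
        √(∑ k ∈ range (m + l), φ k ^ 2) := by
    rw [← Real.sqrt_mul (sum_nonneg fun k _ => sq_nonneg _)]
    refine Real.abs_le_sqrt ((sum_mul_sq_le_sq_mul_sq _ _ _).trans ?_)
    refine mul_le_mul_of_nonneg_left ?_ (sum_nonneg fun k _ => sq_nonneg _)
    exact sum_le_sum_of_subset_of_nonneg (range_mono (Nat.le_add_right _ _))
      fun k _ _ => sq_nonneg _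
  have := abs_sub_abs_le_abs_sub (∑ k ∈ range (m + l), e k * φ k)
    (∑ k ∈ range m, ((∑ j ∈ range l, e (k + j)) / l) * φ k)
  linarith

namespace Sys

variable {θ : ℝ} (S : Sys θ)

/-- The weights along the orbit of `x`. -/
def wt (x : TT) (k : ℕ) : ℝ := S.F (x + k • (θ : TT))

/-- The gauge removing the low costs inside the segments of level `m`. -/
def gauge (m : ℕ) (y : TT) : ℝ :=
  -∑ l ∈ range (S.toSeq.P m y), min (-Real.log (S.F (y + l • (θ : TT)))) (S.Low m)

theorem wt_nonneg (x : TT) (k : ℕ) : 0 ≤ S.wt x k := S.F_nonneg _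

theorem wt_le_one (x : TT) (k : ℕ) : S.wt x k ≤ 1 := S.F_le_one _

theorem one_le_lam (i : ℕ) : 1 ≤ S.lam i := by
  have h1 := S.lam_ge i
  have h2 := S.toSeq.two_le_R
  have h3 : (1 : ℝ) ≤ (S.R : ℝ) ^ i := one_le_pow₀ (by linarith)
  have h4 := S.Low_nonneg i
  have h5 : (0 : ℝ) ≤ i := Nat.cast_nonneg _
  have h6 : 0 ≤ 3 * (S.R : ℝ) ^ i * S.Low i := by positivity
  have h7 : (1 : ℝ) ≤ 3 * (S.R : ℝ) ^ i * S.Low i + 9 * ((S.R : ℝ) ^ i) ^ 2 := by nlinarith
  nlinarith

theorem Gam_mono : Monotone S.Gam := by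
  intro i j hij
  have h2 := S.toSeq.two_le_R
  have h3 : (S.R : ℝ) ^ i ≤ (S.R : ℝ) ^ j := pow_le_pow_right₀ (by linarith) hij
  have h4 := S.Low_mono hij
  have h5 := S.lam_mono hij
  have h6 := S.Low_nonneg i
  unfold Gam
  gcongr

theorem abs_gauge_le (m : ℕ) (y : TT) : |S.gauge m y| ≤ 3 * (S.R : ℝ) ^ m * S.Low m := by
  have h0 := S.Low_nonneg m
  have h1 : ∀ l ∈ range (S.toSeq.P m y),
      |min (-Real.log (S.F (y + l • (θ : TT)))) (S.Low m)| ≤ S.Low m := by
    intro l _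
    have : 0 ≤ -Real.log (S.F (y + l • (θ : TT))) :=
      neg_nonneg.2 (Real.log_nonpos (S.F_nonneg _) (S.F_le_one _))
    rw [abs_of_nonneg (le_min this h0)]
    exact min_le_right _ _
  have h2 : (S.toSeq.P m y : ℝ) ≤ S.toSeq.N m := by exact_mod_cast S.toSeq.P_le_N m y
  unfold gauge
  rw [abs_neg]
  refine (abs_sum_le_sum_abs _ _).trans ((sum_le_card_nsmul _ _ _ h1).trans ?_)
  rw [card_range, nsmul_eq_mul]
  exact mul_le_mul_of_nonneg_right (h2.trans (S.toSeq.N_le m)) h0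

/-- A path that crosses no wall and meets no exceptional site is cheap at every site. -/
theorem le_F_of_free (i t : ℕ) (y : TT) (hA : y ∉ S.toSeq.Aset i t) (hX : y ∉ S.toSeq.Xset i t)
    (l : ℕ) (hl : l < t) : Real.exp (-S.Low i) ≤ S.F (y + l • (θ : TT)) := by
  refine S.F_lo i _ ?_ fun h => hX (Or.inr (Or.inr (Or.inr ⟨l, hl, h⟩)))
  rintro ⟨j, hj, hz⟩
  refine hX (Or.inr (Or.inl ⟨j, hj, ?_⟩))
  have h1 := S.toSeq.lt_of_no_wall1 j t y fun k hk hw => hA ⟨k, hk, j, hj, hw⟩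
  have h2 := S.toSeq.th_pos j
  have h3 : (l : ℝ) * S.th j ≤ t * S.th j :=
    mul_le_mul_of_nonneg_right (by exact_mod_cast hl.le) h2.le
  have hz' : 1 - fr (S.m j • (y + l • (θ : TT))) ≤ 3 * ((j : ℝ) + 1) * S.th j := hz
  rw [S.toSeq.fr_smul_add j l y (h3.trans_lt h1)] at hz'
  show 1 - fr (S.m j • (y + t • (θ : TT))) ≤ 3 * ((j : ℝ) + 1) * S.th j
  rw [S.toSeq.fr_smul_add j t y h1]
  linarith

theorem le_wprod (i t : ℕ) (ht : t ≤ S.toSeq.N i) (x : TT) (k : ℕ)
    (hA : x + k • (θ : TT) ∉ S.toSeq.Aset i t) (hX : x + k • (θ : TT) ∉ S.toSeq.Xset i t) :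
    Real.exp (-(3 * (S.R : ℝ) ^ i * S.Low i)) ≤ wprod (S.wt x) k t := by
  have h1 : ∀ l ∈ range t, Real.exp (-S.Low i) ≤ S.wt x (k + l) := by
    intro l hl
    have := S.le_F_of_free i t _ hA hX l (mem_range.1 hl)
    rwa [add_assoc, ← add_nsmul] at this
  have h2 : (t : ℝ) ≤ 3 * (S.R : ℝ) ^ i :=
    le_trans (by exact_mod_cast ht) (S.toSeq.N_le i)
  calc Real.exp (-(3 * (S.R : ℝ) ^ i * S.Low i)) ≤ Real.exp (t * (-S.Low i)) := by
        rw [Real.exp_le_exp]
        have := mul_le_mul_of_nonneg_right h2 (S.Low_nonneg i)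
        linarith
    _ = ∏ _l ∈ range t, Real.exp (-S.Low i) := by
        rw [prod_const, card_range, Real.exp_nat_mul]
    _ ≤ _ := prod_le_prod (fun _ _ => (Real.exp_pos _).le) h1

/-- A path that starts outside the zones and crosses a wall is expensive. -/
theorem wprod_le (i t : ℕ) (x : TT) (k : ℕ) (hA : x + k • (θ : TT) ∈ S.toSeq.Aset i t)
    (hZ : x + k • (θ : TT) ∉ S.toSeq.Zone i) : wprod (S.wt x) k t ≤ Real.exp (-S.c i) := by
  obtain ⟨l, hl, j, hj, hw⟩ := hA
  obtain ⟨l', h1, h2⟩ := S.F_hi j _ fun hz => hZ ⟨j, hj, hz⟩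
  have hth := S.toSeq.th_pos j
  have h3 : l' ≤ l := by
    by_contra hc
    have h4 : ((l : ℝ) + 1) * S.th j ≤ l' * S.th j :=
      mul_le_mul_of_nonneg_right (by exact_mod_cast Nat.lt_of_not_le hc) hth.le
    have hw' : 1 - fr (S.m j • (x + k • (θ : TT) + l • (θ : TT))) ≤ S.th j := hw
    rw [S.toSeq.fr_smul_add j l _ (by linarith)] at hw'
    linarith
  rw [add_assoc, ← add_nsmul] at h2
  have h5 : l' ∈ range t := mem_range.2 (by omega)
  unfold wprod
  rw [← mul_prod_erase _ _ h5]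
  calc S.wt x (k + l') * ∏ a ∈ (range t).erase l', S.wt x (k + a) ≤ S.wt x (k + l') :=
        mul_le_of_le_one_right (S.wt_nonneg _ _)
          (prod_le_one (fun _ _ => S.wt_nonneg _ _) fun _ _ => S.wt_le_one _ _)
    _ ≤ Real.exp (-S.c j) := h2
    _ ≤ Real.exp (-S.c i) := Real.exp_le_exp.2 (neg_le_neg (S.c_mono hj))

/-- Inside a segment the gauge removes the weights. -/
theorem gauge_wprod (m s : ℕ) (x : TT) (k : ℕ) (hA : x + k • (θ : TT) ∉ S.toSeq.Aset m s)
    (hX : x + k • (θ : TT) ∉ S.toSeq.Xset m s) :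
    Real.exp (S.gauge m (x + (k + s) • (θ : TT)) - S.gauge m (x + k • (θ : TT))) *
      wprod (S.wt x) k s = 1 := by
  have h1 : s < S.toSeq.P m (x + k • (θ : TT)) := by
    by_contra hc
    exact hA ((S.toSeq.mem_Aset_iff m s _).2 (Nat.le_of_not_lt hc))
  have h2 := S.toSeq.P_add m s _ h1
  have h3 : ∀ l ∈ range s, Real.exp (-S.Low m) ≤ S.wt x (k + l) := by
    intro l hl
    have := S.le_F_of_free m s _ hA hX l (mem_range.1 hl)
    rwa [add_assoc, ← add_nsmul] at this
  have h4 : S.gauge m (x + (k + s) • (θ : TT)) - S.gauge m (x + k • (θ : TT)) =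
      ∑ l ∈ range s, -Real.log (S.wt x (k + l)) := by
    unfold gauge
    rw [add_nsmul, ← add_assoc, ← h2, add_comm (S.toSeq.P m _) s, sum_range_add]
    simp only [add_nsmul, ← add_assoc]
    rw [neg_sub_neg, add_sub_cancel_right]
    refine sum_congr rfl fun l hl => ?_
    have h5 := h3 l hl
    have h6 : -S.Low m ≤ Real.log (S.wt x (k + l)) :=
      (Real.le_log_iff_exp_le ((Real.exp_pos _).trans_le h5)).2 h5
    have h7 : S.wt x (k + l) = S.F (x + k • (θ : TT) + l • (θ : TT)) := by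
      rw [wt, add_nsmul, add_assoc]
    rw [← h7]
    exact min_eq_left (by linarith)
  rw [h4, Real.exp_sum, wprod, ← prod_mul_distrib]
  refine prod_eq_one fun l hl => ?_
  have h5 : 0 < S.wt x (k + l) := (Real.exp_pos _).trans_le (h3 l hl)
  rw [Real.exp_neg, Real.exp_log h5, inv_mul_cancel₀ h5.ne']

end Sys

end Crest.Agent.R113
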