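import Crest.Agent.R113.FinTilt
import Crest.Agent.R113.FinTest
import Crest.Agent.R113.Orbit2

/-! Row 113, S0149: the tests along one orbit segment. -/

set_option autoImplicit false

noncomputable section

namespace Crest.Agent.R113

open Finset

theorem ind_eq_ite (A : Set TT) (y : TT) [Decidable (y ∈ A)] :
    ind A y = if y ∈ A then 1 else 0 := by
  split_ifs with h
  · exact ind_of_mem h
  · exact ind_of_notMem h

theorem sum_sub_shift_le (n t : ℕ) (g : ℕ → ℝ) (h0 : ∀ k, 0 ≤ g k) (h1 : ∀ k, g k ≤ 1) :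
    ∑ k ∈ range n, (g (k + t) - g k) ≤ t := by
  have e1 : ∑ k ∈ range (t + n), g k = ∑ k ∈ range t, g k + ∑ k ∈ range n, g (k + t) := by
    rw [sum_range_add]
    congr 1
    exact sum_congr rfl fun k _ => by rw [add_comm]
  have e2 : ∑ k ∈ range (t + n), g k = ∑ k ∈ range n, g k + ∑ k ∈ range t, g (n + k) := by
    rw [add_comm t n, sum_range_add]
  have h3 : 0 ≤ ∑ k ∈ range t, g k := sum_nonneg fun k _ => h0 k
  have h4 : ∑ k ∈ range t, g (n + k) ≤ t := by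
    calc ∑ k ∈ range t, g (n + k) ≤ ∑ k ∈ range t, (1 : ℝ) := sum_le_sum fun k _ => h1 _
      _ = t := by simp
  rw [sum_sub_distrib]
  linarith

theorem card_filter_le_add (n t : ℕ) :
    ((univ.filter fun k : Fin n => n ≤ (k : ℕ) + t).card : ℝ) ≤ t := by
  have : (univ.filter fun k : Fin n => n ≤ (k : ℕ) + t).card ≤ (range t).card := by
    refine card_le_card_of_injOn (fun k => n - 1 - (k : ℕ)) ?_ ?_
    · intro k hk
      have hk' : n ≤ (k : ℕ) + t := by simpa using hk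
      have := k.2
      simp only [coe_range, Set.mem_Iio]
      omega
    · intro k _ l _ hkl
      have h1 := k.2
      have h2 := l.2
      simp only at hkl
      exact Fin.ext (by omega)
  rw [card_range] at this
  exact_mod_cast this

/-- Symmetric kernels: enlarging the set. -/
theorem sum_kernel_union {ι : Type} [Fintype ι] [DecidableEq ι] (K : ι → ι → ℝ)
    (hK0 : ∀ k l, 0 ≤ K k l) (hs : ∀ k l, K k l = K l k) (h1 : ∀ k, ∑ l, K k l ≤ 1)
    (A B : Finset ι) :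
    ∑ k ∈ A ∪ B, ∑ l ∈ A ∪ B, K k l ≤ ∑ k ∈ A, ∑ l ∈ A, K k l + 2 * B.card := by
  have hrow : ∀ k (C : Finset ι), ∑ l ∈ C, K k l ≤ 1 := fun k C =>
    (sum_le_sum_of_subset_of_nonneg (subset_univ C) fun l _ _ => hK0 k l).trans (h1 k)
  have hun : ∀ f : ι → ℝ, (∀ k, 0 ≤ f k) → ∑ k ∈ A ∪ B, f k ≤ ∑ k ∈ A, f k + ∑ k ∈ B, f k := by
    intro f hf
    have := sum_union_inter (s₁ := A) (s₂ := B) (f := f)
    have h2 : 0 ≤ ∑ k ∈ A ∩ B, f k := sum_nonneg fun k _ => hf k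
    linarith
  have a1 := hun (fun k => ∑ l ∈ A ∪ B, K k l) fun k => sum_nonneg fun l _ => hK0 k l
  have a2 : ∑ k ∈ B, ∑ l ∈ A ∪ B, K k l ≤ B.card := by
    calc ∑ k ∈ B, ∑ l ∈ A ∪ B, K k l ≤ ∑ k ∈ B, (1 : ℝ) := sum_le_sum fun k _ => hrow k _
      _ = B.card := by simp
  have a3 : ∑ k ∈ A, ∑ l ∈ A ∪ B, K k l ≤ ∑ k ∈ A, (∑ l ∈ A, K k l + ∑ l ∈ B, K k l) :=
    sum_le_sum fun k _ => hun (K k) (hK0 k)
  have a4 : ∑ k ∈ A, ∑ l ∈ B, K k l ≤ B.card := by
    rw [sum_comm]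
    calc ∑ l ∈ B, ∑ k ∈ A, K k l ≤ ∑ l ∈ B, (1 : ℝ) := sum_le_sum fun l _ => by
          simp_rw [hs _ l]; exact hrow l A
      _ = B.card := by simp
  rw [sum_add_distrib] at a3
  linarith

theorem sum_kernel_abs {ι : Type} [Fintype ι] [DecidableEq ι] (K : ι → ι → ℝ) (d : ι → ℝ)
    (hs : ∀ k l, K k l = K l k) (h1 : ∀ k, ∑ l, K k l = d k) (A : Finset ι) (e : ι → ℝ)
    (he : ∀ k, e k = if k ∈ A then 1 else 0) :
    ∑ k, ∑ l, K k l * |e k - e l| = 2 * (∑ k, d k * e k - ∑ k ∈ A, ∑ l ∈ A, K k l) := by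
  have habs : ∀ k l, |e k - e l| = e k + e l - 2 * (e k * e l) := by
    intro k l
    rw [he k, he l]
    split_ifs <;> norm_num
  have b1 : ∑ k, ∑ l, K k l * e k = ∑ k, d k * e k :=
    sum_congr rfl fun k _ => by rw [← sum_mul, h1]
  have b2 : ∑ k, ∑ l, K k l * e l = ∑ k, d k * e k := by
    rw [sum_comm]
    exact sum_congr rfl fun l _ => by simp_rw [hs _ l]; rw [← sum_mul, h1]
  have b3 : ∑ k, ∑ l, K k l * (e k * e l) = ∑ k ∈ A, ∑ l ∈ A, K k l := by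
    have : ∀ k, ∑ l, K k l * (e k * e l) = if k ∈ A then ∑ l ∈ A, K k l else 0 := by
      intro k
      simp_rw [he]
      split_ifs with hk
      · simp [sum_ite_mem]
      · simp
    simp_rw [this]
    simp [sum_ite_mem]
  simp_rw [habs]
  have : ∀ k l, K k l * (e k + e l - 2 * (e k * e l)) =
      K k l * e k + K k l * e l - 2 * (K k l * (e k * e l)) := fun k l => by ring
  simp_rw [this, sum_sub_distrib, sum_add_distrib, ← mul_sum]
  rw [b1, b2, b3]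
  ring

namespace Sys

variable {θ : ℝ} (S : Sys θ)

theorem tiny_le (m i : ℕ) (hi : m ≤ i) :
    Real.exp (-S.c i) * Real.exp (2 * S.Gam m) /
      (Real.exp (-(3 * (S.R : ℝ) ^ i * S.Low i)) * √((1 / 2 ^ i) ^ 2 : ℝ)) ≤ 1 / 2 ^ i := by
  have h2 : (0 : ℝ) < 1 / 2 ^ i := by positivity
  rw [Real.sqrt_sq h2.le, div_le_iff₀ (by positivity)]
  have hG := S.Gam_mono hi
  have hc := S.c_ge i
  have hl := S.one_le_lam i
  have hL : 0 ≤ (S.R : ℝ) ^ i * S.Low i := mul_nonneg (by positivity) (S.Low_nonneg i)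
  have hG' : S.Gam i = 3 * (S.R : ℝ) ^ i * S.Low i + 3 * S.lam i := rfl
  have e1 : (4 : ℝ) ^ i ≤ Real.exp (2 * i) := by
    have : (4 : ℝ) ≤ Real.exp 2 := by
      have h := Real.add_one_le_exp (1 : ℝ)
      have : Real.exp 2 = Real.exp 1 * Real.exp 1 := by rw [← Real.exp_add]; norm_num
      nlinarith
    calc (4 : ℝ) ^ i ≤ (Real.exp 2) ^ i := pow_le_pow_left₀ (by norm_num) this i
      _ = Real.exp (2 * i) := by rw [← Real.exp_nat_mul]; ring_nf
  have e2 : (1 / 2 ^ i : ℝ) * (Real.exp (-(3 * (S.R : ℝ) ^ i * S.Low i)) * (1 / 2 ^ i)) =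
      Real.exp (-(3 * (S.R : ℝ) ^ i * S.Low i)) / 4 ^ i := by
    have : (4 : ℝ) ^ i = 2 ^ i * 2 ^ i := by rw [← mul_pow]; norm_num
    rw [this]; field_simp
  rw [e2, le_div_iff₀ (by positivity)]
  calc Real.exp (-S.c i) * Real.exp (2 * S.Gam m) * 4 ^ i
      ≤ Real.exp (-S.c i) * Real.exp (2 * S.Gam m) * Real.exp (2 * i) := by gcongr
    _ = Real.exp (-S.c i + 2 * S.Gam m + 2 * i) := by rw [Real.exp_add, Real.exp_add]
    _ ≤ _ := Real.exp_le_exp.mpr (by nlinarith)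

/-- The constant multiplying the leakage in the tests up to class `M`. -/
def Kt (m M : ℕ) : ℝ :=
  Real.exp (4 * S.Gam m) * (3 * (S.R : ℝ) ^ M) ^ 2 /
    (Real.exp (-(3 * (S.R : ℝ) ^ M * S.Low M)) ^ 2 * (1 / 2 ^ M) ^ 2)

theorem Kt_pos (m M : ℕ) : 0 < S.Kt m M := by
  have := S.toSeq.two_le_R
  unfold Kt
  positivity

theorem N_le_pow {i M : ℕ} (hM : i ≤ M) : (S.toSeq.N i : ℝ) ≤ 3 * (S.R : ℝ) ^ M := by
  have h2 := S.toSeq.two_le_R
  have := S.toSeq.N_le i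
  have h3 : (S.R : ℝ) ^ i ≤ (S.R : ℝ) ^ M := pow_le_pow_right₀ (by linarith) hM
  linarith

theorem test_one (m M i t n : ℕ) (hi : m ≤ i) (hM : i ≤ M) (ht : t ≤ S.toSeq.N i) (x : TT)
    (W : Submodule ℂ (EE (Fin n))) (ψ : Fin n → ℝ) (hψ : ∀ k, |ψ k| ≤ S.Gam m) (ρ : ℝ)
    (hE : leak W (mop (shiftM n (S.wt x))) W ≤ ρ * n) :
    ∑ k : Fin n, ∑ l : Fin n, ker2 (tilt W ψ) k l *
        |ind (S.toSeq.Aset i t) (x + (k : ℕ) • (θ : TT)) -
          ind (S.toSeq.Aset i t) (x + (l : ℕ) • (θ : TT))| ≤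
      2 * (∑ k : Fin n, (dg (tilt W ψ) k - dg W k) * ind (S.toSeq.Aset i t) (x + (k : ℕ) • (θ : TT))
        + ∑ k : Fin n, dg W k * (ind (S.toSeq.Aset i t) (x + (k : ℕ) • (θ : TT)) -
            ind (S.toSeq.Aset i t) (x + (k : ℕ) • (θ : TT) - t • (θ : TT)))
        + 3 * ∑ k : Fin n, ind (S.toSeq.Xset i t) (x + (k : ℕ) • (θ : TT))
        + 6 / 2 ^ i * n + (6 * (S.R : ℝ) ^ M + 2 * n * √(S.Kt m M * ρ))) := by
  classical
  set y : Fin n → TT := fun k => x + (k : ℕ) • (θ : TT) with hy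
  set A : Finset (Fin n) := univ.filter fun k => y k ∈ S.toSeq.Aset i t with hA
  set X : Finset (Fin n) := univ.filter fun k => y k ∈ S.toSeq.Xset i t with hX
  set Bd : Finset (Fin n) := univ.filter fun k : Fin n => n ≤ (k : ℕ) + t with hBd
  set A' : Finset (Fin n) := univ.filter fun k =>
    y k - t • (θ : TT) ∈ S.toSeq.Aset i t ∧ y k ∉ S.toSeq.Xset i t with hA'
  have h2R := S.toSeq.two_le_R
  have key := test_shift W (S.wt x) (S.wt_nonneg x) (S.wt_le_one x) ψ (S.Gam m) hψ t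
    (A ∪ (X ∪ Bd)) A' (Real.exp (-(3 * (S.R : ℝ) ^ i * S.Low i))) (Real.exp (-S.c i))
    ((1 / 2 ^ i) ^ 2) (Real.exp_pos _) (Real.exp_pos _).le (by positivity)
    (by
      intro k hk
      simp only [hA, hX, hBd, mem_union, mem_filter, mem_univ, true_and, not_or, not_le] at hk
      exact ⟨hk.2.2, S.le_wprod i t ht x k hk.1 hk.2.1⟩)
    (by
      intro k h hk
      simp only [hA', mem_filter, mem_univ, true_and, hy] at hk
      have e : x + (k + t) • (θ : TT) - t • (θ : TT) = x + k • (θ : TT) := by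
        rw [add_nsmul]; abel
      refine S.wprod_le i t x k (e ▸ hk.1) fun hZ => hk.2 ?_
      right; right; left
      rw [e]; exact hZ)
  have u1 := sum_kernel_union (ker2 (tilt W ψ)) (ker2_nonneg _) (ker2_symm _)
    (fun k => by rw [sum_ker2]; exact dg_le_one _ k) A (X ∪ Bd)
  have cX : (X.card : ℝ) = ∑ k : Fin n, ind (S.toSeq.Xset i t) (y k) := by
    simp_rw [ind_eq_ite]
    rw [hX, card_filter]
    push_cast
    rfl
  have cU : ((X ∪ Bd).card : ℝ) ≤ X.card + t := by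
    have h1 : ((X ∪ Bd).card : ℝ) ≤ X.card + Bd.card := by exact_mod_cast card_union_le X Bd
    have h2 := card_filter_le_add n t
    linarith
  have u2 := sum_kernel_abs (ker2 (tilt W ψ)) (dg (tilt W ψ)) (ker2_symm _) (sum_ker2 _) A
    (fun k => ind (S.toSeq.Aset i t) (y k)) (fun k => by simp [ind_eq_ite, hA])
  have u3 : ∑ k : Fin n, dg W k * ind (S.toSeq.Aset i t) (y k - t • (θ : TT)) ≤
      ∑ k ∈ A', dg W k + ∑ k : Fin n, ind (S.toSeq.Xset i t) (y k) := by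
    rw [hA', sum_filter, ← sum_add_distrib]
    refine sum_le_sum fun k _ => ?_
    have h1 := dg_le_one W k
    simp only [ind_eq_ite]
    by_cases ha : y k - t • (θ : TT) ∈ S.toSeq.Aset i t <;>
      by_cases hx : y k ∈ S.toSeq.Xset i t <;> simp [ha, hx, h1]
  have hn : (0 : ℝ) ≤ n := Nat.cast_nonneg n
  have t1 : 4 * ((1 : ℝ) / 2 ^ i) ^ 2 * n ≤ 4 / 2 ^ i * n := by
    have h1 : (1 : ℝ) / 2 ^ i ≤ 1 := by
      rw [div_le_one (by positivity)]; exact one_le_pow₀ (by norm_num)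
    have h0 : (0 : ℝ) ≤ 1 / 2 ^ i := by positivity
    have : ((1 : ℝ) / 2 ^ i) ^ 2 ≤ 1 / 2 ^ i := by nlinarith
    have e : (4 : ℝ) / 2 ^ i = 4 * (1 / 2 ^ i) := by ring
    rw [e]
    gcongr
  have t2 := mul_le_mul_of_nonneg_left (S.tiny_le m i hi) (by positivity : (0 : ℝ) ≤ 2 * n)
  have tN : (t : ℝ) ≤ 3 * (S.R : ℝ) ^ M := le_trans (by exact_mod_cast ht) (S.N_le_pow hM)
  have t3 : √(n * (Real.exp (4 * S.Gam m) * (t : ℝ) ^ 2 * leak W (mop (shiftM n (S.wt x))) W /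
      (Real.exp (-(3 * (S.R : ℝ) ^ i * S.Low i)) ^ 2 * (1 / 2 ^ i) ^ 2))) ≤
      n * √(S.Kt m M * ρ) := by
    have hl0 := leak_nonneg W (mop (shiftM n (S.wt x))) W
    have hK : Real.exp (4 * S.Gam m) * (t : ℝ) ^ 2 /
        (Real.exp (-(3 * (S.R : ℝ) ^ i * S.Low i)) ^ 2 * (1 / 2 ^ i) ^ 2) ≤ S.Kt m M := by
      unfold Kt
      have h3 : (S.R : ℝ) ^ i ≤ (S.R : ℝ) ^ M := pow_le_pow_right₀ (by linarith) hM
      have h4 := S.Low_mono hM
      have h5 := S.Low_nonneg i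
      have h6 : (2 : ℝ) ^ i ≤ 2 ^ M := pow_le_pow_right₀ (by norm_num) hM
      gcongr
    have hK0 := (S.Kt_pos m M).le
    calc _ ≤ √(n * (S.Kt m M * (ρ * n))) := by
          apply Real.sqrt_le_sqrt
          rw [mul_div_right_comm]
          gcongr
      _ = √((n : ℝ) ^ 2 * (S.Kt m M * ρ)) := by congr 1; ring
      _ = n * √(S.Kt m M * ρ) := by rw [Real.sqrt_mul (by positivity), Real.sqrt_sq hn]
  have e6 : (6 : ℝ) / 2 ^ i * n = 4 / 2 ^ i * n + 2 * n * (1 / 2 ^ i) := by ring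
  simp only [mul_sub, sub_mul, sum_sub_distrib]
  simp only [hy] at u2 u3 cX
  rw [u2]
  linarith

end Sys

end Crest.Agent.R113
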