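import Crest.Agent.R113.OrbitA

/-! Row 113, S0149: averaged tests along one orbit segment. -/

set_option autoImplicit false

noncomputable section

namespace Crest.Agent.R113

open Finset

theorem slide {n : ℕ} (W : Submodule ℂ (EE (Fin n))) (d : ℕ → ℝ) (hd : ∀ k : Fin n, d k = dg W k)
    (l : ℕ) (hl : 1 ≤ l) (α η : ℝ) (hα0 : 0 ≤ α) (hα1 : α ≤ 1) (hη : 0 ≤ η)
    (hloc : ∑ k ∈ range (n - l), ((∑ j ∈ range l, d (k + j)) / l - α) ^ 2 ≤ η * n)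
    (φ : ℕ → ℝ) (B V C : ℝ) (hC : 0 ≤ C) (hB : ∀ k, |φ k| ≤ B)
    (hV : ∑ k ∈ range (n - 1), |φ (k + 1) - φ k| ≤ V) (hφ : ∑ k ∈ range n, φ k ^ 2 ≤ C * n) :
    |∑ k : Fin n, (dg W k - α) * φ k| ≤ √η * √C * n + l * (B + V) := by
  set e : ℕ → ℝ := fun k => if k < n then d k - α else 0 with he
  have he1 : ∀ k, |e k| ≤ 1 := by
    intro k
    simp only [he]
    split_ifs with h
    · have := hd ⟨k, h⟩
      have h0 := dg_nonneg W ⟨k, h⟩
      have h1 := dg_le_one W ⟨k, h⟩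
      simp only at this
      rw [this, abs_le]; constructor <;> linarith
    · simp
  have key := abs_sum_mul_le n l hl e φ B V he1 hB hV
  have e1 : ∑ k : Fin n, (dg W k - α) * φ k = ∑ k ∈ range n, e k * φ k := by
    rw [← Fin.sum_univ_eq_sum_range (fun k => e k * φ k) n]
    refine sum_congr rfl fun k _ => ?_
    simp only [he, k.2, if_true, hd k]
  have hl0 : (0 : ℝ) < l := by exact_mod_cast hl
  have e2 : ∑ k ∈ range (n - l), ((∑ j ∈ range l, e (k + j)) / l) ^ 2 =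
      ∑ k ∈ range (n - l), ((∑ j ∈ range l, d (k + j)) / l - α) ^ 2 := by
    refine sum_congr rfl fun k hk => ?_
    have hk' := mem_range.mp hk
    have : ∑ j ∈ range l, e (k + j) = ∑ j ∈ range l, d (k + j) - l * α := by
      rw [sum_congr rfl (g := fun j => d (k + j) - α)]
      · rw [sum_sub_distrib]; simp
      · intro j hj
        have := mem_range.mp hj
        simp only [he]
        rw [if_pos (by omega)]
    rw [this]
    congr 1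
    field_simp
  rw [e1]
  rw [e2] at key
  have hn : (0 : ℝ) ≤ n := Nat.cast_nonneg n
  have s1 := Real.sqrt_le_sqrt hloc
  have s2 := Real.sqrt_le_sqrt hφ
  have s3 : √(η * n) * √(C * n) = √η * √C * n := by
    rw [Real.sqrt_mul hη, Real.sqrt_mul hC]
    have := Real.mul_self_sqrt hn
    calc √η * √(n : ℝ) * (√C * √(n : ℝ)) = √η * √C * (√(n : ℝ) * √(n : ℝ)) := by ring
      _ = _ := by rw [this]
  have s4 := mul_le_mul s1 s2 (Real.sqrt_nonneg _) (Real.sqrt_nonneg _)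
  linarith

theorem sum_Icc_inv_two_pow (m M : ℕ) : ∑ i ∈ Icc m M, (1 : ℝ) / 2 ^ i ≤ 2 / 2 ^ m := by
  have key : ∀ k : ℕ, ∑ i ∈ Icc m (m + k), (1 : ℝ) / 2 ^ i ≤ 2 / 2 ^ m - 1 / 2 ^ (m + k) := by
    intro k
    induction k with
    | zero => simp; ring_nf; rfl
    | succ k ih =>
      rw [← add_assoc, sum_Icc_succ_top (by omega), pow_succ]
      have : (1 : ℝ) / 2 ^ (m + k) = 2 * (1 / (2 ^ (m + k) * 2)) := by field_simp
      linarith
  by_cases h : m ≤ M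
  · obtain ⟨k, rfl⟩ := Nat.exists_eq_add_of_le h
    have := key k
    have h2 : (0 : ℝ) ≤ 1 / 2 ^ (m + k) := by positivity
    linarith
  · rw [Icc_eq_empty h]
    simp only [sum_empty]
    positivity

namespace Sys

variable {θ : ℝ} (S : Sys θ)

theorem N_pos' (i : ℕ) : (0 : ℝ) < S.toSeq.N i := by exact_mod_cast S.toSeq.N_pos i

theorem sum_Xi1_le (M i n : ℕ) (hM : i ≤ M) (x : TT) :
    ∑ k : Fin n, S.toSeq.Xi1 i (x + (k : ℕ) • (θ : TT)) ≤ 3 * (S.R : ℝ) ^ M := by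
  have hN := S.N_pos' i
  unfold Seq.Xi1
  rw [← sum_div, sum_comm, div_le_iff₀ hN]
  have h1 : ∀ t ∈ Icc 1 (S.toSeq.N i), ∑ k : Fin n,
      (ind (S.toSeq.Aset i t) (x + (k : ℕ) • (θ : TT)) -
        ind (S.toSeq.Aset i t) (x + (k : ℕ) • (θ : TT) - t • (θ : TT))) ≤ 3 * (S.R : ℝ) ^ M := by
    intro t ht
    have key := sum_sub_shift_le n t
      (fun j => ind (S.toSeq.Aset i t) (x - t • (θ : TT) + j • (θ : TT)))
      (fun _ => ind_nonneg _ _) (fun _ => ind_le_one _ _)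
    rw [← Fin.sum_univ_eq_sum_range (fun k => ind (S.toSeq.Aset i t)
      (x - t • (θ : TT) + (k + t) • (θ : TT)) -
        ind (S.toSeq.Aset i t) (x - t • (θ : TT) + k • (θ : TT))) n] at key
    have tN : (t : ℝ) ≤ 3 * (S.R : ℝ) ^ M :=
      le_trans (by exact_mod_cast (mem_Icc.mp ht).2) (S.N_le_pow hM)
    refine le_trans (le_of_eq (sum_congr rfl fun k _ => ?_)) (key.trans tN)
    congr 2
    · rw [add_nsmul]; abel
    · abel
  calc _ ≤ ∑ t ∈ Icc 1 (S.toSeq.N i), 3 * (S.R : ℝ) ^ M := sum_le_sum h1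
    _ = _ := by simp [mul_comm]

theorem avg_test (m M i n : ℕ) (hi : m ≤ i) (hM : i ≤ M) (x : TT)
    (W : Submodule ℂ (EE (Fin n))) (ψ : Fin n → ℝ) (hψ : ∀ k, |ψ k| ≤ S.Gam m) (ρ : ℝ)
    (hE : leak W (mop (shiftM n (S.wt x))) W ≤ ρ * n) :
    ∑ k : Fin n, ∑ l : Fin n, ker2 (tilt W ψ) k l *
        (|(S.toSeq.P i (x + (k : ℕ) • (θ : TT)) : ℝ) -
          (S.toSeq.P i (x + (l : ℕ) • (θ : TT)) : ℝ)| / S.toSeq.N i) ≤
      2 * (∑ k : Fin n, (dg (tilt W ψ) k - dg W k) * S.toSeq.NN1 i (x + (k : ℕ) • (θ : TT))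
        + ∑ k : Fin n, dg W k * S.toSeq.Xi1 i (x + (k : ℕ) • (θ : TT))
        + 3 * ∑ k : Fin n, S.toSeq.Exc1 i (x + (k : ℕ) • (θ : TT))
        + 6 / 2 ^ i * n + (6 * (S.R : ℝ) ^ M + 2 * n * √(S.Kt m M * ρ))) := by
  have hN := S.N_pos' i
  have key := sum_le_sum (s := Icc 1 (S.toSeq.N i)) fun t ht =>
    S.test_one m M i t n hi hM (mem_Icc.mp ht).2 x W ψ hψ ρ hE
  rw [← mul_sum] at key
  simp only [sum_add_distrib, sum_const, Nat.card_Icc, add_tsub_cancel_right, nsmul_eq_mul]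
    at key
  have a0 : ∑ k : Fin n, ∑ l : Fin n, ker2 (tilt W ψ) k l *
        (|(S.toSeq.P i (x + (k : ℕ) • (θ : TT)) : ℝ) -
          (S.toSeq.P i (x + (l : ℕ) • (θ : TT)) : ℝ)| / S.toSeq.N i) =
      (∑ t ∈ Icc 1 (S.toSeq.N i), ∑ k : Fin n, ∑ l : Fin n, ker2 (tilt W ψ) k l *
        |ind (S.toSeq.Aset i t) (x + (k : ℕ) • (θ : TT)) -
          ind (S.toSeq.Aset i t) (x + (l : ℕ) • (θ : TT))|) / S.toSeq.N i := by
    rw [sum_comm (s := Icc 1 (S.toSeq.N i)), sum_div]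
    refine sum_congr rfl fun k _ => ?_
    rw [sum_comm (s := Icc 1 (S.toSeq.N i)), sum_div]
    refine sum_congr rfl fun l _ => ?_
    rw [← mul_sum, S.toSeq.sum_abs_ind_Aset, mul_div_assoc]
  have a1 : ∑ k : Fin n, (dg (tilt W ψ) k - dg W k) * S.toSeq.NN1 i (x + (k : ℕ) • (θ : TT)) =
      (∑ t ∈ Icc 1 (S.toSeq.N i), ∑ k : Fin n, (dg (tilt W ψ) k - dg W k) *
        ind (S.toSeq.Aset i t) (x + (k : ℕ) • (θ : TT))) / S.toSeq.N i := by
    rw [sum_comm (s := Icc 1 (S.toSeq.N i)), sum_div]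
    refine sum_congr rfl fun k _ => ?_
    rw [← mul_sum, Seq.NN1, mul_div_assoc]
  have a2 : ∑ k : Fin n, dg W k * S.toSeq.Xi1 i (x + (k : ℕ) • (θ : TT)) =
      (∑ t ∈ Icc 1 (S.toSeq.N i), ∑ k : Fin n, dg W k *
        (ind (S.toSeq.Aset i t) (x + (k : ℕ) • (θ : TT)) -
          ind (S.toSeq.Aset i t) (x + (k : ℕ) • (θ : TT) - t • (θ : TT)))) / S.toSeq.N i := by
    rw [sum_comm (s := Icc 1 (S.toSeq.N i)), sum_div]
    refine sum_congr rfl fun k _ => ?_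
    rw [← mul_sum, Seq.Xi1, mul_div_assoc]
  have a3 : ∑ k : Fin n, S.toSeq.Exc1 i (x + (k : ℕ) • (θ : TT)) =
      (∑ t ∈ Icc 1 (S.toSeq.N i), ∑ k : Fin n,
        ind (S.toSeq.Xset i t) (x + (k : ℕ) • (θ : TT))) / S.toSeq.N i := by
    rw [sum_comm (s := Icc 1 (S.toSeq.N i)), sum_div]
    rfl
  rw [← mul_sum] at key
  rw [a0, a1, a2, a3, div_le_iff₀ hN]
  refine key.trans (le_of_eq ?_)
  field_simp

theorem sum_Exc1_le (m M i n : ℕ) (hi : m ≤ i) (hM : i ≤ M) (x : TT) :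
    ∑ k : Fin n, S.toSeq.Exc1 i (x + (k : ℕ) • (θ : TT)) ≤
      ∑ k ∈ range n, S.toSeq.Exc m M (x + k • (θ : TT)) := by
  rw [← Fin.sum_univ_eq_sum_range (fun k => S.toSeq.Exc m M (x + k • (θ : TT))) n]
  refine sum_le_sum fun k _ => ?_
  exact single_le_sum (f := fun i => S.toSeq.Exc1 i (x + (k : ℕ) • (θ : TT)))
    (fun j _ => S.toSeq.Exc1_nonneg j _) (mem_Icc.mpr ⟨hi, hM⟩)

theorem Exc_nonneg (m M : ℕ) (y : TT) : 0 ≤ S.toSeq.Exc m M y :=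
  sum_nonneg fun j _ => S.toSeq.Exc1_nonneg j _

theorem succ_orbit (x : TT) (k : ℕ) :
    x + (k + 1) • (θ : TT) = x + k • (θ : TT) + (θ : TT) := by
  rw [succ_nsmul, add_assoc]

/-- Total variation of `Xi1` along the orbit. -/
theorem tv_Xi1 (i n : ℕ) (x : TT) :
    ∑ k ∈ range (n - 1), |S.toSeq.Xi1 i (x + (k + 1) • (θ : TT)) -
        S.toSeq.Xi1 i (x + k • (θ : TT))| ≤
      2 / S.toSeq.N i * n + 2 * ∑ k : Fin n, S.toSeq.Exc1 i (x + (k : ℕ) • (θ : TT)) := by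
  have hN := S.N_pos' i
  rw [Fin.sum_univ_eq_sum_range (fun k => S.toSeq.Exc1 i (x + k • (θ : TT))) n]
  calc _ ≤ ∑ k ∈ range n, |S.toSeq.Xi1 i (x + (k + 1) • (θ : TT)) -
        S.toSeq.Xi1 i (x + k • (θ : TT))| :=
        sum_le_sum_of_subset_of_nonneg (range_subset_range.mpr (Nat.sub_le _ _))
          fun _ _ _ => abs_nonneg _
    _ ≤ ∑ k ∈ range n, (2 / (S.toSeq.N i : ℝ) + 2 * S.toSeq.Exc1 i (x + k • (θ : TT))) :=
        sum_le_sum fun k _ => by rw [succ_orbit]; exact S.toSeq.abs_Xi1_step i _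
    _ = _ := by rw [sum_add_distrib, ← mul_sum]; simp [mul_comm]

theorem sum_p_Xi1 (m M n l : ℕ) (hmM : m ≤ M) (hl : 1 ≤ l) (x : TT)
    (W : Submodule ℂ (EE (Fin n)))
    (d : ℕ → ℝ) (hd : ∀ k : Fin n, d k = dg W k) (α η ξ : ℝ) (hα0 : 0 ≤ α) (hα1 : α ≤ 1)
    (hη : 0 ≤ η) (hloc : ∑ k ∈ range (n - l), ((∑ j ∈ range l, d (k + j)) / l - α) ^ 2 ≤ η * n)
    (hExc : ∑ k ∈ range n, S.toSeq.Exc m M (x + k • (θ : TT)) ≤ ξ * n) :
    ∑ k : Fin n, dg W k * S.toSeq.Xi1 m (x + (k : ℕ) • (θ : TT)) ≤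
      √η * n + l * (1 + (6 / (S.R : ℝ) ^ m * n + 2 * (ξ * n))) + 3 * (S.R : ℝ) ^ M := by
  have hN := S.N_pos' m
  have h2R := S.toSeq.two_le_R
  have hn : (0 : ℝ) ≤ n := Nat.cast_nonneg n
  have hV : ∑ k ∈ range (n - 1), |S.toSeq.Xi1 m (x + (k + 1) • (θ : TT)) -
      S.toSeq.Xi1 m (x + k • (θ : TT))| ≤ 6 / (S.R : ℝ) ^ m * n + 2 * (ξ * n) := by
    have h1 := S.tv_Xi1 m n x
    have h2 := S.sum_Exc1_le m M m n le_rfl hmM x
    have h3 : 2 / (S.toSeq.N m : ℝ) ≤ 6 / (S.R : ℝ) ^ m := by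
      have := S.toSeq.le_N m
      rw [div_le_div_iff₀ hN (by positivity)]
      linarith
    have h4 := mul_le_mul_of_nonneg_right h3 hn
    linarith
  have key := slide W d hd l hl α η hα0 hα1 hη hloc (fun k => S.toSeq.Xi1 m (x + k • (θ : TT)))
    1 _ 1 zero_le_one (fun k => S.toSeq.abs_Xi1_le m _) hV (by
      calc ∑ k ∈ range n, S.toSeq.Xi1 m (x + k • (θ : TT)) ^ 2 ≤ ∑ k ∈ range n, (1 : ℝ) :=
            sum_le_sum fun k _ => by
              have := S.toSeq.abs_Xi1_le m (x + k • (θ : TT))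
              rw [← sq_abs]
              nlinarith [abs_nonneg (S.toSeq.Xi1 m (x + k • (θ : TT)))]
        _ = 1 * n := by simp)
  have h5 := S.sum_Xi1_le M m n hmM x
  have h6 := (abs_le.mp key).2
  simp only [sub_mul, sum_sub_distrib, ← mul_sum, Real.sqrt_one, mul_one] at h6
  have h7 : α * ∑ k : Fin n, S.toSeq.Xi1 m (x + (k : ℕ) • (θ : TT)) ≤ 3 * (S.R : ℝ) ^ M := by
    have h8 : (0 : ℝ) ≤ 3 * (S.R : ℝ) ^ M := by positivity
    calc _ ≤ α * (3 * (S.R : ℝ) ^ M) := mul_le_mul_of_nonneg_left h5 hα0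
      _ ≤ _ := by nlinarith
  linarith

theorem sum_om_le (m M : ℕ) : ∑ i ∈ Icc m M, Seq.om m i ≤ M + 1 := by
  calc ∑ i ∈ Icc m M, Seq.om m i ≤ ∑ i ∈ Icc m M, (1 : ℝ) :=
        sum_le_sum fun i _ => Seq.om_le_one m i
    _ = ((M + 1 - m : ℕ) : ℝ) := by simp
    _ ≤ ((M + 1 : ℕ) : ℝ) := by exact_mod_cast Nat.sub_le _ _
    _ = M + 1 := by push_cast; ring

theorem sum_p_Xi (m M n l : ℕ) (hl : 1 ≤ l) (x : TT) (W : Submodule ℂ (EE (Fin n)))
    (d : ℕ → ℝ) (hd : ∀ k : Fin n, d k = dg W k) (α η ξ : ℝ) (hα0 : 0 ≤ α) (hα1 : α ≤ 1)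
    (hη : 0 ≤ η) (hloc : ∑ k ∈ range (n - l), ((∑ j ∈ range l, d (k + j)) / l - α) ^ 2 ≤ η * n)
    (hXi : ∑ k ∈ range n, S.toSeq.Xi m M (x + k • (θ : TT)) ^ 2 ≤ 10000 * n)
    (hExc : ∑ k ∈ range n, S.toSeq.Exc m M (x + k • (θ : TT)) ≤ ξ * n) :
    ∑ k : Fin n, dg W k * S.toSeq.Xi m M (x + (k : ℕ) • (θ : TT)) ≤
      √η * 100 * n + l * ((M + 1) + (12 / (S.R : ℝ) ^ m * n + 2 * (ξ * n)))
        + (M + 1) * (3 * (S.R : ℝ) ^ M) := by
  have h2R := S.toSeq.two_le_R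
  have hn : (0 : ℝ) ≤ n := Nat.cast_nonneg n
  have hB : ∀ y, |S.toSeq.Xi m M y| ≤ M + 1 := by
    intro y
    refine (abs_sum_le_sum_abs _ _).trans (le_trans (sum_le_sum fun i _ => ?_) (sum_om_le m M))
    rw [abs_mul, abs_of_pos (Seq.om_pos m i)]
    have := S.toSeq.abs_Xi1_le i y
    have := Seq.om_pos m i
    nlinarith
  have hV : ∑ k ∈ range (n - 1), |S.toSeq.Xi m M (x + (k + 1) • (θ : TT)) -
      S.toSeq.Xi m M (x + k • (θ : TT))| ≤ 12 / (S.R : ℝ) ^ m * n + 2 * (ξ * n) := by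
    have h1 : ∀ k : ℕ, |S.toSeq.Xi m M (x + (k + 1) • (θ : TT)) -
        S.toSeq.Xi m M (x + k • (θ : TT))| ≤ ∑ i ∈ Icc m M,
        |S.toSeq.Xi1 i (x + (k + 1) • (θ : TT)) - S.toSeq.Xi1 i (x + k • (θ : TT))| := by
      intro k
      unfold Seq.Xi
      rw [← sum_sub_distrib]
      refine (abs_sum_le_sum_abs _ _).trans (sum_le_sum fun i _ => ?_)
      rw [← mul_sub, abs_mul, abs_of_pos (Seq.om_pos m i)]
      exact mul_le_of_le_one_left (abs_nonneg _) (Seq.om_le_one m i)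
    refine (sum_le_sum fun k _ => h1 k).trans ?_
    rw [sum_comm]
    refine (sum_le_sum fun i _ => S.tv_Xi1 i n x).trans ?_
    rw [sum_add_distrib, ← sum_mul, ← mul_sum, sum_comm]
    have h2 : ∑ i ∈ Icc m M, 2 / (S.toSeq.N i : ℝ) ≤ 12 / (S.R : ℝ) ^ m := by
      have := S.toSeq.sum_inv_N_le m M
      have e : ∑ i ∈ Icc m M, 2 / (S.toSeq.N i : ℝ) =
          2 * ∑ i ∈ Icc m M, 1 / (S.toSeq.N i : ℝ) := by
        rw [mul_sum]; exact sum_congr rfl fun i _ => by ring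
      have e' : 12 / (S.R : ℝ) ^ m = 2 * (6 / (S.R : ℝ) ^ m) := by ring
      rw [e, e']; linarith
    have h3 := mul_le_mul_of_nonneg_right h2 hn
    rw [← Fin.sum_univ_eq_sum_range (fun k => S.toSeq.Exc m M (x + k • (θ : TT))) n] at hExc
    unfold Seq.Exc at hExc
    linarith
  have key := slide W d hd l hl α η hα0 hα1 hη hloc (fun k => S.toSeq.Xi m M (x + k • (θ : TT)))
    (M + 1) _ 10000 (by norm_num) (fun k => hB _) hV hXi
  have h100 : √(10000 : ℝ) = 100 := by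
    rw [show (10000 : ℝ) = 100 ^ 2 by norm_num, Real.sqrt_sq (by norm_num)]
  have h5 : ∑ k : Fin n, S.toSeq.Xi m M (x + (k : ℕ) • (θ : TT)) ≤
      (M + 1) * (3 * (S.R : ℝ) ^ M) := by
    unfold Seq.Xi
    rw [sum_comm]
    have h8 : (0 : ℝ) ≤ 3 * (S.R : ℝ) ^ M := by positivity
    calc _ ≤ ∑ i ∈ Icc m M, Seq.om m i * (3 * (S.R : ℝ) ^ M) := sum_le_sum fun i hi => by
          rw [← mul_sum]
          exact mul_le_mul_of_nonneg_left (S.sum_Xi1_le M i n (mem_Icc.mp hi).2 x)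
            (Seq.om_pos m i).le
      _ ≤ _ := by rw [← sum_mul]; exact mul_le_mul_of_nonneg_right (sum_om_le m M) h8
  have h6 := (abs_le.mp key).2
  simp only [sub_mul, sum_sub_distrib, ← mul_sum, h100] at h6
  have h7 : α * ∑ k : Fin n, S.toSeq.Xi m M (x + (k : ℕ) • (θ : TT)) ≤
      (M + 1) * (3 * (S.R : ℝ) ^ M) := by
    have h8 : (0 : ℝ) ≤ (M + 1) * (3 * (S.R : ℝ) ^ M) := by positivity
    calc _ ≤ α * ((M + 1) * (3 * (S.R : ℝ) ^ M)) := mul_le_mul_of_nonneg_left h5 hα0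
      _ ≤ _ := by nlinarith
  linarith

/-- The slope test. -/
theorem H1_bound (m M n : ℕ) (hmM : m ≤ M) (x : TT)
    (W : Submodule ℂ (EE (Fin n))) (ψ : Fin n → ℝ) (hψ : ∀ k, |ψ k| ≤ S.Gam m) (ρ ξ : ℝ)
    (hE : leak W (mop (shiftM n (S.wt x))) W ≤ ρ * n)
    (hExc : ∑ k ∈ range n, S.toSeq.Exc m M (x + k • (θ : TT)) ≤ ξ * n) :
    ∑ k : Fin n, (dg (tilt W ψ) k - dg W k) *
        ((S.toSeq.P m (x + (k : ℕ) • (θ : TT)) : ℝ) / S.toSeq.N m) ≤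
      ∑ k : Fin n, dg W k * S.toSeq.Xi1 m (x + (k : ℕ) • (θ : TT)) + 3 * (ξ * n)
        + 6 / 2 ^ m * n + (6 * (S.R : ℝ) ^ M + 2 * n * √(S.Kt m M * ρ)) := by
  have hN := S.N_pos' m
  have key := S.avg_test m M m n le_rfl hmM x W ψ hψ ρ hE
  have h0 : 0 ≤ ∑ k : Fin n, ∑ l : Fin n, ker2 (tilt W ψ) k l *
        (|(S.toSeq.P m (x + (k : ℕ) • (θ : TT)) : ℝ) -
          (S.toSeq.P m (x + (l : ℕ) • (θ : TT)) : ℝ)| / S.toSeq.N m) :=
    sum_nonneg fun k _ => sum_nonneg fun l _ => mul_nonneg (ker2_nonneg _ _ _) (by positivity)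
  have h1 := S.sum_Exc1_le m M m n le_rfl hmM x
  have h2 : ∑ k : Fin n, (dg (tilt W ψ) k - dg W k) * S.toSeq.NN1 m (x + (k : ℕ) • (θ : TT)) =
      -∑ k : Fin n, (dg (tilt W ψ) k - dg W k) *
        ((S.toSeq.P m (x + (k : ℕ) • (θ : TT)) : ℝ) / S.toSeq.N m) := by
    have h3 : ∑ k : Fin n, (dg (tilt W ψ) k - dg W k) = 0 := by
      rw [sum_sub_distrib, sum_dg, sum_dg, finrank_tilt, sub_self]
    have h4 : ∀ k : Fin n, (dg (tilt W ψ) k - dg W k) * S.toSeq.NN1 m (x + (k : ℕ) • (θ : TT)) =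
        (dg (tilt W ψ) k - dg W k) * ((S.toSeq.N m + 1) / S.toSeq.N m) -
        (dg (tilt W ψ) k - dg W k) *
          ((S.toSeq.P m (x + (k : ℕ) • (θ : TT)) : ℝ) / S.toSeq.N m) := by
      intro k
      rw [S.toSeq.NN1_eq]; ring
    simp_rw [h4]
    rw [sum_sub_distrib, ← sum_mul, h3]
    ring
  linarith

/-- The weighted sum of all tests. -/
theorem H2_bound (m M n : ℕ) (x : TT)
    (W : Submodule ℂ (EE (Fin n))) (ψ : Fin n → ℝ) (hψ : ∀ k, |ψ k| ≤ S.Gam m) (ρ ξ : ℝ)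
    (hE : leak W (mop (shiftM n (S.wt x))) W ≤ ρ * n)
    (hExc : ∑ k ∈ range n, S.toSeq.Exc m M (x + k • (θ : TT)) ≤ ξ * n) :
    ∑ k : Fin n, ∑ l : Fin n, ker2 (tilt W ψ) k l *
        S.toSeq.sepf m M (x + (k : ℕ) • (θ : TT)) (x + (l : ℕ) • (θ : TT)) ≤
      2 * (∑ k : Fin n, (dg (tilt W ψ) k - dg W k) * S.toSeq.NN m M (x + (k : ℕ) • (θ : TT))
        + (∑ k : Fin n, dg W k * S.toSeq.Xi m M (x + (k : ℕ) • (θ : TT)) + 3 * (ξ * n)
        + 12 / 2 ^ m * n + (M + 1) * (6 * (S.R : ℝ) ^ M + 2 * n * √(S.Kt m M * ρ)))) := by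
  have hn : (0 : ℝ) ≤ n := Nat.cast_nonneg n
  have h2R := S.toSeq.two_le_R
  have key := sum_le_sum (s := Icc m M) fun i hi =>
    mul_le_mul_of_nonneg_left (S.avg_test m M i n (mem_Icc.mp hi).1 (mem_Icc.mp hi).2 x W ψ hψ ρ hE)
      (Seq.om_pos m i).le
  have a0 : ∑ k : Fin n, ∑ l : Fin n, ker2 (tilt W ψ) k l *
        S.toSeq.sepf m M (x + (k : ℕ) • (θ : TT)) (x + (l : ℕ) • (θ : TT)) =
      ∑ i ∈ Icc m M, Seq.om m i * ∑ k : Fin n, ∑ l : Fin n, ker2 (tilt W ψ) k l *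
        (|(S.toSeq.P i (x + (k : ℕ) • (θ : TT)) : ℝ) -
          (S.toSeq.P i (x + (l : ℕ) • (θ : TT)) : ℝ)| / S.toSeq.N i) := by
    simp_rw [mul_sum]
    rw [sum_comm (s := Icc m M)]
    refine sum_congr rfl fun k _ => ?_
    rw [sum_comm (s := Icc m M)]
    refine sum_congr rfl fun l _ => ?_
    rw [Seq.sepf, mul_sum]
    exact sum_congr rfl fun i _ => by ring
  have a1 : ∑ k : Fin n, (dg (tilt W ψ) k - dg W k) * S.toSeq.NN m M (x + (k : ℕ) • (θ : TT)) =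
      ∑ i ∈ Icc m M, Seq.om m i * ∑ k : Fin n, (dg (tilt W ψ) k - dg W k) *
        S.toSeq.NN1 i (x + (k : ℕ) • (θ : TT)) := by
    simp_rw [mul_sum]
    rw [sum_comm (s := Icc m M)]
    refine sum_congr rfl fun k _ => ?_
    rw [Seq.NN, mul_sum]
    exact sum_congr rfl fun i _ => by ring
  have a2 : ∑ k : Fin n, dg W k * S.toSeq.Xi m M (x + (k : ℕ) • (θ : TT)) =
      ∑ i ∈ Icc m M, Seq.om m i * ∑ k : Fin n, dg W k *
        S.toSeq.Xi1 i (x + (k : ℕ) • (θ : TT)) := by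
    simp_rw [mul_sum]
    rw [sum_comm (s := Icc m M)]
    refine sum_congr rfl fun k _ => ?_
    rw [Seq.Xi, mul_sum]
    exact sum_congr rfl fun i _ => by ring
  have a3 : ∑ i ∈ Icc m M, Seq.om m i * ∑ k : Fin n, S.toSeq.Exc1 i (x + (k : ℕ) • (θ : TT)) ≤
      ξ * n := by
    rw [← Fin.sum_univ_eq_sum_range (fun k => S.toSeq.Exc m M (x + k • (θ : TT))) n] at hExc
    unfold Seq.Exc at hExc
    rw [sum_comm] at hExc
    refine le_trans (sum_le_sum fun i _ => ?_) hExc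
    exact mul_le_of_le_one_left (sum_nonneg fun k _ => S.toSeq.Exc1_nonneg i _) (Seq.om_le_one m i)
  have a4 : ∑ i ∈ Icc m M, Seq.om m i * (6 / 2 ^ i * (n : ℝ)) ≤ 12 / 2 ^ m * n := by
    calc _ ≤ ∑ i ∈ Icc m M, (6 * n) * ((1 : ℝ) / 2 ^ i) := sum_le_sum fun i _ => by
          refine (mul_le_of_le_one_left (by positivity) (Seq.om_le_one m i)).trans (le_of_eq ?_)
          ring
      _ ≤ (6 * n) * (2 / 2 ^ m) := by
          rw [← mul_sum]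
          exact mul_le_mul_of_nonneg_left (sum_Icc_inv_two_pow m M) (by positivity)
      _ = _ := by ring
  have a5 : ∑ i ∈ Icc m M, Seq.om m i * (6 * (S.R : ℝ) ^ M + 2 * n * √(S.Kt m M * ρ)) ≤
      (M + 1) * (6 * (S.R : ℝ) ^ M + 2 * n * √(S.Kt m M * ρ)) := by
    rw [← sum_mul]
    exact mul_le_mul_of_nonneg_right (sum_om_le m M) (by positivity)
  have e : ∀ (w a b c d e : ℝ), w * (2 * (a + b + 3 * c + d + e)) =
      2 * (w * a) + 2 * (w * b) + 6 * (w * c) + 2 * (w * d) + 2 * (w * e) := by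
    intros; ring
  simp_rw [e] at key
  simp only [sum_add_distrib, ← mul_sum] at key
  rw [a0, a1, a2]
  linarith

end Sys

end Crest.Agent.R113
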