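import Crest.Agent.R113.Orbit1

/-! Row 113, S0149: good sites are separated from all nearby sites of other segments. -/

set_option autoImplicit false

noncomputable section

namespace Crest.Agent.R113

open Finset

namespace SepAux

variable {θ : ℝ} (S : Seq θ)

/-- The class `i` term of the separation. -/
def term (i : ℕ) (y y' : TT) : ℝ := |(S.P i y : ℝ) - (S.P i y' : ℝ)| / S.N i

theorem term_nonneg (i : ℕ) (y y' : TT) : 0 ≤ term S i y y' :=
  div_nonneg (abs_nonneg _) (Nat.cast_nonneg _)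

theorem sepf_eq (m M : ℕ) (y y' : TT) :
    S.sepf m M y y' = ∑ i ∈ Icc m M, Seq.om m i * term S i y y' := rfl

theorem wterm_nonneg (m i : ℕ) (y y' : TT) : 0 ≤ Seq.om m i * term S i y y' :=
  mul_nonneg (Seq.om_pos m i).le (term_nonneg S i y y')

theorem norm_coe_le (r : ℝ) : ‖(r : TT)‖ ≤ |r| := by
  rw [← Real.norm_eq_abs]
  exact QuotientAddGroup.norm_mk_le_norm

theorem norm_sub_le_fr (a b : TT) : ‖a - b‖ ≤ |fr a - fr b| := by
  conv_lhs => rw [← coe_fr a, ← coe_fr b, ← AddCircle.coe_sub]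
  exact norm_coe_le _

theorem norm_coe_of_le_half (r : ℝ) (h0 : 0 ≤ r) (h1 : r ≤ 1 / 2) : ‖(r : TT)‖ = r := by
  have := (AddCircle.norm_coe_eq_abs_iff (p := (1 : ℝ)) one_ne_zero (x := r)).2
    (by rw [abs_of_nonneg h0]; simpa using h1)
  rw [this, abs_of_nonneg h0]

theorem R_ge' : (2 : ℝ) ^ 44 ≤ S.R := by exact_mod_cast S.R_ge

theorem delta_le_one : S.δ ≤ 1 := by
  have h := S.two_le_R
  refine S.δ_le.trans ?_
  rw [div_le_one (by positivity)]
  linarith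

theorem th_le {m i : ℕ} (hi : m ≤ i) (hth : 3 / (S.R : ℝ) ^ m ≤ S.δ / 2) : S.th i ≤ S.δ / 2 := by
  have h := S.two_le_R
  refine (S.th_hi i).trans (le_trans ?_ hth)
  exact div_le_div_of_nonneg_left (by norm_num) (by positivity)
    (pow_le_pow_right₀ (by linarith) hi)

/-- The pair lemma. -/
theorem pair (i : ℕ) (g o : TT) (hg : g ∉ S.bad i) (hδ : S.δ ≤ ‖S.m i • g - S.m i • o‖)
    (hth : S.th i ≤ S.δ / 2) : S.δ / 4 ≤ term S i g o + term S (i + 1) g o := by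
  have hR := S.two_le_R
  have hδ0 := S.δ_pos
  have hg' : 2 * S.N i < S.P (i + 1) g := by
    by_contra hc
    exact hg ((S.mem_Aset_iff _ _ g).2 (by omega))
  have hN : (0 : ℝ) < S.N i := by exact_mod_cast S.N_pos i
  have hN1 : (0 : ℝ) < S.N (i + 1) := by exact_mod_cast S.N_pos (i + 1)
  by_cases ho : S.P (i + 1) o ≤ S.N i
  · have h1 : (S.N i : ℝ) ≤ |(S.P (i + 1) g : ℝ) - S.P (i + 1) o| := by
      refine le_trans ?_ (le_abs_self _)
      have h2 : S.N i + S.P (i + 1) o ≤ S.P (i + 1) g := by omega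
      have h3 : (S.N i : ℝ) + S.P (i + 1) o ≤ S.P (i + 1) g := by exact_mod_cast h2
      linarith
    have h2 : S.δ ≤ term S (i + 1) g o := by
      unfold term
      rw [le_div_iff₀ hN1]
      have h3 := S.N_le (i + 1)
      have h4 := S.le_N i
      have h5 : S.δ * (12 * (S.R : ℝ)) ≤ 1 := (le_div_iff₀ (by positivity)).1 S.δ_le
      have h6 : (0 : ℝ) < (S.R : ℝ) ^ i := by positivity
      calc S.δ * (S.N (i + 1) : ℝ) ≤ S.δ * (3 * (S.R : ℝ) ^ (i + 1)) :=
            mul_le_mul_of_nonneg_left h3 hδ0.le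
        _ = (S.δ * (12 * (S.R : ℝ))) * ((S.R : ℝ) ^ i / 4) := by ring
        _ ≤ 1 * ((S.R : ℝ) ^ i / 4) := mul_le_mul_of_nonneg_right h5 (by positivity)
        _ ≤ S.N i := by linarith
        _ ≤ _ := h1
    have := term_nonneg S i g o
    linarith
  · obtain ⟨a1, a2⟩ := S.P_own i g (by omega)
    obtain ⟨b1, b2⟩ := S.P_own i o (by omega)
    have h1 := hδ.trans (norm_sub_le_fr _ _)
    have hth0 := S.th_pos i
    have h2 : S.δ / 2 ≤ |(S.P i g : ℝ) - S.P i o| * S.th i := by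
      have h3 := le_abs_self ((S.P i g : ℝ) - S.P i o)
      have h4 := neg_le_abs ((S.P i g : ℝ) - S.P i o)
      have h5 := mul_le_mul_of_nonneg_right h3 hth0.le
      have h6 := mul_le_mul_of_nonneg_right h4 hth0.le
      rcases le_abs'.1 h1 with h | h <;> nlinarith
    have h3 : S.δ / 4 ≤ term S i g o := by
      unfold term
      rw [le_div_iff₀ hN]
      have h4 := S.N_mul_th_le i
      have h5 := delta_le_one S
      have h6 : (S.N i : ℝ) * S.th i ≤ 2 := by linarith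
      refine le_of_mul_le_mul_right ?_ hth0
      calc S.δ / 4 * (S.N i : ℝ) * S.th i = S.δ / 4 * ((S.N i : ℝ) * S.th i) := by ring
        _ ≤ S.δ / 4 * 2 := mul_le_mul_of_nonneg_left h6 (by positivity)
        _ = S.δ / 2 := by ring
        _ ≤ _ := h2
    have := term_nonneg S (i + 1) g o
    linarith

theorem le_om {m i : ℕ} {K : ℝ} (h : ((i - m : ℕ) : ℝ) + 1 ≤ K) : 1 / K ≤ Seq.om m i :=
  one_div_le_one_div_of_le (by positivity) h

/-- Weighted form of the pair lemma. -/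
theorem wpair (m i : ℕ) (K : ℕ) (g o : TT) (hK : i + 2 ≤ m + K) (hmi : m ≤ i)
    (h : S.δ / 4 ≤ term S i g o + term S (i + 1) g o) :
    S.δ / 4 / K ≤ Seq.om m i * term S i g o + Seq.om m (i + 1) * term S (i + 1) g o := by
  have h1 : 1 / (K : ℝ) ≤ Seq.om m i := le_om (by
    have : i - m + 1 ≤ K := by omega
    exact_mod_cast this)
  have h2 : 1 / (K : ℝ) ≤ Seq.om m (i + 1) := le_om (by
    have : i + 1 - m + 1 ≤ K := by omega
    exact_mod_cast this)
  have h3 := mul_le_mul_of_nonneg_right h1 (term_nonneg S i g o)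
  have h4 := mul_le_mul_of_nonneg_right h2 (term_nonneg S (i + 1) g o)
  have h5 : (0 : ℝ) ≤ 1 / (K : ℝ) := by positivity
  have h6 := mul_le_mul_of_nonneg_left h h5
  calc S.δ / 4 / K = 1 / (K : ℝ) * (S.δ / 4) := by ring
    _ ≤ _ := by linarith

theorem sum_le_two_sepf (m M : ℕ) (g o : TT) (G : Finset ℕ) (hG : ∀ i ∈ G, m ≤ i ∧ i + 1 ≤ M) :
    ∑ i ∈ G, (Seq.om m i * term S i g o + Seq.om m (i + 1) * term S (i + 1) g o) ≤
      2 * S.sepf m M g o := by
  rw [Finset.sum_add_distrib, sepf_eq, two_mul]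
  refine add_le_add ?_ ?_
  · refine Finset.sum_le_sum_of_subset_of_nonneg (fun i hi => ?_)
      fun i _ _ => wterm_nonneg S m i g o
    have := hG i hi
    rw [Finset.mem_Icc]
    omega
  · rw [← Finset.sum_image (s := G) (g := fun i => i + 1)
      (f := fun i => Seq.om m i * term S i g o) (fun a _ b _ h => by simpa using h)]
    refine Finset.sum_le_sum_of_subset_of_nonneg (fun i hi => ?_)
      fun i _ _ => wterm_nonneg S m i g o
    obtain ⟨j, hj, rfl⟩ := Finset.mem_image.1 hi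
    have := hG j hj
    rw [Finset.mem_Icc]
    omega

theorem le_top (s e1 : ℕ) (he : 27 ≤ e1) : 2 ^ s + 2 ^ 29 ≤ Seq.top s e1 := by
  unfold Seq.top
  exact add_le_add (Nat.pow_le_pow_right (by norm_num) (le_max_left _ _))
    (Nat.pow_le_pow_right (by norm_num) (by omega))

/-- Middle range of distances. -/
theorem mid (s e1 : ℕ) (he : 27 ≤ e1) (g o : TT) (D : ℝ)
    (hgo : ∀ i, ‖S.m i • g - S.m i • o‖ = ‖((D * S.th i : ℝ) : TT)‖)
    (hg : ∀ i, 2 ^ s ≤ i → i ≤ 2 ^ s + 2 ^ 28 + 1 → g ∉ S.bad i)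
    (hD1 : S.δ * S.N (2 ^ s) ≤ D) (hD2 : D ≤ (S.R : ℝ) ^ (2 ^ s + 2 ^ 28))
    (hth : 3 / (S.R : ℝ) ^ (2 ^ s) ≤ S.δ / 2) :
    S.δ / 2 ^ 34 ≤ S.sepf (2 ^ s) (Seq.top s e1) g o := by
  have htop := le_top s e1 he
  generalize Seq.top s e1 = M at htop ⊢
  generalize 2 ^ s = m at *
  have hR := R_ge' S
  have hR0 : (0 : ℝ) < S.R := by linarith [S.two_le_R]
  have hδ0 := S.δ_pos
  have hN : (0 : ℝ) < S.N m := by exact_mod_cast S.N_pos m
  have hD0 : 0 ≤ D := le_trans (by positivity) hD1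
  have hex : ∃ k, D * S.th (m + k) ≤ 1 / 2 ∧ k ≤ 2 ^ 28 + 1 := by
    refine ⟨2 ^ 28 + 1, ?_, le_rfl⟩
    have h1 := S.th_hi (m + (2 ^ 28 + 1))
    have h2 := mul_le_mul hD2 h1 (S.th_pos _).le (by positivity)
    refine h2.trans ?_
    rw [← add_assoc, pow_succ (S.R : ℝ) (m + 2 ^ 28)]
    generalize m + 2 ^ 28 = q
    have h3 : (S.R : ℝ) ^ q * (3 / ((S.R : ℝ) ^ q * S.R)) = 3 / S.R := by field_simp
    rw [h3, div_le_div_iff₀ hR0 (by norm_num)]
    linarith
  classical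
  obtain ⟨hk1, hk2⟩ := Nat.find_spec hex
  have hmin := fun k => Nat.find_min hex (m := k)
  generalize Nat.find hex = k at hk1 hk2 hmin
  have hlo : S.δ ≤ D * S.th (m + k) := by
    rcases k with _ | k
    · have h1 := S.one_le_N_mul_th m
      have h2 := mul_le_mul_of_nonneg_right hD1 (S.th_pos m).le
      have h3 := mul_le_mul_of_nonneg_left h1 hδ0.le
      rw [add_zero]
      nlinarith
    · have h1 : 1 / 2 < D * S.th (m + k) := by
        by_contra hc
        exact hmin k (by omega) ⟨not_lt.1 hc, by omega⟩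
      have h2 := S.th_hi (m + k)
      have h3 := S.th_lo (m + (k + 1))
      rw [← add_assoc, pow_succ] at h3
      have h4 : (0 : ℝ) < (S.R : ℝ) ^ (m + k) := by positivity
      have h5 := h1.trans_le (mul_le_mul_of_nonneg_left h2 hD0)
      rw [← add_assoc]
      calc S.δ ≤ 1 / (12 * (S.R : ℝ)) := S.δ_le
        _ = (1 / 2) * (1 / (6 * (S.R : ℝ))) := by field_simp; norm_num
        _ ≤ (D * (3 / (S.R : ℝ) ^ (m + k))) * (1 / (6 * (S.R : ℝ))) :=
            mul_le_mul_of_nonneg_right h5.le (by positivity)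
        _ = D * (1 / (2 * ((S.R : ℝ) ^ (m + k) * S.R))) := by field_simp; ring
        _ ≤ _ := mul_le_mul_of_nonneg_left h3 hD0
  have hp := pair S (m + k) g o (hg _ (by omega) (by omega))
    (by rw [hgo, norm_coe_of_le_half _ (hδ0.le.trans hlo) hk1]; exact hlo)
    (th_le S (by omega) hth)
  have hw := wpair S m (m + k) (2 ^ 29) g o (by omega) (by omega) hp
  have hs := sum_le_two_sepf S m M g o {m + k} (fun i hi => by
    rw [Finset.mem_singleton] at hi
    omega)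
  rw [Finset.sum_singleton] at hs
  have h7 : S.δ / 4 / ((2 ^ 29 : ℕ) : ℝ) = S.δ / 2 ^ 31 := by
    push_cast
    ring
  rw [h7] at hw
  have h8 : S.δ / 2 ^ 34 ≤ S.δ / 2 ^ 31 / 2 := by
    rw [div_div]
    exact div_le_div_of_nonneg_left hδ0.le (by norm_num) (by norm_num)
  linarith

/-- End of the block with parameter `e`. -/
def endB (s e : ℕ) : ℕ := 2 ^ max s (e + 1) + 2 ^ (e + 1)

theorem exists_block (R D : ℝ) (f : ℕ → ℕ) (a b : ℕ) (hab : a ≤ b) (h1 : R ^ f a ≤ D)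
    (h2 : D ≤ R ^ f (b + 1)) : ∃ e, a ≤ e ∧ e ≤ b ∧ R ^ f e ≤ D ∧ D ≤ R ^ f (e + 1) := by
  induction b, hab using Nat.le_induction with
  | base => exact ⟨a, le_rfl, le_rfl, h1, h2⟩
  | succ b hab ih =>
    by_cases h : D ≤ R ^ f (b + 1)
    · obtain ⟨e, he1, he2, he3⟩ := ih h
      exact ⟨e, he1, by omega, he3⟩
    · exact ⟨b + 1, by omega, le_rfl, (not_le.1 h).le, h2⟩

theorem blk_facts (s e : ℕ) :
    blkS (max s (e + 1)) e + 2 ^ e = endB s e ∧
      endB s (e + 1) ≤ blkS (max s (e + 1)) e + 5 * 2 ^ e ∧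
      2 ^ s ≤ blkS (max s (e + 1)) e ∧ endB s e + 1 ≤ 2 ^ s + 5 * 2 ^ e := by
  unfold blkS endB
  have h0 : 0 < 2 ^ e := by positivity
  have h0' : 0 < 2 ^ s := by positivity
  rcases le_or_gt (e + 2) s with h | h
  · rw [max_eq_left (by omega : e + 1 ≤ s), max_eq_left (by omega : e + 1 + 1 ≤ s)]
    simp only [pow_succ]
    omega
  · rw [max_eq_right (by omega : s ≤ e + 1), max_eq_right (by omega : s ≤ e + 1 + 1)]
    have h1 : 2 ^ s ≤ 2 ^ (e + 1) := Nat.pow_le_pow_right (by norm_num) (by omega)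
    simp only [pow_succ] at h1 ⊢
    omega

theorem endB_le_top (s e e1 : ℕ) (h : e ≤ e1) : endB s e ≤ Seq.top s e1 := by
  unfold endB Seq.top
  exact add_le_add (Nat.pow_le_pow_right (by norm_num) (max_le_max le_rfl (by omega)))
    (Nat.pow_le_pow_right (by norm_num) (by omega))

/-- Far range of distances. -/
theorem far (s e1 : ℕ) (hs : 28 ≤ s) (he : 27 ≤ e1) (g o : TT) (D : ℝ)
    (hgo : ∀ i, ‖S.m i • g - S.m i • o‖ = ‖((D * S.th i : ℝ) : TT)‖)
    (hg : ∀ e, 27 ≤ e → e ≤ e1 → S.frac (max s (e + 1)) e g < 1 / 8)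
    (hD1 : (S.R : ℝ) ^ (2 ^ s + 2 ^ 28) ≤ D) (hD2 : D ≤ (S.R : ℝ) ^ Seq.top s e1)
    (hth : 3 / (S.R : ℝ) ^ (2 ^ s) ≤ S.δ / 2) :
    S.δ / 2 ^ 34 ≤ S.sepf (2 ^ s) (Seq.top s e1) g o := by
  classical
  have hR := S.two_le_R
  have hδ0 := S.δ_pos
  obtain ⟨e, he1, he2, he3, he4⟩ := exists_block (S.R : ℝ) D (endB s) 27 e1 he
    (by unfold endB; rwa [max_eq_left hs]) hD2
  obtain ⟨b1, b2, b3, b4⟩ := blk_facts s e
  have b5 := endB_le_top s e e1 he2
  have hnr := S.nonres (max s (e + 1)) e he1 (lt_of_lt_of_le (Nat.lt_succ_self e) (le_max_right _ _))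
    D (by rwa [b1]) (he4.trans (pow_le_pow_right₀ (by linarith) b2))
  have hfr := hg e he1 he2
  unfold Seq.frac at hfr
  generalize blkS (max s (e + 1)) e = v at *
  generalize endB s e = E at *
  generalize Seq.top s e1 = M at *
  generalize 2 ^ s = m at *
  have hE : (0 : ℝ) < 2 ^ e := by positivity
  rw [div_lt_iff₀ hE] at hfr
  set I := Ico v (v + 2 ^ e) with hI
  set A := I.filter fun i => ‖((D * S.th i : ℝ) : TT)‖ < S.δ with hA
  set B := I.filter fun i => g ∈ S.bad i with hB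
  set G := I.filter fun i => ¬ ‖((D * S.th i : ℝ) : TT)‖ < S.δ ∧ g ∉ S.bad i with hG
  have hBc : (B.card : ℝ) = ∑ i ∈ I, ind (S.bad i) g := by
    rw [hB, ← Finset.sum_boole]
    refine Finset.sum_congr rfl fun i _ => ?_
    split_ifs with h
    · exact (ind_of_mem h).symm
    · exact (ind_of_notMem h).symm
  have hcard : I.card ≤ A.card + B.card + G.card := by
    refine le_trans (Finset.card_le_card (t := A ∪ B ∪ G) fun i hi => ?_)
      ((Finset.card_union_le _ _).trans (Nat.add_le_add_right (Finset.card_union_le _ _) _))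
    simp only [hA, hB, hG, Finset.mem_union, Finset.mem_filter]
    tauto
  have hIc : I.card = 2 ^ e := by rw [hI, Nat.card_Ico]; omega
  rw [hIc] at hcard
  have hcard' : (2 : ℝ) ^ e ≤ A.card + B.card + G.card := by exact_mod_cast hcard
  have hnr' : 2 * (A.card : ℝ) ≤ 2 ^ e := by exact_mod_cast hnr
  have hGc : 3 / 8 * (2 : ℝ) ^ e ≤ G.card := by linarith
  have hmem : ∀ i ∈ G, m ≤ i ∧ i + 1 ≤ E := by
    intro i hi
    have := Finset.mem_Ico.1 (Finset.mem_filter.1 hi).1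
    omega
  have h1 := sum_le_two_sepf S m M g o G fun i hi => ⟨(hmem i hi).1, (hmem i hi).2.trans b5⟩
  have h2 : ∀ i ∈ G, S.δ / 4 / ((5 * 2 ^ e : ℕ) : ℝ) ≤
      Seq.om m i * term S i g o + Seq.om m (i + 1) * term S (i + 1) g o := by
    intro i hi
    obtain ⟨-, h3, h4⟩ := Finset.mem_filter.1 hi
    have h5 := hmem i hi
    exact wpair S m i _ g o (by omega) h5.1
      (pair S i g o h4 (by rw [hgo]; exact not_lt.1 h3) (th_le S h5.1 hth))
  have h3 := Finset.card_nsmul_le_sum _ _ _ h2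
  rw [nsmul_eq_mul] at h3
  have h4 : 3 / 160 * S.δ ≤ (G.card : ℝ) * (S.δ / 4 / ((5 * 2 ^ e : ℕ) : ℝ)) := by
    refine le_trans (le_of_eq ?_) (mul_le_mul_of_nonneg_right hGc (by positivity))
    push_cast
    field_simp
    norm_num
  have h5 : S.δ / 2 ^ 34 ≤ 3 / 320 * S.δ := by
    rw [div_le_iff₀ (by norm_num)]
    nlinarith
  linarith

theorem core (s e1 : ℕ) (hs : 28 ≤ s) (he : 27 ≤ e1) (g o : TT) (D : ℝ)
    (hgo : ∀ i, ‖S.m i • g - S.m i • o‖ = ‖((D * S.th i : ℝ) : TT)‖)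
    (hg : g ∉ S.BadSet s e1)
    (hD1 : S.δ * S.N (2 ^ s) ≤ D) (hD2 : D ≤ (S.R : ℝ) ^ Seq.top s e1)
    (hth : 3 / (S.R : ℝ) ^ (2 ^ s) ≤ S.δ / 2) :
    S.δ / 2 ^ 34 ≤ S.sepf (2 ^ s) (Seq.top s e1) g o := by
  rcases le_total D ((S.R : ℝ) ^ (2 ^ s + 2 ^ 28)) with h | h
  · exact mid S s e1 he g o D hgo (fun i h1 h2 h3 => hg (Or.inr (Or.inl ⟨i, h1, h2, h3⟩))) hD1 h hth
  · exact far S s e1 hs he g o D hgo
      (fun e h1 h2 => not_le.1 fun h3 => hg (Or.inl ⟨e, h1, h2, h3⟩)) h hD2 hth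

end SepAux

namespace Seq

variable {θ : ℝ} (S : Seq θ)

theorem sepf_nonneg (m M : ℕ) (y y' : TT) : 0 ≤ S.sepf m M y y' :=
  Finset.sum_nonneg fun i _ => SepAux.wterm_nonneg S m i y y'

/-- Separation from later sites. -/
theorem sep_fwd (s e1 : ℕ) (hs : 28 ≤ s) (he : 27 ≤ e1) (y : TT) (hy : y ∉ S.BadSet s e1) (D : ℕ)
    (hD : (D : ℝ) ≤ (S.R : ℝ) ^ top s e1) (h : S.P (2 ^ s) y ≤ D)
    (hth : 3 / (S.R : ℝ) ^ (2 ^ s) ≤ S.δ / 2) :
    S.δ / 2 ^ 34 ≤ S.sepf (2 ^ s) (top s e1) y (y + D • (θ : TT)) := by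
  refine SepAux.core S s e1 hs he y _ D (fun i => ?_) hy ?_ hD hth
  · rw [smul_add_nsmul, sub_add_cancel_left, norm_neg]
  · have h1 : 2 * S.δ * S.N (2 ^ s) < S.P (2 ^ s) y := not_le.1 fun h3 => hy (Or.inr (Or.inr h3))
    have h2 : (S.P (2 ^ s) y : ℝ) ≤ D := by exact_mod_cast h
    have h3 : 0 ≤ S.δ * S.N (2 ^ s) := mul_nonneg S.δ_pos.le (Nat.cast_nonneg _)
    linarith

/-- Separation from earlier sites. -/
theorem sep_bwd (s e1 : ℕ) (hs : 28 ≤ s) (he : 27 ≤ e1) (y : TT) (D : ℕ)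
    (hy : y + D • (θ : TT) ∉ S.BadSet s e1)
    (hD : (D : ℝ) ≤ (S.R : ℝ) ^ top s e1) (h : S.P (2 ^ s) y ≤ D)
    (hth : 3 / (S.R : ℝ) ^ (2 ^ s) ≤ S.δ / 2) :
    S.δ / 2 ^ 34 ≤ S.sepf (2 ^ s) (top s e1) (y + D • (θ : TT)) y := by
  rcases le_total (S.δ * S.N (2 ^ s)) D with hc | hc
  · refine SepAux.core S s e1 hs he _ y D (fun i => ?_) hy hc hD hth
    rw [smul_add_nsmul, add_sub_cancel_left]
  · have h1 : 2 * S.δ * S.N (2 ^ s) < S.P (2 ^ s) (y + D • (θ : TT)) :=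
      not_le.1 fun h3 => hy (Or.inr (Or.inr h3))
    have h2 : (S.P (2 ^ s) y : ℝ) ≤ D := by exact_mod_cast h
    have hN : (0 : ℝ) < S.N (2 ^ s) := by exact_mod_cast S.N_pos _
    have h3 : S.δ ≤ SepAux.term S (2 ^ s) (y + D • (θ : TT)) y := by
      unfold SepAux.term
      rw [le_div_iff₀ hN]
      refine le_trans ?_ (le_abs_self _)
      linarith
    have h4 : 2 ^ s ∈ Icc (2 ^ s) (top s e1) := by
      have := SepAux.le_top s e1 he
      rw [Finset.mem_Icc]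
      omega
    have h5 := Finset.single_le_sum
      (f := fun i => om (2 ^ s) i * SepAux.term S i (y + D • (θ : TT)) y)
      (fun i _ => SepAux.wterm_nonneg S (2 ^ s) i _ _) h4
    simp only [om_self, one_mul] at h5
    have h6 : S.δ / 2 ^ 34 ≤ S.δ := div_le_self S.δ_pos.le (by norm_num)
    rw [SepAux.sepf_eq]
    linarith

end Seq

end Crest.Agent.R113
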