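import Crest.Agent.R113.OrbitB
import Crest.Agent.R113.FinMono
import Crest.Agent.R113.Sep

/-! Row 113, S0149: segments along one orbit piece. -/

set_option autoImplicit false

noncomputable section

namespace Crest.Agent.R113

open Finset

namespace Sys

variable {θ : ℝ} (S : Sys θ)

/-- Segment label of a site: the position of the first site after the next wall. -/
def segN (m : ℕ) (x : TT) (k : ℕ) : ℕ := k + S.toSeq.P m (x + k • (θ : TT))

/-- Normalised distance to the end of the segment. -/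
def YN (m : ℕ) (x : TT) (k : ℕ) : ℝ := (S.toSeq.P m (x + k • (θ : TT)) : ℝ) / S.toSeq.N m

theorem orbit_add (x : TT) (k D : ℕ) :
    x + (k + D) • (θ : TT) = x + k • (θ : TT) + D • (θ : TT) := by
  rw [add_nsmul, add_assoc]

theorem segN_mono (m : ℕ) (x : TT) : Monotone (S.segN m x) := by
  intro k l hkl
  obtain ⟨D, rfl⟩ := Nat.exists_eq_add_of_le hkl
  have := S.toSeq.P_le_add m D (x + k • (θ : TT))
  unfold segN
  rw [orbit_add]
  omega

theorem segN_add_iff (m : ℕ) (x : TT) (k D : ℕ) :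
    S.segN m x k = S.segN m x (k + D) ↔ D < S.toSeq.P m (x + k • (θ : TT)) := by
  unfold segN
  rw [orbit_add]
  constructor
  · intro h
    have := S.toSeq.P_pos m (x + k • (θ : TT) + D • (θ : TT))
    omega
  · intro h
    have := S.toSeq.P_add m D _ h
    omega

theorem P_of_segN {m i : ℕ} (hi : m ≤ i) (x : TT) (k l : ℕ) (h : S.segN m x k = S.segN m x l) :
    k + S.toSeq.P i (x + k • (θ : TT)) = l + S.toSeq.P i (x + l • (θ : TT)) := by
  wlog hkl : k ≤ l generalizing k l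
  · exact (this l k h.symm (by omega)).symm
  obtain ⟨D, rfl⟩ := Nat.exists_eq_add_of_le hkl
  have h1 := (S.segN_add_iff m x k D).mp h
  have h2 := S.toSeq.P_mono hi (x + k • (θ : TT))
  have h3 := S.toSeq.P_add i D (x + k • (θ : TT)) (by omega)
  rw [orbit_add]
  omega

theorem YN_nonneg (m : ℕ) (x : TT) (k : ℕ) : 0 ≤ S.YN m x k := by
  unfold YN; positivity

theorem YN_le_one (m : ℕ) (x : TT) (k : ℕ) : S.YN m x k ≤ 1 := by
  unfold YN
  rw [div_le_one (S.N_pos' m)]
  exact_mod_cast S.toSeq.P_le_N m _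

theorem YN_sub (m : ℕ) (x : TT) (k l : ℕ) (h : S.segN m x k = S.segN m x l) :
    S.YN m x k - S.YN m x l = ((l : ℝ) - k) / S.toSeq.N m := by
  have h1 : ((k + S.toSeq.P m (x + k • (θ : TT)) : ℕ) : ℝ) =
      ((l + S.toSeq.P m (x + l • (θ : TT)) : ℕ) : ℝ) := by exact_mod_cast h
  push_cast at h1
  unfold YN
  rw [← sub_div]
  congr 1
  linarith

theorem adm_bound {n : ℕ} (m : ℕ) (x : TT) (ψ : Fin n → ℝ)
    (h : Adm (fun k : Fin n => S.segN m x k) (fun k => S.YN m x k)
      (fun k => S.gauge m (x + (k : ℕ) • (θ : TT))) (S.lam m) ψ) (k : Fin n) :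
    |ψ k| ≤ S.Gam m := by
  obtain ⟨μ, g, h1, h2, h3, h4⟩ := h
  have hl := S.one_le_lam m
  have a1 := S.abs_gauge_le m (x + (k : ℕ) • (θ : TT))
  have a2 := h3 k
  have a3 := S.YN_nonneg m x k
  have a4 := S.YN_le_one m x k
  have a5 : 0 ≤ μ * S.YN m x k := mul_nonneg (by linarith) a3
  have a6 : μ * S.YN m x k ≤ 2 * S.lam m := by nlinarith
  rw [h4 k]
  unfold Gam
  rw [abs_le] at a1 a2 ⊢
  constructor <;> linarith [a1.1, a1.2, a2.1, a2.2]

theorem H3_bound (m M n : ℕ) (x : TT) (Nb : ℝ)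
    (h : ∑ k ∈ range n, (S.toSeq.NN m M (x + k • (θ : TT)) - Nb) ^ 2 ≤ 10000 * n) :
    ∃ (Sf : ℕ → ℝ) (σ Nb' : ℝ), 0 ≤ σ ∧ σ ≤ 18 ∧
      (∀ k : Fin n, S.toSeq.NN m M (x + (k : ℕ) • (θ : TT)) =
        Sf (S.segN m x k) - σ * S.YN m x k + Nb') ∧
      ∑ k : Fin n, Sf (S.segN m x k) ^ 2 ≤ 21000 * n := by
  classical
  have hN := S.N_pos' m
  have h2R := S.toSeq.two_le_R
  set σ : ℝ := (∑ i ∈ Icc m M, Seq.om m i / S.toSeq.N i) * S.toSeq.N m with hσ
  have hσ0 : 0 ≤ σ := mul_nonneg (sum_nonneg fun i _ =>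
    div_nonneg (Seq.om_pos m i).le (S.N_pos' i).le) hN.le
  have hσ1 : σ ≤ 18 := by
    have h1 : ∑ i ∈ Icc m M, Seq.om m i / S.toSeq.N i ≤ 6 / (S.R : ℝ) ^ m :=
      le_trans (sum_le_sum fun i _ =>
        div_le_div_of_nonneg_right (Seq.om_le_one m i) (S.N_pos' i).le) (S.toSeq.sum_inv_N_le m M)
    have h2 := S.toSeq.N_le m
    calc σ ≤ 6 / (S.R : ℝ) ^ m * (3 * (S.R : ℝ) ^ m) :=
          mul_le_mul h1 h2 hN.le (by positivity)
      _ = 18 := by field_simp; norm_num
  set Z : ℕ → ℝ := fun k => S.toSeq.NN m M (x + k • (θ : TT)) + σ * S.YN m x k - Nb with hZ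
  have hwd : ∀ k l, S.segN m x k = S.segN m x l → Z k = Z l := by
    intro k l hkl
    have h1 := S.YN_sub m x k l hkl
    have h2 : S.toSeq.NN m M (x + k • (θ : TT)) - S.toSeq.NN m M (x + l • (θ : TT)) =
        (∑ i ∈ Icc m M, Seq.om m i / S.toSeq.N i) * ((k : ℝ) - l) := by
      unfold Seq.NN
      rw [← sum_sub_distrib, sum_mul]
      refine sum_congr rfl fun i hi => ?_
      have h3 := S.P_of_segN (mem_Icc.mp hi).1 x k l hkl
      have h4 : ((k + S.toSeq.P i (x + k • (θ : TT)) : ℕ) : ℝ) =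
        ((l + S.toSeq.P i (x + l • (θ : TT)) : ℕ) : ℝ) := by exact_mod_cast h3
      push_cast at h4
      have h5 : (S.toSeq.P i (x + l • (θ : TT)) : ℝ) =
        k + S.toSeq.P i (x + k • (θ : TT)) - l := by linarith
      rw [S.toSeq.NN1_eq, S.toSeq.NN1_eq, h5]
      ring
    have h3 : σ * (S.YN m x k - S.YN m x l) =
        (∑ i ∈ Icc m M, Seq.om m i / S.toSeq.N i) * ((l : ℝ) - k) := by
      rw [h1, hσ]; field_simp
    simp only [hZ]
    linarith
  set Sf : ℕ → ℝ := fun w => if hw : ∃ k, S.segN m x k = w then Z hw.choose else 0 with hSf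
  have hS : ∀ k, Sf (S.segN m x k) = Z k := by
    intro k
    have hw : ∃ l, S.segN m x l = S.segN m x k := ⟨k, rfl⟩
    simp only [hSf, dif_pos hw]
    exact hwd _ _ hw.choose_spec
  refine ⟨Sf, σ, Nb, hσ0, hσ1, fun k => by rw [hS]; simp only [hZ]; ring, ?_⟩
  simp_rw [hS]
  rw [Fin.sum_univ_eq_sum_range (fun k => Z k ^ 2) n]
  calc ∑ k ∈ range n, Z k ^ 2
      ≤ ∑ k ∈ range n, (2 * (S.toSeq.NN m M (x + k • (θ : TT)) - Nb) ^ 2 + 648) :=
        sum_le_sum fun k _ => by
          have a3 := S.YN_nonneg m x k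
          have a4 := S.YN_le_one m x k
          have a5 : 0 ≤ σ * S.YN m x k := mul_nonneg hσ0 a3
          have a6 : σ * S.YN m x k ≤ 18 := by nlinarith
          simp only [hZ]
          nlinarith [sq_nonneg (S.toSeq.NN m M (x + k • (θ : TT)) - Nb - σ * S.YN m x k)]
    _ ≤ 21000 * n := by
        rw [sum_add_distrib, ← mul_sum]
        have hn : (0 : ℝ) ≤ n := Nat.cast_nonneg n
        simp only [sum_const, card_range, nsmul_eq_mul]
        linarith

theorem H5_bound (s e1 L : ℕ) (hs : 28 ≤ s) (he : 27 ≤ e1) (hL0 : 1 ≤ L)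
    (hL : (L : ℝ) ≤ (S.R : ℝ) ^ Seq.top s e1)
    (hth : 3 / (S.R : ℝ) ^ (2 ^ s) ≤ S.δ / 2) (x : TT) (k l : ℕ)
    (hk : x + k • (θ : TT) ∉ S.toSeq.BadSet s e1)
    (hne : S.segN (2 ^ s) x k ≠ S.segN (2 ^ s) x l) (hb : k / L = l / L) :
    S.δ / 2 ^ 34 ≤
      S.toSeq.sepf (2 ^ s) (Seq.top s e1) (x + k • (θ : TT)) (x + l • (θ : TT)) := by
  have h1 := Nat.div_add_mod k L
  have h2 := Nat.div_add_mod l L
  have h3 := Nat.mod_lt k (show L > 0 by omega)
  have h4 := Nat.mod_lt l (show L > 0 by omega)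
  rw [hb] at h1
  rcases le_total k l with hkl | hkl
  · obtain ⟨D, rfl⟩ := Nat.exists_eq_add_of_le hkl
    have hD : (D : ℝ) ≤ (S.R : ℝ) ^ Seq.top s e1 :=
      le_trans (by exact_mod_cast (show D ≤ L by omega)) hL
    rw [orbit_add]
    refine S.toSeq.sep_fwd s e1 hs he _ hk D hD ?_ hth
    by_contra hlt
    exact hne ((S.segN_add_iff _ x k D).mpr (by omega))
  · obtain ⟨D, rfl⟩ := Nat.exists_eq_add_of_le hkl
    have hD : (D : ℝ) ≤ (S.R : ℝ) ^ Seq.top s e1 :=
      le_trans (by exact_mod_cast (show D ≤ L by omega)) hL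
    rw [orbit_add] at hk ⊢
    refine S.toSeq.sep_bwd s e1 hs he _ D hk hD ?_ hth
    by_contra hlt
    exact hne ((S.segN_add_iff _ x l D).mpr (by omega)).symm

theorem P_le_card (m n : ℕ) (x : TT) (k : Fin n) (hk : (k : ℕ) + S.toSeq.N m ≤ n) :
    S.toSeq.P m (x + (k : ℕ) • (θ : TT)) ≤
      (univ.filter fun l : Fin n => S.segN m x l = S.segN m x k).card := by
  have hP := S.toSeq.P_le_N m (x + (k : ℕ) • (θ : TT))
  have : (univ : Finset (Fin (S.toSeq.P m (x + (k : ℕ) • (θ : TT))))).card ≤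
      (univ.filter fun l : Fin n => S.segN m x l = S.segN m x k).card := by
    refine card_le_card_of_injOn (fun D => ⟨k + D, by have := D.2; omega⟩) ?_ ?_
    · intro D _
      simp only [coe_filter, mem_univ, true_and, Set.mem_ofPred_eq]
      exact ((S.segN_add_iff m x k D).mpr D.2).symm
    · intro D _ D' _ h
      simp only [Fin.mk.injEq] at h
      exact Fin.ext (by omega)
  simpa using this

theorem H7_bound (m M n l : ℕ) (hmM : m ≤ M) (hl : 1 ≤ l) (x : TT)
    (W : Submodule ℂ (EE (Fin n)))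
    (d : ℕ → ℝ) (hd : ∀ k : Fin n, d k = dg W k) (α η ξ : ℝ) (hα0 : 0 ≤ α) (hα1 : α ≤ 1)
    (hη : 0 ≤ η) (hloc : ∑ k ∈ range (n - l), ((∑ j ∈ range l, d (k + j)) / l - α) ^ 2 ≤ η * n)
    (hExc : ∑ k ∈ range n, S.toSeq.Exc m M (x + k • (θ : TT)) ≤ ξ * n)
    (φ : Fin n → ℝ) (hφ : ∀ k, |φ k| ≤ 1)
    (hlip : ∀ k l : Fin n, S.segN m x k = S.segN m x l →
      |φ k - φ l| ≤ |((k : ℕ) : ℝ) - ((l : ℕ) : ℝ)| / S.toSeq.N m) :
    |∑ k, (dg W k - α) * φ k| ≤
      √η * n + l * (1 + (3 / (S.R : ℝ) ^ m * n + 2 * (ξ * n))) := by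
  have hN := S.N_pos' m
  have h2R := S.toSeq.two_le_R
  have hn : (0 : ℝ) ≤ n := Nat.cast_nonneg n
  set φ' : ℕ → ℝ := fun k => if h : k < n then φ ⟨k, h⟩ else 0 with hφ'
  have hB : ∀ k, |φ' k| ≤ 1 := by
    intro k
    simp only [hφ']
    split_ifs
    · exact hφ _
    · simp
  have hV : ∑ k ∈ range (n - 1), |φ' (k + 1) - φ' k| ≤
      3 / (S.R : ℝ) ^ m * n + 2 * (ξ * n) := by
    have h3 : 1 / (S.toSeq.N m : ℝ) ≤ 3 / (S.R : ℝ) ^ m := by
      have := S.toSeq.le_N m
      rw [div_le_div_iff₀ hN (by positivity)]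
      linarith
    have h1 : ∀ k ∈ range (n - 1), |φ' (k + 1) - φ' k| ≤
        3 / (S.R : ℝ) ^ m + 2 * S.toSeq.Exc1 m (x + k • (θ : TT)) := by
      intro k hk
      have hk' := mem_range.mp hk
      have hE := S.toSeq.Exc1_nonneg m (x + k • (θ : TT))
      by_cases hs : S.segN m x k = S.segN m x (k + 1)
      · have := hlip ⟨k + 1, by omega⟩ ⟨k, by omega⟩ hs.symm
        simp only [hφ', dif_pos (show k + 1 < n by omega), dif_pos (show k < n by omega)]
        simp only [Nat.cast_add, Nat.cast_one, add_sub_cancel_left, abs_one] at this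
        linarith
      · have hP : S.toSeq.P m (x + k • (θ : TT)) ≤ 1 := by
          by_contra hlt
          exact hs ((S.segN_add_iff m x k 1).mpr (by omega))
        obtain ⟨j, hj, hW⟩ := (S.toSeq.mem_Aset_iff m 1 _).mpr hP
        have hj0 : j = 0 := by omega
        rw [hj0, zero_nsmul, add_zero] at hW
        have h4 := S.toSeq.ind_Zone_le_Exc1 m (x + k • (θ : TT))
        rw [ind_of_mem (S.toSeq.Wall_subset_Zone m hW)] at h4
        have h5 := hB (k + 1)
        have h6 := hB k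
        have h7 := abs_sub (φ' (k + 1)) (φ' k)
        have h8 : (0 : ℝ) ≤ 3 / (S.R : ℝ) ^ m := by positivity
        linarith
    have h2 := S.sum_Exc1_le m M m n le_rfl hmM x
    rw [Fin.sum_univ_eq_sum_range (fun k => S.toSeq.Exc1 m (x + k • (θ : TT))) n] at h2
    calc _ ≤ ∑ k ∈ range (n - 1), (3 / (S.R : ℝ) ^ m + 2 * S.toSeq.Exc1 m (x + k • (θ : TT))) :=
          sum_le_sum h1
      _ ≤ ∑ k ∈ range n, (3 / (S.R : ℝ) ^ m + 2 * S.toSeq.Exc1 m (x + k • (θ : TT))) :=
          sum_le_sum_of_subset_of_nonneg (range_subset_range.mpr (Nat.sub_le _ _))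
            fun k _ _ => by have := S.toSeq.Exc1_nonneg m (x + k • (θ : TT)); positivity
      _ ≤ _ := by
          rw [sum_add_distrib, ← mul_sum]
          simp only [sum_const, card_range, nsmul_eq_mul]
          linarith
  have key := slide W d hd l hl α η hα0 hα1 hη hloc φ' 1 _ 1 zero_le_one hB hV (by
      calc ∑ k ∈ range n, φ' k ^ 2 ≤ ∑ k ∈ range n, (1 : ℝ) :=
            sum_le_sum fun k _ => by
              have := hB k
              rw [← sq_abs]
              nlinarith [abs_nonneg (φ' k)]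
        _ = 1 * n := by simp)
  have e : ∀ k : Fin n, φ' k = φ k := fun k => by simp [hφ']
  simp only [e, Real.sqrt_one, mul_one] at key
  exact key

/-- The constant multiplying the leakage in the monotonicity estimate. -/
def Km (m : ℕ) : ℝ :=
  Real.exp (2 * S.lam m) ^ 2 * Real.exp (4 * S.Gam m) * (3 * (S.R : ℝ) ^ m) ^ 2

theorem Km_pos (m : ℕ) : 0 < S.Km m := by
  have := S.toSeq.two_le_R
  unfold Km
  positivity

theorem mono_one {n : ℕ} (m s : ℕ) (hs : s ≤ S.toSeq.N m) (x : TT)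
    (W : Submodule ℂ (EE (Fin n))) (ψ : Fin n → ℝ)
    (h : Adm (fun k : Fin n => S.segN m x k) (fun k => S.YN m x k)
      (fun k => S.gauge m (x + (k : ℕ) • (θ : TT))) (S.lam m) ψ) (ρ : ℝ)
    (hE : leak W (mop (shiftM n (S.wt x))) W ≤ ρ * n) :
    ∑ k : Fin n, ∑ l : Fin n, (if (l : ℕ) = k + s ∧ S.segN m x k = S.segN m x l then
        max (dg (tilt W ψ) k - dg (tilt W ψ) l) 0 else 0) ≤
      2 * ∑ k : Fin n, ind (S.toSeq.Xset m s) (x + (k : ℕ) • (θ : TT))
        + (2 * √(S.Km m * ρ) + S.Km m * ρ) * n := by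
  classical
  have hψ := S.adm_bound m x ψ h
  obtain ⟨μ, g, h1, h2, h3, h4⟩ := h
  have hN := S.N_pos' m
  have h2R := S.toSeq.two_le_R
  have hlam := S.one_le_lam m
  have hn : (0 : ℝ) ≤ n := Nat.cast_nonneg n
  set f : Fin n → Fin n := fun k => if hk : (k : ℕ) + s < n then ⟨k + s, hk⟩ else k with hf
  set X : Finset (Fin n) := univ.filter fun k => x + (k : ℕ) • (θ : TT) ∈ S.toSeq.Xset m s with hX
  set Z : Finset (Fin n) := univ.filter fun k => k ∉ X ∧ (k : ℕ) + s < n ∧
    S.segN m x k = S.segN m x (k + s) ∧ dg (tilt W ψ) (f k) ≤ dg (tilt W ψ) k with hZ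
  set ν : ℝ := Real.exp (μ * s / S.toSeq.N m) with hν
  have hν1 : ν ≤ Real.exp (2 * S.lam m) := by
    refine Real.exp_le_exp.mpr ?_
    have : (s : ℝ) / S.toSeq.N m ≤ 1 := by
      rw [div_le_one hN]; exact_mod_cast hs
    have h5 : (0 : ℝ) ≤ s / S.toSeq.N m := by positivity
    rw [mul_div_assoc]
    nlinarith
  have hstay : ∀ (k : Fin n) (hk : (k : ℕ) + s < n), k ∉ X →
      S.segN m x k = S.segN m x (k + s) →
      ν * Real.exp (ψ ⟨k + s, hk⟩ - ψ k) * wprod (S.wt x) k s = 1 := by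
    intro k hk hkX hseg
    have a1 : x + (k : ℕ) • (θ : TT) ∉ S.toSeq.Aset m s := by
      rw [S.toSeq.mem_Aset_iff]
      have := (S.segN_add_iff m x k s).mp hseg
      omega
    have a2 : x + (k : ℕ) • (θ : TT) ∉ S.toSeq.Xset m s := by simpa [hX] using hkX
    have a3 := S.gauge_wprod m s x k a1 a2
    have a4 := S.YN_sub m x k (k + s) hseg
    rw [← a3, h4, h4, hν, ← Real.exp_add]
    congr 2
    simp only
    rw [← hseg]
    have a5 : S.YN m x (k + s) = S.YN m x k - s / S.toSeq.N m := by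
      push_cast at a4
      rw [add_sub_cancel_left] at a4
      linarith
    rw [a5]
    ring
  have key := mono_shift W (S.wt x) (S.wt_nonneg x) (S.wt_le_one x) ψ (S.Gam m) hψ s ν
    (Real.exp_pos _).le X Z f
    (by
      intro k hkX hk
      by_cases hseg : S.segN m x k = S.segN m x (k + s)
      · exact (hstay k hk hkX hseg).le
      · have a1 : x + (k : ℕ) • (θ : TT) ∈ S.toSeq.Aset m s := by
          rw [S.toSeq.mem_Aset_iff]
          by_contra hlt
          exact hseg ((S.segN_add_iff m x k s).mpr (by omega))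
        have a2 : x + (k : ℕ) • (θ : TT) ∉ S.toSeq.Xset m s := by simpa [hX] using hkX
        have a3 := S.wprod_le m s x k a1 fun hZ => a2 (Or.inl hZ)
        have a4 : Real.exp (ψ ⟨k + s, hk⟩ - ψ k) ≤ Real.exp (2 * S.Gam m) := by
          refine Real.exp_le_exp.mpr ?_
          have b1 := abs_le.mp (hψ ⟨k + s, hk⟩)
          have b2 := abs_le.mp (hψ k)
          linarith [b1.2, b2.1]
        have a5 : 0 ≤ wprod (S.wt x) k s := prod_nonneg fun j _ => S.wt_nonneg x _
        calc _ ≤ Real.exp (2 * S.lam m) * Real.exp (2 * S.Gam m) * Real.exp (-S.c m) := by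
              gcongr
          _ = Real.exp (2 * S.lam m + 2 * S.Gam m + -S.c m) := by rw [Real.exp_add, Real.exp_add]
          _ ≤ 1 := by
              rw [Real.exp_le_one_iff]
              have c1 := S.c_ge m
              have c2 : 0 ≤ (S.R : ℝ) ^ m * S.Low m := mul_nonneg (by positivity) (S.Low_nonneg m)
              have c3 : (0 : ℝ) ≤ m := Nat.cast_nonneg m
              unfold Gam
              linarith)
    (by
      intro k hk
      simp only [hZ, mem_filter, mem_univ, true_and] at hk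
      obtain ⟨b1, b2, b3, -⟩ := hk
      refine ⟨b1, by simp [hf, b2], ?_⟩
      have : f k = ⟨k + s, b2⟩ := by simp [hf, b2]
      rw [this]
      exact hstay k b2 b1 b3)
  have cX : (X.card : ℝ) = ∑ k : Fin n, ind (S.toSeq.Xset m s) (x + (k : ℕ) • (θ : TT)) := by
    simp_rw [ind_eq_ite]
    rw [hX, card_filter]
    push_cast
    rfl
  have hLk : ν ^ 2 * Real.exp (4 * S.Gam m) * (s : ℝ) ^ 2 * leak W (mop (shiftM n (S.wt x))) W ≤
      S.Km m * ρ * n := by
    have hl0 := leak_nonneg W (mop (shiftM n (S.wt x))) W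
    have tN : (s : ℝ) ≤ 3 * (S.R : ℝ) ^ m := le_trans (by exact_mod_cast hs) (S.toSeq.N_le m)
    have hν0 : 0 ≤ ν := (Real.exp_pos _).le
    rw [mul_assoc (S.Km m)]
    unfold Km
    gcongr
  have hsq : √(n * (ν ^ 2 * Real.exp (4 * S.Gam m) * (s : ℝ) ^ 2 *
      leak W (mop (shiftM n (S.wt x))) W)) ≤ √(S.Km m * ρ) * n := by
    calc _ ≤ √((n : ℝ) ^ 2 * (S.Km m * ρ)) := by
          apply Real.sqrt_le_sqrt
          calc _ ≤ n * (S.Km m * ρ * n) := mul_le_mul_of_nonneg_left hLk hn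
            _ = _ := by ring
      _ = _ := by rw [Real.sqrt_mul (by positivity), Real.sqrt_sq hn, mul_comm]
  have hrow : ∀ k : Fin n, ∑ l : Fin n, (if (l : ℕ) = k + s ∧ S.segN m x k = S.segN m x l then
        max (dg (tilt W ψ) k - dg (tilt W ψ) l) 0 else 0) ≤
      (if k ∈ Z then dg (tilt W ψ) k - dg (tilt W ψ) (f k) else 0) +
        ind (S.toSeq.Xset m s) (x + (k : ℕ) • (θ : TT)) := by
    intro k
    have hi0 := ind_nonneg (S.toSeq.Xset m s) (x + (k : ℕ) • (θ : TT))
    have hZ0 : 0 ≤ (if k ∈ Z then dg (tilt W ψ) k - dg (tilt W ψ) (f k) else 0) := by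
      split_ifs with hk
      · simp only [hZ, mem_filter, mem_univ, true_and] at hk
        linarith [hk.2.2.2]
      · exact le_rfl
    by_cases hk : (k : ℕ) + s < n
    · have hfk : f k = ⟨k + s, hk⟩ := by simp [hf, hk]
      rw [sum_eq_single (f k)]
      · split_ifs with c1 c2 c2
        · simp only [hZ, mem_filter, mem_univ, true_and] at c2
          rw [max_eq_left (by linarith [c2.2.2.2])]
          linarith
        · by_cases hkX : k ∈ X
          · have : x + (k : ℕ) • (θ : TT) ∈ S.toSeq.Xset m s := by simpa [hX] using hkX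
            rw [ind_of_mem this]
            have d1 := dg_le_one (tilt W ψ) k
            have d2 := dg_nonneg (tilt W ψ) (f k)
            simp only [zero_add, max_le_iff, zero_le_one, and_true]
            linarith
          · simp only [hZ, mem_filter, mem_univ, true_and, not_and, not_le] at c2
            have := c2 hkX hk (by rw [c1.2, c1.1])
            rw [max_eq_right (by linarith)]
            linarith
        · rw [if_pos c2] at hZ0; linarith
        · linarith
      · intro l _ hl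
        rw [if_neg]
        intro c
        exact hl (by rw [hfk]; exact Fin.ext c.1)
      · simp
    · rw [sum_eq_zero]
      · linarith
      · intro l _
        rw [if_neg]
        intro c
        have := l.2
        omega
  have hsum := sum_le_sum (s := univ) fun k _ => hrow k
  rw [sum_add_distrib, ← sum_filter, filter_mem_eq_inter, univ_inter] at hsum
  nlinarith

theorem H6_bound {n : ℕ} (m M : ℕ) (hmM : m ≤ M) (x : TT)
    (W : Submodule ℂ (EE (Fin n))) (ψ : Fin n → ℝ)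
    (h : Adm (fun k : Fin n => S.segN m x k) (fun k => S.YN m x k)
      (fun k => S.gauge m (x + (k : ℕ) • (θ : TT))) (S.lam m) ψ) (ρ ξ : ℝ)
    (hE : leak W (mop (shiftM n (S.wt x))) W ≤ ρ * n)
    (hExc : ∑ k ∈ range n, S.toSeq.Exc m M (x + k • (θ : TT)) ≤ ξ * n) :
    ∑ k : Fin n, ∑ l : Fin n, (if k < l ∧ S.segN m x k = S.segN m x l then
        max (dg (tilt W ψ) k - dg (tilt W ψ) l) 0 else 0) ≤
      (2 * ξ + (2 * √(S.Km m * ρ) + S.Km m * ρ)) * n * S.toSeq.N m := by
  have hN := S.N_pos' m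
  have key := sum_le_sum (s := Icc 1 (S.toSeq.N m)) fun s hs =>
    S.mono_one m s (mem_Icc.mp hs).2 x W ψ h ρ hE
  have a0 : ∑ k : Fin n, ∑ l : Fin n, (if k < l ∧ S.segN m x k = S.segN m x l then
        max (dg (tilt W ψ) k - dg (tilt W ψ) l) 0 else 0) ≤
      ∑ s ∈ Icc 1 (S.toSeq.N m), ∑ k : Fin n, ∑ l : Fin n,
        (if (l : ℕ) = k + s ∧ S.segN m x k = S.segN m x l then
          max (dg (tilt W ψ) k - dg (tilt W ψ) l) 0 else 0) := by
    rw [sum_comm (s := Icc 1 (S.toSeq.N m))]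
    refine sum_le_sum fun k _ => ?_
    rw [sum_comm (s := Icc 1 (S.toSeq.N m))]
    refine sum_le_sum fun l _ => ?_
    have hnn : ∀ s ∈ Icc 1 (S.toSeq.N m), 0 ≤ (if (l : ℕ) = k + s ∧ S.segN m x k = S.segN m x l then
          max (dg (tilt W ψ) k - dg (tilt W ψ) l) 0 else 0) := fun s _ => by
      split_ifs
      · exact le_max_right _ _
      · exact le_rfl
    split_ifs with c
    · have hlt : (k : ℕ) < l := c.1
      obtain ⟨D, hD⟩ := Nat.exists_eq_add_of_le hlt.le
      have c2 := c.2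
      rw [hD] at c2
      have c3 := (S.segN_add_iff m x k D).mp c2
      have c4 := S.toSeq.P_le_N m (x + (k : ℕ) • (θ : TT))
      have hmem : D ∈ Icc 1 (S.toSeq.N m) := mem_Icc.mpr ⟨by omega, by omega⟩
      refine le_trans (le_of_eq ?_) (single_le_sum hnn hmem)
      rw [if_pos ⟨hD, c.2⟩]
    · exact sum_nonneg hnn
  have a3 : ∑ s ∈ Icc 1 (S.toSeq.N m), ∑ k : Fin n,
        ind (S.toSeq.Xset m s) (x + (k : ℕ) • (θ : TT)) =
      (∑ k : Fin n, S.toSeq.Exc1 m (x + (k : ℕ) • (θ : TT))) * S.toSeq.N m := by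
    rw [sum_comm, sum_mul]
    refine sum_congr rfl fun k _ => ?_
    unfold Seq.Exc1
    field_simp
  have a4 := mul_le_mul_of_nonneg_right ((S.sum_Exc1_le m M m n le_rfl hmM x).trans hExc) hN.le
  rw [sum_add_distrib, ← mul_sum, a3] at key
  simp only [sum_const, Nat.card_Icc, add_tsub_cancel_right, nsmul_eq_mul] at key
  nlinarith

end Sys

end Crest.Agent.R113
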