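import Crest.Agent.R113.OrbitC
import Crest.Agent.R113.Endgame

/-! Row 113, S0149: the deterministic contradiction along one orbit segment. -/

set_option autoImplicit false

noncomputable section

namespace Crest.Agent.R113

open Finset

theorem card_good {n N : ℕ} (A : Set TT) (y : ℕ → TT) [DecidablePred fun k : Fin n => y k ∉ A]
    (h : ∑ k ∈ range n, ind A (y k) ≤ n / 4) (hN : (N : ℝ) ≤ n / 4) :
    (n : ℝ) / 2 ≤ (univ.filter fun k : Fin n => y k ∉ A ∧ (k : ℕ) + N ≤ n).card := by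
  classical
  have h1 := card_filter_le_add n N
  rw [← Fin.sum_univ_eq_sum_range (fun k => ind A (y k)) n] at h
  rw [card_filter] at h1 ⊢
  push_cast at h1 ⊢
  have h2 : ∑ k : Fin n, (1 : ℝ) ≤ ∑ k : Fin n, ((if y k ∉ A ∧ (k : ℕ) + N ≤ n then (1 : ℝ) else 0)
      + ind A (y k) + if n ≤ (k : ℕ) + N then (1 : ℝ) else 0) := by
    refine sum_le_sum fun k _ => ?_
    have hi := ind_nonneg A (y k)
    by_cases ha : y k ∈ A
    · rw [ind_of_mem ha]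
      split_ifs <;> norm_num
    · by_cases hb : (k : ℕ) + N ≤ n
      · rw [if_pos ⟨ha, hb⟩]
        split_ifs <;> linarith
      · rw [if_neg (fun c => hb c.2), if_pos (by omega)]
        linarith
  rw [sum_add_distrib, sum_add_distrib] at h2
  simp only [sum_const, card_univ, Fintype.card_fin, nsmul_eq_mul, mul_one] at h2
  linarith

theorem orbit_core {θ : ℝ} (S : Sys θ) (α η' ξ ρ : ℝ) (hα0 : 0 < α) (hα1 : α < 1) (hη' : 0 < η')
    (hη3 : η' ≤ 1 / 3) (l s e1 L n : ℕ) (hl : 1 ≤ l) (hs : 28 ≤ s) (he : 27 ≤ e1) (hL0 : 1 ≤ L)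
    (hL : (L : ℝ) ≤ (S.R : ℝ) ^ Seq.top s e1)
    (hth : 3 / (S.R : ℝ) ^ (2 ^ s) ≤ S.δ / 2) (hξ0 : 0 ≤ ξ)
    (hξ : l * (12 / (S.R : ℝ) ^ (2 ^ s)) + (2 * l + 3) * ξ + 12 / 2 ^ (2 ^ s) ≤ η' / 4)
    (hm : 1 / (((2 ^ s : ℕ) : ℝ) + 1) ≤ η')
    (hρ1 : (Seq.top s e1 + 1) * (2 * √(S.Kt (2 ^ s) (Seq.top s e1) * ρ)) ≤ η' / 4)
    (hρ2 : 2 * √(S.Km (2 ^ s) * ρ) + S.Km (2 ^ s) * ρ ≤ η' / 2)
    (hn1 : l * ((Seq.top s e1 : ℝ) + 1) + (Seq.top s e1 + 1) * (9 * (S.R : ℝ) ^ Seq.top s e1)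
      ≤ η' / 4 * n)
    (hn2 : (S.toSeq.N (2 ^ s) : ℝ) ≤ n / 4)
    (x : TT) (W : Submodule ℂ (EE (Fin n))) (Nb : ℝ) (d : ℕ → ℝ)
    (hd : ∀ k : Fin n, d k = dg W k)
    (hBad : ∑ k ∈ range n, ind (S.toSeq.BadSet s e1) (x + k • (θ : TT)) ≤ n / 4)
    (hNN : ∑ k ∈ range n, (S.toSeq.NN (2 ^ s) (Seq.top s e1) (x + k • (θ : TT)) - Nb) ^ 2
      ≤ 10000 * n)
    (hXi : ∑ k ∈ range n, S.toSeq.Xi (2 ^ s) (Seq.top s e1) (x + k • (θ : TT)) ^ 2 ≤ 10000 * n)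
    (hExc : ∑ k ∈ range n, S.toSeq.Exc (2 ^ s) (Seq.top s e1) (x + k • (θ : TT)) ≤ ξ * n)
    (hloc : ∑ k ∈ range (n - l), ((∑ j ∈ range l, d (k + j)) / l - α) ^ 2 ≤ (η' / 400) ^ 2 * n)
    (hfar : ∑ k : Fin n, ∑ k' : Fin n,
      (if (k : ℕ) / L ≠ (k' : ℕ) / L then ker2 W k k' else 0) ≤
        η' * Real.exp (-(4 * S.Gam (2 ^ s))) * n)
    (hE : leak W (mop (shiftM n (S.wt x))) W ≤ ρ * n) :
    α * (1 - α) * (n / 2) ≤ n * (Real.exp 4 / (((2 ^ s : ℕ) : ℝ) + 1)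
      + √(3 * η') * (3 + 2 * (√21000 + 18 + 1) / (S.δ / 2 ^ 34) + 20 / S.δ)) := by
  classical
  set m := 2 ^ s with hmdef
  set M := Seq.top s e1 with hM
  have hmM : m ≤ M := by
    have : 2 ^ s ≤ 2 ^ max s (e1 + 2) := Nat.pow_le_pow_right (by norm_num) (le_max_left _ _)
    exact this.trans (Nat.le_add_right _ _)
  have hn : (0 : ℝ) ≤ n := Nat.cast_nonneg n
  have hl0 : (0 : ℝ) ≤ l := Nat.cast_nonneg l
  have hM0 : (0 : ℝ) ≤ M := Nat.cast_nonneg M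
  have h2R := S.toSeq.two_le_R
  have hδ := S.δ_pos
  have hN := S.N_pos' m
  have hlam := S.one_le_lam m
  have hlam' := S.lam_ge m
  have hLow := S.Low_nonneg m
  have hRm : (0 : ℝ) < (S.R : ℝ) ^ m := by positivity
  have hRM : (0 : ℝ) < (S.R : ℝ) ^ M := by positivity
  have hm1 : (0 : ℝ) < (m : ℝ) + 1 := by positivity
  have hsq : √((η' / 400) ^ 2) = η' / 400 := Real.sqrt_sq (by positivity)
  have hG0 : 0 ≤ 3 * (S.R : ℝ) ^ m * S.Low m := by positivity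
  have hG1 : 3 * (S.R : ℝ) ^ m * S.Low m / S.lam m ≤ η' := by
    refine le_trans ?_ hm
    rw [div_le_div_iff₀ (by linarith) hm1]
    nlinarith [sq_nonneg ((S.R : ℝ) ^ m)]
  have hG2 : Real.exp 4 * (S.toSeq.N m : ℝ) ^ 2 / S.lam m ≤ Real.exp 4 / ((m : ℝ) + 1) := by
    rw [div_le_div_iff₀ (by linarith) hm1, mul_assoc]
    refine mul_le_mul_of_nonneg_left ?_ (Real.exp_pos _).le
    have h1 := S.toSeq.N_le m
    have h2 : (S.toSeq.N m : ℝ) ^ 2 ≤ 9 * ((S.R : ℝ) ^ m) ^ 2 := by nlinarith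
    nlinarith
  have hKt := Real.sqrt_nonneg (S.Kt m M * ρ)
  have b1 := mul_le_mul_of_nonneg_right hξ hn
  have b2 := mul_le_mul_of_nonneg_right hρ1 hn
  have b3 : 0 ≤ l * (1 / (S.R : ℝ) ^ m) * n := by positivity
  have b4 : 0 ≤ (1 / 2 ^ m : ℝ) * n := by positivity
  have b5 : 0 ≤ ξ * n := by positivity
  have b6 : 0 ≤ l * (ξ * n) := by positivity
  have b7 : 0 ≤ η' * n := by positivity
  have b8 : 0 ≤ M * (n * √(S.Kt m M * ρ)) := by positivity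
  have b9 : 0 ≤ (l : ℝ) * M := by positivity
  have b10 : 0 ≤ (M : ℝ) * (S.R : ℝ) ^ M := by positivity
  have b11 : 0 ≤ n * √(S.Kt m M * ρ) := by positivity
  have key := endgame (dppOf W) (S.toSeq.N m) (S.toSeq.N_pos m) (fun k => S.segN m x k)
    (fun k => (k : ℕ) / L) (fun k => S.YN m x k) (fun k => S.gauge m (x + (k : ℕ) • (θ : TT)))
    (fun k => S.toSeq.NN m M (x + (k : ℕ) • (θ : TT)))
    (fun k k' => S.toSeq.sepf m M (x + (k : ℕ) • (θ : TT)) (x + (k' : ℕ) • (θ : TT)))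
    (univ.filter fun k : Fin n => x + (k : ℕ) • (θ : TT) ∉ S.toSeq.BadSet s e1 ∧
      (k : ℕ) + S.toSeq.N m ≤ n)
    α η' (S.lam m) (3 * (S.R : ℝ) ^ m * S.Low m) (S.δ / 2 ^ 34) S.δ 21000 18 hα0.le hα1.le hη'.le
    hlam hG0 (by positivity) hδ (by norm_num) (by norm_num) (by linarith)
    (fun k k' h => S.segN_mono m x h) (fun k => S.YN_nonneg m x k) (fun k => S.YN_le_one m x k)
    (fun k k' h => S.YN_sub m x k k' h) (fun k => S.abs_gauge_le m _)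
    (fun k k' => S.toSeq.sepf_nonneg m M _ _)
    (by
      intro ψ hψ
      have c1 := S.H1_bound m M n hmM x W ψ (S.adm_bound m x ψ hψ) ρ ξ hE hExc
      have c2 := S.sum_p_Xi1 m M n l hmM hl x W d hd α _ ξ hα0.le hα1.le (by positivity) hloc hExc
      rw [hsq] at c2
      simp only [dppOf, tilt_zero, Sys.YN]
      simp only [div_eq_mul_one_div (12 : ℝ), div_eq_mul_one_div (6 : ℝ)] at b1 c1 c2
      linarith)
    (by
      intro ψ hψ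
      have c1 := S.H2_bound m M n x W ψ (S.adm_bound m x ψ hψ) ρ ξ hE hExc
      have c2 := S.sum_p_Xi m M n l hl x W d hd α _ ξ hα0.le hα1.le (by positivity) hloc hXi hExc
      rw [hsq] at c2
      simp only [dppOf, tilt_zero]
      simp only [div_eq_mul_one_div (12 : ℝ)] at b1 c1 c2
      linarith)
    (S.H3_bound m M n x Nb hNN)
    (by
      intro ψ hψ
      have c1 := far_tilt W ψ (S.Gam m) (S.adm_bound m x ψ hψ) (fun k => (k : ℕ) / L)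
      have c2 := mul_le_mul_of_nonneg_left hfar (Real.exp_pos (4 * S.Gam m)).le
      have c3 : Real.exp (4 * S.Gam m) * (η' * Real.exp (-(4 * S.Gam m)) * n) = η' * n := by
        rw [Real.exp_neg]; field_simp
      simp only [dppOf]
      linarith)
    (by
      intro k hk k' h1 h2
      simp only [mem_filter, mem_univ, true_and] at hk
      exact S.H5_bound s e1 L hs he hL0 hL hth x k k' hk.1 h1 h2)
    (by
      intro k hk
      simp only [mem_filter, mem_univ, true_and] at hk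
      have c1 := S.P_le_card m n x k hk.2
      have c2 : ¬ ((S.toSeq.P m (x + (k : ℕ) • (θ : TT)) : ℝ) ≤ 2 * S.δ * S.toSeq.N m) :=
        fun c => hk.1 (Or.inr (Or.inr c))
      have c3 : (S.toSeq.P m (x + (k : ℕ) • (θ : TT)) : ℝ) ≤
          ((univ.filter fun l : Fin n => S.segN m x l = S.segN m x k).card : ℝ) := by
        exact_mod_cast c1
      have c4 : 0 ≤ S.δ * S.toSeq.N m := by positivity
      push Not at c2
      linarith)
    (by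
      intro ψ hψ
      have c1 := S.H6_bound m M hmM x W ψ hψ ρ ξ hE hExc
      have c2 : 2 * ξ + (2 * √(S.Km m * ρ) + S.Km m * ρ) ≤ η' := by
        have d1 : 0 ≤ l * (12 / (S.R : ℝ) ^ m) := by positivity
        have d2 : (0 : ℝ) ≤ 12 / 2 ^ m := by positivity
        have d3 : 0 ≤ l * ξ := by positivity
        linarith
      simp only [dppOf]
      refine c1.trans ?_
      gcongr)
    (by
      intro φ h1 h2
      have c1 := S.H7_bound m M n l hmM hl x W d hd α _ ξ hα0.le hα1.le (by positivity) hloc hExc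
        φ h1 h2
      rw [hsq] at c1
      simp only [dppOf, tilt_zero]
      simp only [div_eq_mul_one_div (12 : ℝ), div_eq_mul_one_div (3 : ℝ)] at b1 c1
      linarith)
  have hG := card_good (N := S.toSeq.N m) (S.toSeq.BadSet s e1) (fun k => x + k • (θ : TT)) hBad hn2
  have ha : 0 ≤ α * (1 - α) := mul_nonneg hα0.le (by linarith)
  have f1 := mul_le_mul_of_nonneg_left hG ha
  refine f1.trans (key.trans (mul_le_mul_of_nonneg_left ?_ hn))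
  have f2 : √(2 * η' + 3 * (S.R : ℝ) ^ m * S.Low m / S.lam m) ≤ √(3 * η') :=
    Real.sqrt_le_sqrt (by linarith)
  have f3 : 0 ≤ 3 + 2 * (√21000 + 18 + 1) / (S.δ / 2 ^ 34) + 20 / S.δ := by positivity
  have f4 := mul_le_mul_of_nonneg_right f2 f3
  linarith

theorem exists_rho (η' A B M : ℝ) (hη' : 0 < η') (hη3 : η' ≤ 1 / 3) (hA : 0 < A) (hB : 0 < B)
    (hM : 0 ≤ M) : ∃ ρ : ℝ, 0 < ρ ∧ (M + 1) * (2 * √(A * ρ)) ≤ η' / 4 ∧
      2 * √(B * ρ) + B * ρ ≤ η' / 2 := by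
  refine ⟨min ((η' / (8 * (M + 1))) ^ 2 / A) ((η' / 8) ^ 2 / B), by positivity, ?_, ?_⟩
  · have h1 : √(A * min ((η' / (8 * (M + 1))) ^ 2 / A) ((η' / 8) ^ 2 / B)) ≤
        η' / (8 * (M + 1)) := by
      rw [Real.sqrt_le_left (by positivity), mul_comm, ← le_div_iff₀ hA]
      exact min_le_left _ _
    calc _ ≤ (M + 1) * (2 * (η' / (8 * (M + 1)))) := by gcongr
      _ = _ := by field_simp; norm_num
  · have h0 : B * min ((η' / (8 * (M + 1))) ^ 2 / A) ((η' / 8) ^ 2 / B) ≤ (η' / 8) ^ 2 := by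
      rw [mul_comm, ← le_div_iff₀ hB]
      exact min_le_right _ _
    have h1 : √(B * min ((η' / (8 * (M + 1))) ^ 2 / A) ((η' / 8) ^ 2 / B)) ≤ η' / 8 := by
      rw [Real.sqrt_le_left (by positivity)]
      exact h0
    nlinarith

theorem exists_n0 (η' A B : ℝ) (hη' : 0 < η') : ∃ n0 : ℕ, ∀ n : ℕ, n0 ≤ n →
    (0 : ℝ) < n ∧ A ≤ n / 4 ∧ B ≤ η' / 4 * n := by
  obtain ⟨n0, hn0⟩ := exists_nat_ge (1 + 4 * |A| + |B| / (η' / 4))
  refine ⟨n0, fun n hn => ?_⟩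
  have hn' : (n0 : ℝ) ≤ n := by exact_mod_cast hn
  have r1 : 0 ≤ |B| / (η' / 4) := by positivity
  have r2 := abs_nonneg A
  have r3 := le_abs_self A
  have r4 := le_abs_self B
  have h1 : |B| / (η' / 4) ≤ n := by linarith
  rw [div_le_iff₀ (by positivity)] at h1
  exact ⟨by linarith, by linarith, by linarith⟩

theorem orbit_main {θ : ℝ} (S : Sys θ) (α : ℝ) (hα0 : 0 < α) (hα1 : α < 1) :
    ∃ η : ℝ, 0 < η ∧ ∀ l : ℕ, 1 ≤ l → ∃ s : ℕ, ∃ ζ : ℝ, 0 < ζ ∧ ∀ L : ℕ, 1 ≤ L →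
      ∃ e1 : ℕ, ∃ ρ : ℝ, 0 < ρ ∧ ∃ n0 : ℕ, ∀ n : ℕ, n0 ≤ n →
      ∀ (x : TT) (W : Submodule ℂ (EE (Fin n))) (Nb : ℝ) (d : ℕ → ℝ),
        (∀ k : Fin n, d k = dg W k) →
        ∑ k ∈ range n, ind (S.toSeq.BadSet s e1) (x + k • (θ : TT)) ≤ n / 4 →
        ∑ k ∈ range n, (S.toSeq.NN (2 ^ s) (Seq.top s e1) (x + k • (θ : TT)) - Nb) ^ 2
          ≤ 10000 * n →
        ∑ k ∈ range n, S.toSeq.Xi (2 ^ s) (Seq.top s e1) (x + k • (θ : TT)) ^ 2 ≤ 10000 * n →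
        ∑ k ∈ range n, S.toSeq.Exc (2 ^ s) (Seq.top s e1) (x + k • (θ : TT))
          ≤ 1000 / 2 ^ (2 ^ s) * n →
        ∑ k ∈ range (n - l), ((∑ j ∈ range l, d (k + j)) / l - α) ^ 2 ≤ η * n →
        ∑ k : Fin n, ∑ k' : Fin n,
          (if (k : ℕ) / L ≠ (k' : ℕ) / L then ker2 W k k' else 0) ≤ ζ * n →
        leak W (mop (shiftM n (S.wt x))) W ≤ ρ * n → False := by
  have hδ := S.δ_pos
  have h2R := S.toSeq.two_le_R
  have ha : 0 < α * (1 - α) := mul_pos hα0 (by linarith)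
  set C : ℝ := 3 + 2 * (√21000 + 18 + 1) / (S.δ / 2 ^ 34) + 20 / S.δ with hC
  have hC0 : 0 < C := by positivity
  obtain ⟨η', hη', hη3, hηC⟩ : ∃ η' : ℝ, 0 < η' ∧ η' ≤ 1 / 3 ∧ √(3 * η') * C ≤ α * (1 - α) / 8 := by
    refine ⟨min (1 / 3) ((α * (1 - α) / (8 * C)) ^ 2 / 3), by positivity, min_le_left _ _, ?_⟩
    have h1 : √(3 * min (1 / 3) ((α * (1 - α) / (8 * C)) ^ 2 / 3)) ≤ α * (1 - α) / (8 * C) := by
      rw [Real.sqrt_le_left (by positivity)]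
      have := min_le_right (1 / 3 : ℝ) ((α * (1 - α) / (8 * C)) ^ 2 / 3)
      linarith
    calc _ ≤ α * (1 - α) / (8 * C) * C := mul_le_mul_of_nonneg_right h1 hC0.le
      _ = _ := by field_simp
  refine ⟨(η' / 400) ^ 2, by positivity, fun l hl => ?_⟩
  obtain ⟨s, hs⟩ := exists_nat_ge (28 + (12 * l + (2 * l + 3) * 1000 + 12) / (η' / 4) + 6 / S.δ
    + 1 / η' + Real.exp 4 / (α * (1 - α) / 8))
  have q1 : (0 : ℝ) ≤ (12 * l + (2 * l + 3) * 1000 + 12) / (η' / 4) := by positivity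
  have q2 : (0 : ℝ) ≤ 6 / S.δ := by positivity
  have q3 : (0 : ℝ) ≤ 1 / η' := by positivity
  have q4 : (0 : ℝ) ≤ Real.exp 4 / (α * (1 - α) / 8) := by positivity
  have hs28 : 28 ≤ s := by
    have : (28 : ℝ) ≤ s := by linarith
    exact_mod_cast this
  have hsm : (s : ℝ) ≤ ((2 ^ s : ℕ) : ℝ) := by exact_mod_cast (Nat.lt_two_pow_self).le
  have hm2 : ((2 ^ s : ℕ) : ℝ) ≤ (2 : ℝ) ^ (2 ^ s) := by
    exact_mod_cast (Nat.lt_two_pow_self (n := 2 ^ s)).le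
  have hmR : (2 : ℝ) ^ (2 ^ s) ≤ (S.R : ℝ) ^ (2 ^ s) := pow_le_pow_left₀ (by norm_num) h2R _
  have h2p : (0 : ℝ) < (2 : ℝ) ^ (2 ^ s) := by positivity
  have hth : 3 / (S.R : ℝ) ^ (2 ^ s) ≤ S.δ / 2 := by
    have h1 : 6 / S.δ ≤ (S.R : ℝ) ^ (2 ^ s) := by linarith
    rw [div_le_iff₀ hδ] at h1
    rw [div_le_iff₀ (by positivity)]
    linarith
  have hξ : l * (12 / (S.R : ℝ) ^ (2 ^ s)) + (2 * l + 3) * (1000 / 2 ^ (2 ^ s)) + 12 / 2 ^ (2 ^ s)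
      ≤ η' / 4 := by
    have h1 : (12 * l + (2 * l + 3) * 1000 + 12) / (η' / 4) ≤ (2 : ℝ) ^ (2 ^ s) := by linarith
    rw [div_le_iff₀ (by positivity)] at h1
    have h2 : 12 / (S.R : ℝ) ^ (2 ^ s) ≤ 12 / 2 ^ (2 ^ s) := by gcongr
    have h3 := mul_le_mul_of_nonneg_left h2 (Nat.cast_nonneg l : (0 : ℝ) ≤ l)
    have h4 : l * (12 / (2 : ℝ) ^ (2 ^ s)) + (2 * l + 3) * (1000 / 2 ^ (2 ^ s)) + 12 / 2 ^ (2 ^ s)
        = (12 * l + (2 * l + 3) * 1000 + 12) / 2 ^ (2 ^ s) := by ring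
    have h5 : (12 * l + (2 * l + 3) * 1000 + 12) / (2 : ℝ) ^ (2 ^ s) ≤ η' / 4 := by
      rw [div_le_iff₀ h2p]; linarith
    linarith
  have hm : 1 / (((2 ^ s : ℕ) : ℝ) + 1) ≤ η' := by
    have h1 : 1 / η' ≤ ((2 ^ s : ℕ) : ℝ) + 1 := by linarith
    rw [div_le_iff₀ hη'] at h1
    rw [div_le_iff₀ (by positivity)]
    linarith
  have he4 : Real.exp 4 / (((2 ^ s : ℕ) : ℝ) + 1) ≤ α * (1 - α) / 8 := by
    have h1 : Real.exp 4 / (α * (1 - α) / 8) ≤ ((2 ^ s : ℕ) : ℝ) + 1 := by linarith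
    rw [div_le_iff₀ (by positivity)] at h1
    rw [div_le_iff₀ (by positivity)]
    linarith
  refine ⟨s, η' * Real.exp (-(4 * S.Gam (2 ^ s))), by positivity, fun L hL0 => ?_⟩
  obtain ⟨e1, he27, heL⟩ : ∃ e1 : ℕ, 27 ≤ e1 ∧ L ≤ e1 := ⟨L + 27, by omega, by omega⟩
  have hL : (L : ℝ) ≤ (S.R : ℝ) ^ Seq.top s e1 := by
    have h1 : L ≤ Seq.top s e1 := by
      have := Nat.lt_two_pow_self (n := e1 + 2)
      exact le_trans (le_trans (heL.trans (Nat.le_add_right e1 2)) this.le) (Nat.le_add_left _ _)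
    have h2 : ((Seq.top s e1 : ℕ) : ℝ) ≤ (2 : ℝ) ^ Seq.top s e1 := by
      exact_mod_cast (Nat.lt_two_pow_self (n := Seq.top s e1)).le
    have h3 : (2 : ℝ) ^ Seq.top s e1 ≤ (S.R : ℝ) ^ Seq.top s e1 :=
      pow_le_pow_left₀ (by norm_num) h2R _
    have h4 : (L : ℝ) ≤ ((Seq.top s e1 : ℕ) : ℝ) := by exact_mod_cast h1
    linarith
  obtain ⟨ρ, hρ, hρ1, hρ2⟩ := exists_rho η' (S.Kt (2 ^ s) (Seq.top s e1)) (S.Km (2 ^ s))
    (Seq.top s e1) hη' hη3 (S.Kt_pos _ _) (S.Km_pos _) (Nat.cast_nonneg _)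
  obtain ⟨n0, hn0⟩ := exists_n0 η' (S.toSeq.N (2 ^ s))
    (l * ((Seq.top s e1 : ℝ) + 1) + (Seq.top s e1 + 1) * (9 * (S.R : ℝ) ^ Seq.top s e1)) hη'
  refine ⟨e1, ρ, hρ, n0, fun n hn x W Nb d hd hBad hNN hXi hExc hloc hfar hE => ?_⟩
  obtain ⟨hnpos, hn2, hn1⟩ := hn0 n hn
  have key := orbit_core S α η' (1000 / 2 ^ (2 ^ s)) ρ hα0 hα1 hη' hη3 l s e1 L n hl hs28
    he27 hL0 hL hth (div_nonneg (by norm_num) h2p.le) hξ hm hρ1 hρ2 hn1 hn2 x W Nb d hd hBad hNN hXi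
    hExc hloc hfar hE
  have f1 : (n : ℝ) * (Real.exp 4 / (((2 ^ s : ℕ) : ℝ) + 1) + √(3 * η') * C) ≤
      n * (α * (1 - α) / 4) := mul_le_mul_of_nonneg_left (by linarith only [he4, hηC]) hnpos.le
  have f2 := mul_pos hnpos ha
  have f3 := key.trans f1
  linarith only [f2, f3]

end Crest.Agent.R113
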