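import Crest.Agent.R113.ReduceA

/-! Row 113, S0149: symbols of operators commuting with the right shift. -/

set_option autoImplicit false

noncomputable section

namespace Crest.Agent.R113.Red

open MeasureTheory Filter
open scoped InnerProductSpace ComplexConjugate ENNReal Topology

/-- The symbol of a matrix entry. -/
def sym (A : HH →L[ℂ] HH) (j k : ℤ) : LL := hat j (A (dd (k, 0)))

/-- The matrix of symbols. -/
def SM (A : HH →L[ℂ] HH) (n : ℕ) (x : TT) : Matrix (Fin n) (Fin n) ℂ :=
  fun j k => sym A (j : ℕ) (k : ℕ) x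

variable {V' A B : HH →L[ℂ] HH}

theorem hat_V' (hV' : ∀ a b, V' (dd (a, b)) = dd (a, b + 1)) (j : ℤ) (v : HH) :
    hat j (V' v) = Mop (fourier 1) (hat j v) := by
  have : (hat j).comp V' = (Mop (fourier 1)).comp (hat j) := HH_ext fun ⟨a, b⟩ => by
    simp only [ContinuousLinearMap.comp_apply, hV', hat_dd]
    split_ifs
    · rw [Mop_fourier, add_comm]
    · rw [map_zero]
  exact DFunLike.congr_fun this v

theorem hat_comm (hV' : ∀ a b, V' (dd (a, b)) = dd (a, b + 1)) (hA : Commute A V') (j k b : ℤ) :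
    hat j (A (dd (k, b))) = Mop (fourier b) (sym A j k) := by
  have step : ∀ b, hat j (A (dd (k, b + 1))) = Mop (fourier 1) (hat j (A (dd (k, b)))) :=
    fun b => by rw [← hV', ← mul_apply_eq_comp, hA.eq, mul_apply_eq_comp, hat_V' hV']
  induction b using Int.induction_on with
  | zero => rw [Mop_fourier_zero, sym]
  | succ b ih => rw [step, ih, Mop_fourier_add, add_comm]
  | pred b ih =>
    have h := congrArg (Mop (fourier (-1))) (step (-b - 1))
    rw [sub_add_cancel, ih, Mop_fourier_add, Mop_fourier_add, neg_add_cancel,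
      Mop_fourier_zero] at h
    rw [← h, add_comm, sub_eq_add_neg]

theorem coeFn_hat_JJ (hV' : ∀ a b, V' (dd (a, b)) = dd (a, b + 1)) (hA : Commute A V') (j k : ℤ)
    (g : LL) : hat j (A (JJ k g)) =ᵐ[μT] fun x => sym A j k x * g x := by
  have := coeFn_of_comm (B := (hat j).comp (A.comp (JJ k))) (fun b => by
    simp only [ContinuousLinearMap.comp_apply, JJ_fb]
    exact hat_comm hV' hA j k b) g
  simpa only [ContinuousLinearMap.comp_apply, JJ_fb, sym] using this

theorem ae_matrix {n : ℕ} {M N : TT → Matrix (Fin n) (Fin n) ℂ}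
    (h : ∀ j k, ∀ᵐ x ∂μT, M x j k = N x j k) : ∀ᵐ x ∂μT, M x = N x := by
  filter_upwards [ae_all_iff.2 fun j => ae_all_iff.2 (h j)] with x hx
  exact Matrix.ext hx

theorem SM_mul (hV' : ∀ a b, V' (dd (a, b)) = dd (a, b + 1)) (hA : Commute A V')
    (B : HH →L[ℂ] HH) (n : ℕ) : ∀ᵐ x ∂μT, SM (A * PE n * B) n x = SM A n x * SM B n x :=
  ae_matrix fun j k => by
    have e : sym (A * PE n * B) (j : ℕ) (k : ℕ) =
        ∑ l : Fin n, hat (j : ℕ) (A (JJ (l : ℕ) (sym B (l : ℕ) (k : ℕ)))) := by
      rw [sym, mul_apply_eq_comp, mul_apply_eq_comp, PE_apply, map_sum, map_sum, Finset.sum_range]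
      rfl
    filter_upwards [Lp.coeFn_fun_finsetSum Finset.univ fun l : Fin n =>
      hat (j : ℕ) (A (JJ (l : ℕ) (sym B (l : ℕ) (k : ℕ)))), ae_all_iff.2 fun l : Fin n =>
        coeFn_hat_JJ hV' hA (j : ℕ) (l : ℕ) (sym B (l : ℕ) (k : ℕ))] with x h1 h2
    rw [Matrix.mul_apply, SM, e, h1]
    exact Finset.sum_congr rfl fun l _ => h2 l

theorem SM_sub (A B : HH →L[ℂ] HH) (n : ℕ) :
    ∀ᵐ x ∂μT, SM (A - B) n x = SM A n x - SM B n x :=
  ae_matrix fun j k => by
    filter_upwards [Lp.coeFn_sub (sym A (j : ℕ) (k : ℕ)) (sym B (j : ℕ) (k : ℕ))] with x h1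
    rw [SM, sym, sub_apply, map_sub]
    exact h1

theorem SM_one (n : ℕ) : ∀ᵐ x ∂μT, SM 1 n x = 1 :=
  ae_matrix fun j k => by
    filter_upwards [coeFn_fb 0, Lp.coeFn_zero ℂ 2 μT] with x h1 h2
    rw [SM, sym, one_apply_eq_self, hat_dd, Matrix.one_apply]
    by_cases h : j = k
    · simp [h, h1]
    · rw [if_neg (by omega), if_neg h, h2]; rfl

theorem lintegral_mhs (A : HH →L[ℂ] HH) (n : ℕ) :
    ∫⁻ x, ENNReal.ofReal (mhs (SM A n x)) ∂μT ≤
      ENNReal.ofReal (∑ k ∈ Finset.range n, ‖A (dd (k, 0))‖ ^ 2) := by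
  have hm : ∀ g : LL, AEMeasurable (fun x => ENNReal.ofReal (‖g x‖ ^ 2)) μT := fun g =>
    ((Lp.aestronglyMeasurable g).norm.aemeasurable.pow_const 2).ennreal_ofReal
  simp only [mhs, SM]
  simp_rw [ENNReal.ofReal_sum_of_nonneg fun _ _ => Finset.sum_nonneg fun _ _ => sq_nonneg _,
    ENNReal.ofReal_sum_of_nonneg fun _ _ => sq_nonneg _]
  rw [lintegral_finsetSum' _ fun _ _ => Finset.aemeasurable_fun_sum _ fun _ _ => hm _]
  simp_rw [lintegral_finsetSum' _ fun _ _ => hm _, lintegral_norm_sq]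
  rw [Finset.sum_comm, Finset.sum_range]
  refine Finset.sum_le_sum fun k _ => ?_
  rw [← ENNReal.ofReal_sum_of_nonneg fun _ _ => sq_nonneg _]
  refine ENNReal.ofReal_le_ofReal (le_trans (le_of_eq ?_) (sum_hat_le
    (Finset.univ.image fun j : Fin n => ((j : ℕ) : ℤ)) _))
  rw [Finset.sum_image fun a _ b _ h => by omega]
  rfl

theorem sym_star (hV' : ∀ a b, V' (dd (a, b)) = dd (a, b + 1)) (hA : Commute A V')
    (hsa : IsSelfAdjoint A) (j k : ℤ) : sym A j k =ᵐ[μT] fun x => conj (sym A k j x) := by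
  have e : sym A j k = star (sym A k j) := ext_inner_left ℂ fun g => by
    rw [sym, inner_hat, ← hsa.adjoint_eq, ContinuousLinearMap.adjoint_inner_right,
      hsa.adjoint_eq, ← JJ_fb, ← hat_inner, L2.inner_def, L2.inner_def]
    refine integral_congr_ae ?_
    filter_upwards [coeFn_hat_JJ hV' hA k j g, coeFn_fb 0, Lp.coeFn_star (sym A k j)]
      with x h1 h2 h3
    rw [h1, h2, h3]
    simp
  rw [e]
  exact Lp.coeFn_star _

/-- Covariance of the symbols. -/
theorem hat_U' {U' : HH →L[ℂ] HH} {t : TT}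
    (hU' : ∀ a b, U' (dd (a, b)) = fourier b t • dd (a + 1, b)) (j : ℤ) (v : HH) :
    hat (j + 1) (U' v) = tau t (hat j v) := by
  have : (hat (j + 1)).comp U' = (tau t).comp (hat j) := HH_ext fun ⟨a, b⟩ => by
    simp only [ContinuousLinearMap.comp_apply, hU', map_smul, hat_dd, add_left_inj]
    split_ifs
    · rw [tau_fb]
    · rw [map_zero, smul_zero]
  exact DFunLike.congr_fun this v

theorem sym_eq_iter {U' : HH →L[ℂ] HH} {t : TT}
    (hU' : ∀ a b, U' (dd (a, b)) = fourier b t • dd (a + 1, b)) (hA : Commute A U') (k : ℕ)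
    (j : ℤ) : sym A j k = (tau t)^[k] (sym A (j - k) 0) := by
  induction k generalizing j with
  | zero => simp
  | succ k ih =>
    have e : dd ((k + 1 : ℕ), 0) = U' (dd (k, 0)) := by simp [hU']
    rw [Function.iterate_succ_apply', show j - (k + 1 : ℕ) = j - 1 - k by push_cast; ring, ← ih,
      sym, e, ← mul_apply_eq_comp, hA.eq, mul_apply_eq_comp, sym, ← hat_U' hU', sub_add_cancel]

theorem norm_tau_iter (t : TT) (k : ℕ) (g : LL) : ‖(tau t)^[k] g‖ = ‖g‖ := by
  induction k with
  | zero => rfl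
  | succ k ih => rw [Function.iterate_succ_apply', norm_tau, ih]

/-- The translated standard parametrisation of the circle. -/
def circ (t : TT) : C(TT, Metric.sphere (0 : ℂ) 1) :=
  ⟨fun x => ⟨AddCircle.toCircle (x + t), by simp⟩, by
    have := AddCircle.continuous_toCircle (T := (1 : ℝ))
    fun_prop⟩

theorem cfc_JJ {V : HH →L[ℂ] HH} (hV : V ∈ unitary (HH →L[ℂ] HH)) {k : ℤ} {t : TT}
    (hk : ∀ b, V (dd (k, b)) = fourier 1 t • dd (k, b + 1)) {f : ℂ → ℂ} (hf : Continuous f) :
    ∃ F : C(TT, ℂ), (∀ x, F x = f (AddCircle.toCircle (x + t))) ∧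
      ∀ g, cfc f V (JJ k g) = JJ k (Mop F g) := by
  have hn : IsStarNormal V := ⟨hV.1.trans hV.2.symm⟩
  have hs : spectrum ℂ V ⊆ Metric.sphere 0 1 := spectrum.subset_circle_of_unitary hV
  have hid : ∀ g, V (JJ k g) = JJ k (Mop ((ContinuousMap.restrict (Metric.sphere (0 : ℂ) 1)
      (.id ℂ)).comp (circ t)) g) := by
    have e : (ContinuousMap.restrict (Metric.sphere (0 : ℂ) 1) (.id ℂ)).comp (circ t) =
        fourier 1 t • fourier 1 := by
      ext x
      rw [ContinuousMap.smul_apply, smul_eq_mul, ← fourier_add_right, fourier_one]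
      rfl
    have : V.comp (JJ k) = (JJ k).comp (Mop (fourier 1 t • fourier 1)) := LL_ext fun b => by
      simp only [ContinuousLinearMap.comp_apply, JJ_fb, hk, map_smul,
        smul_apply, Mop_fourier, add_comm]
    rw [e]
    exact DFunLike.congr_fun this
  have key : ∀ F : C(Metric.sphere (0 : ℂ) 1, ℂ),
      (cfcHomSuperset hn hs F).comp (JJ k) = (JJ k).comp (Mop (F.comp (circ t))) := by
    intro F
    induction F using ContinuousMap.induction_on_of_compact with
    | const r =>
      ext1 g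
      have e1 : ContinuousMap.const (Metric.sphere (0 : ℂ) 1) r = r • 1 := by ext; simp
      simp only [e1, map_smul, map_one, ContinuousMap.smul_comp, ContinuousMap.one_comp,
        ContinuousLinearMap.comp_apply, smul_apply, Mop_one,
        one_apply_eq_self]
    | id =>
      ext1 g
      rw [cfcHomSuperset_id]
      exact hid g
    | star_id =>
      ext1 g
      rw [map_star, cfcHomSuperset_id]
      have e : (ContinuousMap.restrict (Metric.sphere (0 : ℂ) 1) (.id ℂ)).comp (circ t) *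
          (star (ContinuousMap.restrict (Metric.sphere (0 : ℂ) 1) (.id ℂ))).comp (circ t) = 1 := by
        ext x
        rw [ContinuousMap.mul_apply, mul_comm]
        exact conj_mul_of_norm (Circle.norm_coe _)
      have h := hid (Mop ((star (ContinuousMap.restrict (Metric.sphere (0 : ℂ) 1)
        (.id ℂ))).comp (circ t)) g)
      rw [← Mop_mul, e, Mop_one] at h
      simp only [ContinuousLinearMap.comp_apply]
      conv_lhs => rw [← h, ← mul_apply_eq_comp, hV.1, one_apply_eq_self]
    | add F G hF hG =>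
      rw [map_add, ContinuousMap.add_comp, map_add, ContinuousLinearMap.add_comp,
        ContinuousLinearMap.comp_add, hF, hG]
    | mul F G hF hG =>
      ext1 g
      have h1 := DFunLike.congr_fun hG g
      have h2 := DFunLike.congr_fun hF (Mop (G.comp (circ t)) g)
      simp only [ContinuousLinearMap.comp_apply] at h1 h2 ⊢
      rw [map_mul, mul_apply_eq_comp, h1, h2, ContinuousMap.mul_comp, Mop_mul]
    | frequently F hF =>
      have := cfcHomSuperset_continuous hn hs
      exact hF.mem_of_closed (isClosed_eq (by fun_prop) (by fun_prop))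
  refine ⟨ContinuousMap.comp (⟨fun z => f z, by fun_prop⟩ : C(Metric.sphere (0 : ℂ) 1, ℂ)) (circ t),
    fun _ => rfl, fun g => ?_⟩
  refine Eq.trans ?_ (DFunLike.congr_fun (key _) g)
  rw [cfcHomSuperset_apply, cfc_apply f V]
  rfl

end Crest.Agent.R113.Red
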