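import Crest.Prelude.Def_RotationRep
import Crest.Agent.R113.ReduceB

/-! Row 113, S0149: from an invariant projection to its fibre symbols. -/

set_option autoImplicit false

noncomputable section

namespace Crest.Agent.R113

open MeasureTheory Filter Crest.AnalysisR.RotationRep

namespace Red

open scoped InnerProductSpace ComplexConjugate Topology

theorem tail_small {c : ℤ → ℝ} {α : ℝ} (hc : HasSum c α) {τ : ℕ → ℕ → ℝ} (hα : 0 ≤ α)
    (hτ : ∀ (n k : ℕ) (s : Finset ℤ), (∀ j ∈ s, 0 ≤ j + k ∧ j + k < n) →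
      τ n k + ∑ j ∈ s, c j ≤ α) {ε : ℝ} (hε : 0 < ε) :
    ∀ᶠ n : ℕ in atTop, ∑ k ∈ Finset.range (n + 1), τ n k ≤ ε * n := by
  obtain ⟨s, hs⟩ := (hc.eventually (lt_mem_nhds (show α - ε / 4 < α by linarith))).exists
  set L := s.sup Int.natAbs
  have hL : ∀ j ∈ s, j.natAbs ≤ L := fun j hj => Finset.le_sup (f := Int.natAbs) hj
  filter_upwards [eventually_ge_atTop 1, (tendsto_natCast_atTop_atTop (R := ℝ)).eventually_ge_atTop
    (α * (2 * L + 1) / (ε / 2))] with n h1 h2
  rw [div_le_iff₀ (by positivity)] at h2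
  have h3 : ∀ k ∈ Finset.range (n + 1), τ n k ≤ ε / 4 + if k < L ∨ n ≤ k + L then α else 0 := by
    intro k _
    split_ifs with h
    · have := hτ n k ∅ (by simp)
      simp only [Finset.sum_empty] at this
      linarith
    · have := hτ n k s fun j hj => by have := hL j hj; omega
      linarith
  refine (Finset.sum_le_sum h3).trans ?_
  rw [Finset.sum_add_distrib, ← Finset.sum_filter, Finset.sum_const, Finset.sum_const,
    Finset.card_range, nsmul_eq_mul, nsmul_eq_mul]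
  have h4 : ((Finset.range (n + 1)).filter fun k => k < L ∨ n ≤ k + L).card ≤ 2 * L + 1 := by
    refine (Finset.card_le_card (t := Finset.range L ∪ Finset.Icc (n - L) n) fun k hk => ?_).trans
      ((Finset.card_union_le _ _).trans ?_)
    · simp only [Finset.mem_filter, Finset.mem_range, Finset.mem_union, Finset.mem_Icc] at hk ⊢
      omega
    · simp only [Finset.card_range, Nat.card_Icc]
      omega
  have h5 : (((Finset.range (n + 1)).filter fun k => k < L ∨ n ≤ k + L).card : ℝ) ≤ 2 * L + 1 := by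
    exact_mod_cast h4
  have h6 : (1 : ℝ) ≤ n := by exact_mod_cast h1
  have h7 := mul_le_mul_of_nonneg_right h5 hα
  push_cast
  nlinarith

theorem norm_dd_const {U' V' q : HH →L[ℂ] HH} {t : TT}
    (hU' : ∀ a b, U' (dd (a, b)) = fourier b t • dd (a + 1, b))
    (hV' : ∀ a b, V' (dd (a, b)) = dd (a, b + 1)) (uU : U' ∈ unitary (HH →L[ℂ] HH))
    (uV : V' ∈ unitary (HH →L[ℂ] HH)) (h1 : Commute q U') (h2 : Commute q V') (a b : ℤ) :
    ‖q (dd (a, b))‖ = ‖q (dd (0, 0))‖ := by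
  have e1 : ∀ a b, ‖q (dd (a + 1, b))‖ = ‖q (dd (a, b))‖ := fun a b => by
    rw [← norm_unitary_apply uU (q (dd (a, b))), ← mul_apply_eq_comp, ← h1.eq, mul_apply_eq_comp,
      hU', map_smul, norm_smul, norm_fourier, one_mul]
  have e2 : ∀ a b, ‖q (dd (a, b + 1))‖ = ‖q (dd (a, b))‖ := fun a b => by
    rw [← norm_unitary_apply uV (q (dd (a, b))), ← mul_apply_eq_comp, ← h2.eq, mul_apply_eq_comp,
      hV']
  have e3 : ‖q (dd (a, b))‖ = ‖q (dd (0, b))‖ := by
    induction a using Int.induction_on with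
    | zero => rfl
    | succ a ih => rw [e1, ih]
    | pred a ih => rw [← e1, sub_add_cancel, ih]
  rw [e3]
  clear e3
  induction b using Int.induction_on with
  | zero => rfl
  | succ b ih => rw [e2, ih]
  | pred b ih => rw [← e2, sub_add_cancel, ih]

theorem proj_inner {q : HH →L[ℂ] HH} (hq : IsStarProjection q) (v : HH) :
    ⟪v, q v⟫_ℂ = (‖q v‖ ^ 2 : ℝ) := by
  conv_lhs => rw [← hq.isIdempotentElem.eq, mul_apply_eq_comp,
    ← ContinuousLinearMap.adjoint_inner_left, hq.isSelfAdjoint.adjoint_eq,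
    inner_self_eq_norm_sq_to_K]
  simp

theorem PE_shift {T : HH →L[ℂ] HH} {F : ℕ → C(TT, ℂ)}
    (hT : ∀ (k : ℕ) g, T (JJ k g) = JJ (k + 1) (Mop (F k) g)) (m : ℕ) :
    PE (m + 1) * T * PE (m + 1) = T * PE m := by
  ext1 v
  simp only [mul_apply_eq_comp]
  rw [PE_apply (m + 1) v, PE_apply m v]
  simp only [map_sum, hT, PE_JJ]
  rw [Finset.sum_range_succ, if_neg (by push_cast; omega), add_zero]
  exact Finset.sum_congr rfl fun l hl => if_pos (by simp at hl; push_cast; omega)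

theorem sq_norm_le {A : HH →L[ℂ] HH} (hA : ‖A‖ ≤ 1) (v : HH) : ‖A v‖ ^ 2 ≤ ‖v‖ ^ 2 :=
  pow_le_pow_left₀ (norm_nonneg _) ((A.le_of_opNorm_le hA v).trans_eq (one_mul _)) 2

end Red

open Red in
open scoped InnerProductSpace ComplexConjugate Topology in
theorem reduce (θ : ℝ) (hθ : Irrational θ) (f : ℂ → ℝ) (hf : Continuous f)
    (hf01 : ∀ z : ℂ, ‖z‖ = 1 → 0 ≤ f z ∧ f z ≤ 1)
    (U V : lp (fun _ : ℤ × ℤ => ℂ) 2 →L[ℂ] lp (fun _ : ℤ × ℤ => ℂ) 2) (hUV : IsRotationPair θ U V)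
    (p : lp (fun _ : ℤ × ℤ => ℂ) 2 →L[ℂ] lp (fun _ : ℤ × ℤ => ℂ) 2)
    (hp : p ∈ vonNeumannGenerated {U, V}) (hproj : IsStarProjection p)
    (hinv : (1 - p) * (U * cfc (fun z : ℂ => (f z : ℂ)) V) * p = 0) (h0 : p ≠ 0) (h1 : p ≠ 1) :
    ∃ (a : ℤ → TT → ℂ) (α : ℝ), 0 < α ∧ α < 1 ∧ (∀ j, Measurable (a j)) ∧
      (∀ᵐ x : TT, ∀ n : ℕ, (Pm a θ n x).IsHermitian) ∧
      (∀ ε : ℝ, 0 < ε → ∀ᶠ n : ℕ in atTop,
        ∫⁻ x : TT, ENNReal.ofReal (mhs (Pm a θ n x * Pm a θ n x - Pm a θ n x)) ≤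
          ENNReal.ofReal (ε * n)) ∧
      (∀ ε : ℝ, 0 < ε → ∀ᶠ n : ℕ in atTop,
        ∫⁻ x : TT, ENNReal.ofReal (mhs ((1 - Pm a θ n x) *
            shiftM n (fun k => f (AddCircle.toCircle (x + k • (θ : TT)) : ℂ)) * Pm a θ n x)) ≤
          ENNReal.ofReal (ε * n)) ∧
      (∀ ε : ℝ, 0 < ε → ∃ L0 : ℕ, ∀ J : Finset ℤ, (∀ j ∈ J, (L0 : ℤ) < |j|) →
        ∑ j ∈ J, ∫⁻ x : TT, ENNReal.ofReal (‖a j x‖ ^ 2) ≤ ENNReal.ofReal ε) ∧
      (∀ ε : ℝ, 0 < ε → ∃ l : ℕ, 1 ≤ l ∧
        ∫⁻ x : TT, ENNReal.ofReal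
          (((∑ j ∈ Finset.range l, (a 0 (x + j • (θ : TT))).re) / l - α) ^ 2) ≤
          ENNReal.ofReal ε) := by
  set t : TT := (θ : TT) with ht
  have hU : ∀ a b, U (dd (a, b)) = dd (a + 1, b) := hUV.1
  have hV : ∀ a b, V (dd (a, b)) = fourier a t • dd (a, b + 1) := fun a b => by
    rw [ht, fourier_coe_apply]
    refine (hUV.2 a b).trans ?_
    congr 2
    push_cast
    ring
  have uU : U ∈ unitary (HH →L[ℂ] HH) := wshift_unitary (Equiv.addRight (1, 0)) (fun _ => 1)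
    (fun _ => norm_one) fun ⟨a, b⟩ => by simp [hU]
  have uV : V ∈ unitary (HH →L[ℂ] HH) := wshift_unitary (Equiv.addRight (0, 1))
    (fun x => fourier x.1 t) (fun _ => norm_fourier _ _) fun ⟨a, b⟩ => by simp [hV]
  obtain ⟨U', hU''⟩ := exists_wshift (Equiv.addRight (1, 0)) (fun x => fourier x.2 t)
    fun _ => norm_fourier _ _
  obtain ⟨V', hV''⟩ := exists_wshift (Equiv.addRight (0, 1)) (fun _ => 1) fun _ => norm_one
  have uU' := wshift_unitary _ _ (fun _ => norm_fourier _ _) hU''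
  have uV' := wshift_unitary _ _ (fun _ => norm_one) hV''
  have hU' : ∀ a b, U' (dd (a, b)) = fourier b t • dd (a + 1, b) := fun a b => by simp [hU'']
  have hV' : ∀ a b, V' (dd (a, b)) = dd (a, b + 1) := fun a b => by simp [hV'']
  have cUU : Commute U U' := HH_ext fun ⟨a, b⟩ => by simp only [mul_apply_eq_comp, hU, hU', map_smul]
  have cUV : Commute U V' := HH_ext fun ⟨a, b⟩ => by simp only [mul_apply_eq_comp, hU, hV']
  have cVV : Commute V V' := HH_ext fun ⟨a, b⟩ => by simp only [mul_apply_eq_comp, hV, hV', map_smul]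
  have cVU : Commute V U' := HH_ext fun ⟨a, b⟩ => by
    simp only [mul_apply_eq_comp, hV, hU', map_smul, smul_smul, fourier_add]
    congr 1
    ring
  have hc : ∀ A : HH →L[ℂ] HH, Commute U A → Commute V A → Commute p A := fun A h1 h2 => by
    refine (hp A ?_).symm
    rintro _ ((rfl | rfl) | ⟨_, rfl | rfl, rfl⟩)
    exacts [h1, h2, commute_star uU h1, commute_star uV h2]
  have pU := hc U' cUU cVU
  have pV := hc V' cUV cVV
  have qU : Commute (1 - p) U' := (Commute.one_left _).sub_left pU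
  have qV : Commute (1 - p) V' := (Commute.one_left _).sub_left pV
  set T := U * cfc (fun z : ℂ => (f z : ℂ)) V with hT
  have TV : Commute T V' := cUV.mul_left (cVV.cfc (commute_star uV cVV) _)
  have nT : ‖(1 - p) * T‖ ≤ 1 := by
    have n1 : ‖U‖ ≤ 1 := ContinuousLinearMap.opNorm_le_bound _ zero_le_one fun v => by
      rw [norm_unitary_apply uU, one_mul]
    have n2 : ‖cfc (fun z : ℂ => (f z : ℂ)) V‖ ≤ 1 := norm_cfc_le zero_le_one fun z hz => by
      have := hf01 z (by simpa using spectrum.subset_circle_of_unitary uV hz)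
      rw [Complex.norm_real, Real.norm_eq_abs, abs_of_nonneg this.1]
      exact this.2
    exact (norm_mul_le _ _).trans (mul_le_one₀ hproj.one_sub.norm_le (norm_nonneg _)
      ((norm_mul_le _ _).trans (mul_le_one₀ n1 (norm_nonneg _) n2)))
  have hUJ : ∀ k g, U (JJ k g) = JJ (k + 1) g := fun k g =>
    DFunLike.congr_fun (LL_ext (T := U.comp (JJ k)) (T' := JJ (k + 1)) fun b => by
      simp only [ContinuousLinearMap.comp_apply, JJ_fb, hU]) g
  choose F hF hF' using fun k : ℕ => cfc_JJ uV (k := k) (t := k • t)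
    (fun b => by rw [hV, fourier_one, fourier_apply, natCast_zsmul])
    (f := fun z : ℂ => (f z : ℂ)) (by fun_prop)
  have hTJ : ∀ (k : ℕ) g, T (JJ k g) = JJ (k + 1) (Mop (F k) g) := fun k g => by
    rw [hT, mul_apply_eq_comp, hF', hUJ]
  set a : ℤ → TT → ℂ := fun j => sym p j 0 with ha
  set α := ‖p (dd (0, 0))‖ ^ 2 with hα
  have hP : ∀ n, ∀ᵐ x ∂μT, SM p n x = Pm a θ n x := fun n => ae_matrix fun j k => by
    rw [show (fun x => SM p n x j k = Pm a θ n x j k) = fun x => sym p (j : ℕ) (k : ℕ) x =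
      Pm a θ n x j k from rfl, sym_eq_iter hU' pU]
    exact coeFn_tau_iter t _ k
  have hTm : ∀ n, ∀ᵐ x ∂μT, SM T n x =
      shiftM n fun k => f (AddCircle.toCircle (x + k • t) : ℂ) := fun n => ae_matrix fun j k => by
    filter_upwards [coeFn_Mop (F k) (fb 0), coeFn_fb 0, Lp.coeFn_zero ℂ 2 μT] with x h1 h2 h3
    rw [SM, sym, ← JJ_fb, hTJ, hat_JJ, shiftM]
    by_cases h : (j : ℕ) = k + 1
    · rw [if_pos h, if_pos (by omega), h1, h2, hF, fourier_zero, mul_one]
    · rw [if_neg h, if_neg (by omega), h3]; rfl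
  have hsum : HasSum (fun j => ‖sym p j 0‖ ^ 2) α := hasSum_hat _
  have htail := fun ε => tail_small hsum (τ := fun n k => ‖(1 - PE n) (p (dd (k, 0)))‖ ^ 2)
    (by positivity) (fun n k s hs => by
      have := norm_one_sub_PE n (p (dd (k, 0))) (s.map (Equiv.addRight (k : ℤ)).toEmbedding)
        (by simpa using fun j hj => by simpa using hs _ hj)
      rw [Finset.sum_map, norm_dd_const hU' hV' uU' uV' pU pV] at this
      refine le_trans (le_of_eq ?_) this
      congr 1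
      refine Finset.sum_congr rfl fun j _ => ?_
      change _ = ‖sym p (j + k) k‖ ^ 2
      rw [sym_eq_iter hU' pU k, norm_tau_iter, add_sub_cancel_right]) (ε := ε)
  have hpos : ∀ q : HH →L[ℂ] HH, Commute q U' → Commute q V' → q ≠ 0 →
      0 < ‖q (dd (0, 0))‖ ^ 2 := fun q h1 h2 h3 => by
    refine pow_pos (norm_pos_iff.2 fun h => h3 (HH_ext fun ⟨a, b⟩ => ?_)) 2
    rw [zero_apply, ← norm_eq_zero, norm_dd_const hU' hV' uU' uV' h1 h2, h, norm_zero]
  rw [volume_eq]
  refine ⟨a, α, hpos p pU pV h0, ?_, fun j => (Lp.stronglyMeasurable _).measurable, ?_,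
    fun ε hε => ?_, fun ε hε => ?_, fun ε hε => ?_, fun ε hε => ?_⟩
  · have e1 := proj_inner hproj.one_sub (dd (0, 0))
    rw [sub_apply, inner_sub_right, one_apply_eq_self, inner_dd, if_pos rfl,
      proj_inner hproj] at e1
    have e2 : 1 - α = ‖(1 - p) (dd (0, 0))‖ ^ 2 := by exact_mod_cast e1
    have := hpos _ qU qV (sub_ne_zero.2 h1.symm)
    linarith
  · filter_upwards [ae_all_iff.2 hP, ae_all_iff.2 fun j => ae_all_iff.2 fun k =>
      sym_star hV' pV hproj.isSelfAdjoint j k] with x h1 h2 n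
    rw [← h1]
    ext j k
    exact (h2 _ _).symm
  · filter_upwards [htail ε hε] with n hn
    refine le_trans (le_of_eq (lintegral_congr_ae ?_)) ((lintegral_mhs (p * PE n * p - p) n).trans
      (ENNReal.ofReal_le_ofReal (le_trans ?_ hn)))
    · filter_upwards [hP n, SM_sub (p * PE n * p) p n, SM_mul hV' pV p n] with x h1 h2 h3
      rw [h2, h3, h1]
    · rw [Finset.sum_range_succ]
      refine le_add_of_le_of_nonneg (Finset.sum_le_sum fun k _ => ?_) (sq_nonneg _)
      have e : p * PE n * p - p = -(p * (1 - PE n) * p) := by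
        rw [mul_sub, sub_mul, mul_one, hproj.isIdempotentElem.eq, neg_sub]
      rw [e, neg_apply, norm_neg, mul_apply_eq_comp, mul_apply_eq_comp]
      exact sq_norm_le hproj.norm_le _
  · rw [← Filter.map_add_atTop_eq_nat 1, eventually_map]
    filter_upwards [htail ε hε] with m hm
    refine le_trans (le_of_eq (lintegral_congr_ae ?_))
      ((lintegral_mhs ((1 - p) * PE (m + 1) * (T * PE (m + 1) * p)) (m + 1)).trans
      (ENNReal.ofReal_le_ofReal (le_trans ?_ (hm.trans ?_))))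
    · filter_upwards [hP (m + 1), hTm (m + 1), SM_sub 1 p (m + 1), SM_one (m + 1),
        SM_mul hV' qV (T * PE (m + 1) * p) (m + 1), SM_mul hV' TV p (m + 1)]
        with x h1 h2 h3 h4 h5 h6
      rw [h5, h6, h3, h4, h2, h1, Matrix.mul_assoc]
    · refine Finset.sum_le_sum fun k _ => ?_
      have e : (1 - p) * PE (m + 1) * (T * PE (m + 1) * p) =
          -((1 - p) * T * (1 - PE m) * p) := by
        rw [mul_sub ((1 - p) * T), sub_mul _ _ p, mul_one, hinv, zero_sub, neg_neg,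
          mul_assoc _ T (PE m), ← PE_shift hTJ m]
        simp only [mul_assoc]
      rw [e, neg_apply, norm_neg, mul_apply_eq_comp, mul_apply_eq_comp]
      exact sq_norm_le nT _
    · push_cast
      linarith
  · obtain ⟨s, hs⟩ := summable_iff_vanishing_norm.1 hsum.summable ε hε
    refine ⟨s.sup Int.natAbs, fun J hJ => ?_⟩
    simp only [ha, lintegral_norm_sq]
    rw [← ENNReal.ofReal_sum_of_nonneg fun _ _ => sq_nonneg _]
    refine ENNReal.ofReal_le_ofReal ((le_abs_self _).trans (hs J ?_).le)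
    refine Finset.disjoint_left.2 fun j hj hj' => ?_
    have h2 := hJ j hj
    have h3 := Finset.le_sup (f := Int.natAbs) hj'
    rw [Int.abs_eq_natAbs] at h2
    omega
  · have h2 := tendsto_avg hθ (sym p 0 0)
    rw [sym, inner_hat, JJ_fb, proj_inner hproj, ← hα, tendsto_iff_norm_sub_tendsto_zero] at h2
    obtain ⟨l, hl, hl1⟩ := (((h2.pow 2).eventually (gt_mem_nhds (by simpa using hε))).and
      (eventually_ge_atTop 1)).exists
    refine ⟨l, hl1, le_trans (lintegral_mono_ae ?_) ((lintegral_norm_sq _).trans_le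
      (ENNReal.ofReal_le_ofReal hl.le))⟩
    simp only [birkhoffAverage, birkhoffSum, id]
    filter_upwards [Lp.coeFn_sub ((l : ℂ)⁻¹ • ∑ k ∈ Finset.range l, (tau t)^[k] (sym p 0 0))
        ((α : ℂ) • fb 0), Lp.coeFn_smul (l : ℂ)⁻¹ (∑ k ∈ Finset.range l, (tau t)^[k] (sym p 0 0)),
      Lp.coeFn_smul (α : ℂ) (fb 0), coeFn_fb 0,
      Lp.coeFn_fun_finsetSum (Finset.range l) fun k => (tau t)^[k] (sym p 0 0),
      ae_all_iff.2 fun k => coeFn_tau_iter t (sym p 0 0) k] with x e1 e2 e3 e4 e5 e6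
    refine ENNReal.ofReal_le_ofReal ?_
    change _ ≤ ‖(((l : ℂ)⁻¹ • ∑ k ∈ Finset.range l, (tau t)^[k] (sym p 0 0)) -
      (α : ℂ) • fb 0 : LL) x‖ ^ 2
    rw [e1, Pi.sub_apply, e2, e3, Pi.smul_apply, Pi.smul_apply, e4, e5, ← sq_abs]
    refine pow_le_pow_left₀ (abs_nonneg _) (le_trans (le_of_eq ?_) (Complex.abs_re_le_norm _)) 2
    simp only [e6, fourier_zero, smul_eq_mul, mul_one, Complex.sub_re, Complex.ofReal_re]
    rw [← Complex.ofReal_natCast, ← Complex.ofReal_inv, Complex.re_ofReal_mul, Complex.re_sum,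
      div_eq_inv_mul]

end Crest.Agent.R113
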