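import Crest.Agent.R113.SysDefs

/-! Row 113, S0149: weighted shifts on `ℓ²(ℤ × ℤ)`, multiplication and translation operators on
`L²` of the circle, and the partial Fourier transform. -/

set_option autoImplicit false

noncomputable section

namespace Crest.Agent.R113.Red

open MeasureTheory Filter
open scoped InnerProductSpace ComplexConjugate ENNReal Topology

/-- The Hilbert space `ℓ²(ℤ × ℤ)`. -/
abbrev HH : Type := lp (fun _ : ℤ × ℤ => ℂ) 2

/-- The Haar probability measure. -/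
abbrev μT : Measure TT := AddCircle.haarAddCircle

/-- `L²` of the circle. -/
abbrev LL : Type := Lp ℂ 2 μT

theorem volume_eq : (volume : Measure TT) = μT := by
  simp [AddCircle.volume_eq_smul_haarAddCircle]

/-- Basis vectors. -/
def dd (x : ℤ × ℤ) : HH := lp.single 2 x 1

theorem inner_dd_left (x : ℤ × ℤ) (v : HH) : ⟪dd x, v⟫_ℂ = v x := by
  simp [dd, lp.inner_single_left]

theorem inner_dd (x y : ℤ × ℤ) : ⟪dd x, dd y⟫_ℂ = if x = y then 1 else 0 := by
  rw [inner_dd_left, dd, lp.single_apply, Pi.single_apply]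

theorem orthonormal_dd : Orthonormal ℂ dd := by
  rw [orthonormal_iff_ite]; exact inner_dd

theorem norm_dd (x : ℤ × ℤ) : ‖dd x‖ = 1 := orthonormal_dd.1 x

theorem HH_ext {E : Type} [NormedAddCommGroup E] [NormedSpace ℂ E] {T T' : HH →L[ℂ] E}
    (h : ∀ x, T (dd x) = T' (dd x)) : T = T' := by
  refine lp.ext_continuousLinearMap (by simp) fun i => ?_
  ext
  simpa [dd] using h i

theorem HH_ext_vec {v w : HH} (h : ∀ x, ⟪dd x, v⟫_ℂ = ⟪dd x, w⟫_ℂ) : v = w :=
  lp.ext (funext fun x => by simpa only [inner_dd_left] using h x)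

theorem exists_iso {ι : Type} [DecidableEq ι] {v : ι → HH} (hv : Orthonormal ℂ v) :
    ∃ A : lp (fun _ : ι => ℂ) 2 →ₗᵢ[ℂ] HH, ∀ i, A (lp.single 2 i 1) = v i :=
  ⟨hv.orthogonalFamily.linearIsometry, fun i => by
    rw [OrthogonalFamily.linearIsometry_apply_single]; simp⟩

theorem conj_mul_of_norm {c : ℂ} (hc : ‖c‖ = 1) : conj c * c = 1 := by
  rw [Complex.conj_mul', hc]; simp

theorem exists_wshift (σ : ℤ × ℤ ≃ ℤ × ℤ) (c : ℤ × ℤ → ℂ) (hc : ∀ x, ‖c x‖ = 1) :
    ∃ A : HH →L[ℂ] HH, ∀ x, A (dd x) = c x • dd (σ x) := by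
  obtain ⟨A, hA⟩ := exists_iso (v := fun x => c x • dd (σ x)) (by
    rw [orthonormal_iff_ite]
    intro x y
    rw [inner_smul_left, inner_smul_right, inner_dd]
    by_cases h : x = y
    · subst h; simp [conj_mul_of_norm (hc x)]
    · simp [h])
  exact ⟨A.toContinuousLinearMap, hA⟩

theorem wshift_unitary {A : HH →L[ℂ] HH} (σ : ℤ × ℤ ≃ ℤ × ℤ) (c : ℤ × ℤ → ℂ)
    (hc : ∀ x, ‖c x‖ = 1) (hA : ∀ x, A (dd x) = c x • dd (σ x)) : A ∈ unitary (HH →L[ℂ] HH) := by
  have h1 : ∀ x, star A (dd (σ x)) = conj (c x) • dd x := fun x => HH_ext_vec fun y => by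
    rw [ContinuousLinearMap.star_eq_adjoint, ContinuousLinearMap.adjoint_inner_right, hA,
      inner_smul_left, inner_smul_right, inner_dd, inner_dd]
    by_cases h : y = x
    · subst h; simp
    · simp [h]
  refine ⟨HH_ext fun x => ?_, HH_ext fun x => ?_⟩
  · rw [mul_apply_eq_comp, hA, map_smul, h1, smul_smul, mul_comm,
      conj_mul_of_norm (hc x), one_smul, one_apply_eq_self]
  · obtain ⟨y, rfl⟩ := σ.surjective x
    rw [mul_apply_eq_comp, h1, map_smul, hA, smul_smul, conj_mul_of_norm (hc y),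
      one_smul, one_apply_eq_self]

theorem commute_star {R : Type} [Monoid R] [StarMul R] {U A : R} (hU : U ∈ unitary R)
    (h : Commute U A) : Commute (star U) A := by
  calc star U * A = star U * A * (U * star U) := by rw [hU.2, mul_one]
    _ = star U * (U * A) * star U := by rw [h.eq]; simp only [mul_assoc]
    _ = A * star U := by rw [← mul_assoc, hU.1, one_mul]

theorem norm_unitary_apply {U : HH →L[ℂ] HH} (hU : U ∈ unitary (HH →L[ℂ] HH)) (v : HH) :
    ‖U v‖ = ‖v‖ := (ContinuousLinearMap.norm_map_iff_adjoint_comp_self U).2 hU.1 v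

/-! ### The circle -/

/-- The characters as elements of `L²`. -/
def fb (b : ℤ) : LL := fourierLp 2 b

theorem coeFn_fb (b : ℤ) : fb b =ᵐ[μT] fourier b := coeFn_fourierLp 2 b

theorem fourierBasis_apply (b : ℤ) : (fourierBasis : HilbertBasis ℤ ℂ LL) b = fb b := by
  rw [coe_fourierBasis]; rfl

theorem inner_fb (a b : ℤ) : ⟪fb a, fb b⟫_ℂ = if a = b then 1 else 0 :=
  orthonormal_iff_ite.1 orthonormal_fourier a b

theorem LL_ext {E : Type} [NormedAddCommGroup E] [NormedSpace ℂ E] {T T' : LL →L[ℂ] E}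
    (h : ∀ b, T (fb b) = T' (fb b)) : T = T' :=
  ContinuousLinearMap.ext_on (Submodule.dense_iff_topologicalClosure_eq_top.2
    (fourierBasis : HilbertBasis ℤ ℂ LL).dense_span) (by
      rintro _ ⟨b, rfl⟩
      rw [fourierBasis_apply]; exact h b)

theorem LL_ext_vec {v w : LL} (h : ∀ b, ⟪fb b, v⟫_ℂ = ⟪fb b, w⟫_ℂ) : v = w :=
  (fourierBasis : HilbertBasis ℤ ℂ LL).repr.injective (lp.ext (funext fun b => by
    rw [HilbertBasis.repr_apply_apply, HilbertBasis.repr_apply_apply, fourierBasis_apply, h]))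

theorem hasSum_norm_sq_lp {ι : Type} (v : lp (fun _ : ι => ℂ) 2) :
    HasSum (fun j => ‖v j‖ ^ 2) (‖v‖ ^ 2) := by
  simpa using lp.hasSum_norm (p := 2) (by norm_num) v

theorem hasSum_norm_sq_LL (g : LL) : HasSum (fun b => ‖⟪fb b, g⟫_ℂ‖ ^ 2) (‖g‖ ^ 2) := by
  have := hasSum_norm_sq_lp ((fourierBasis : HilbertBasis ℤ ℂ LL).repr g)
  simpa only [HilbertBasis.repr_apply_apply, fourierBasis_apply,
    LinearIsometryEquiv.norm_map] using this

theorem lintegral_norm_sq (g : LL) :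
    ∫⁻ x, ENNReal.ofReal (‖g x‖ ^ 2) ∂μT = ENNReal.ofReal (‖g‖ ^ 2) := by
  rw [← ofReal_integral_eq_lintegral_ofReal ((Lp.memLp g).integrable_norm_pow two_ne_zero)
    (Eventually.of_forall fun x => by positivity)]
  congr 1
  rw [← inner_self_eq_norm_sq (𝕜 := ℂ) g, L2.inner_def, ← integral_re (L2.integrable_inner g g)]
  exact integral_congr_ae (Eventually.of_forall fun x => (inner_self_eq_norm_sq (𝕜 := ℂ) _).symm)

/-- Multiplication by a continuous function. -/
def Mop : C(TT, ℂ) →L[ℂ] LL →L[ℂ] LL :=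
  ((ContinuousLinearMap.mul ℂ ℂ).holderL μT ∞ 2 2).comp (ContinuousMap.toLp ∞ μT ℂ)

theorem coeFn_Mop (F : C(TT, ℂ)) (g : LL) : Mop F g =ᵐ[μT] fun x => F x * g x := by
  filter_upwards [(ContinuousLinearMap.mul ℂ ℂ).coeFn_holder (r := 2)
    (ContinuousMap.toLp ∞ μT ℂ F) g, ContinuousMap.coeFn_toLp (p := ∞) (𝕜 := ℂ) μT F] with x h1 h2
  rw [← h2]
  exact h1

theorem Mop_mul (F G : C(TT, ℂ)) (g : LL) : Mop (F * G) g = Mop F (Mop G g) := by
  ext1
  filter_upwards [coeFn_Mop (F * G) g, coeFn_Mop F (Mop G g), coeFn_Mop G g] with x h1 h2 h3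
  rw [h1, h2, h3, ContinuousMap.mul_apply, mul_assoc]

theorem Mop_one (g : LL) : Mop 1 g = g := by
  ext1
  filter_upwards [coeFn_Mop 1 g] with x h1
  rw [h1, ContinuousMap.one_apply, one_mul]

theorem Mop_fourier (a b : ℤ) : Mop (fourier a) (fb b) = fb (a + b) := by
  ext1
  filter_upwards [coeFn_Mop (fourier a) (fb b), coeFn_fb b, coeFn_fb (a + b)] with x h1 h2 h3
  rw [h1, h2, h3, fourier_add]

theorem Mop_fourier_add (a b : ℤ) (g : LL) :
    Mop (fourier a) (Mop (fourier b) g) = Mop (fourier (a + b)) g := by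
  rw [← Mop_mul]
  congr 2
  ext x
  simp only [ContinuousMap.mul_apply, fourier_add]

theorem Mop_fourier_zero (g : LL) : Mop (fourier 0) g = g := by
  conv_rhs => rw [← Mop_one g]
  congr 2
  ext x
  simp

/-- An operator commuting with the characters is a multiplication operator. -/
theorem coeFn_of_comm {B : LL →L[ℂ] LL} (h : ∀ b, B (fb b) = Mop (fourier b) (B (fb 0)))
    (g : LL) : B g =ᵐ[μT] fun x => B (fb 0) x * g x := by
  have e : ((ContinuousLinearMap.mul ℂ ℂ).holderL μT 2 2 1 (fb 0)).comp B =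
      (ContinuousLinearMap.mul ℂ ℂ).holderL μT 2 2 1 (B (fb 0)) := LL_ext fun b => by
    ext1
    filter_upwards [(ContinuousLinearMap.mul ℂ ℂ).coeFn_holder (r := 1) (fb 0) (B (fb b)),
      (ContinuousLinearMap.mul ℂ ℂ).coeFn_holder (r := 1) (B (fb 0)) (fb b), coeFn_fb 0,
      coeFn_fb b, coeFn_Mop (fourier b) (B (fb 0))] with x h1 h2 h3 h4 h5
    refine h1.trans (Eq.trans ?_ h2.symm)
    rw [h b, h3, h4, h5]
    simp [mul_comm]
  have e' := DFunLike.congr_fun e g
  filter_upwards [(ContinuousLinearMap.mul ℂ ℂ).coeFn_holder (r := 1) (fb 0) (B g),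
    (ContinuousLinearMap.mul ℂ ℂ).coeFn_holder (r := 1) (B (fb 0)) g, coeFn_fb 0] with x h1 h2 h3
  have := h1.symm.trans ((congrArg (fun u : Lp ℂ 1 μT => u x) e').trans h2)
  simpa [h3] using this

/-- Translation. -/
def tau (t : TT) : LL →L[ℂ] LL :=
  (Lp.compMeasurePreservingₗᵢ ℂ (· + t) (measurePreserving_add_right μT t)).toContinuousLinearMap

theorem coeFn_tau (t : TT) (g : LL) : tau t g =ᵐ[μT] fun x => g (x + t) :=
  Lp.coeFn_compMeasurePreserving g (measurePreserving_add_right μT t)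

theorem norm_tau (t : TT) (g : LL) : ‖tau t g‖ = ‖g‖ := LinearIsometry.norm_map _ g

theorem inner_tau (t : TT) (g h : LL) : ⟪tau t g, tau t h⟫_ℂ = ⟪g, h⟫_ℂ :=
  LinearIsometry.inner_map_map _ g h

theorem ae_add {p : TT → Prop} (h : ∀ᵐ x ∂μT, p x) (t : TT) : ∀ᵐ x ∂μT, p (x + t) :=
  (measurePreserving_add_right μT t).quasiMeasurePreserving.ae h

theorem fourier_add_right (b : ℤ) (x t : TT) : fourier b (x + t) = fourier b t * fourier b x := by
  rw [fourier_apply, fourier_apply, fourier_apply, smul_add, AddCircle.toCircle_add,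
    Circle.coe_mul, mul_comm]

theorem norm_fourier (b : ℤ) (t : TT) : ‖fourier b t‖ = 1 := by
  rw [fourier_apply, Circle.norm_coe]

theorem tau_fb (t : TT) (b : ℤ) : tau t (fb b) = fourier b t • fb b := by
  ext1
  filter_upwards [coeFn_tau t (fb b), ae_add (coeFn_fb b) t, coeFn_fb b,
    Lp.coeFn_smul (fourier b t) (fb b)] with x h1 h2 h3 h4
  rw [h1, h2, h4, Pi.smul_apply, h3, fourier_add_right, smul_eq_mul]

theorem coeFn_tau_iter (t : TT) (g : LL) (j : ℕ) :
    (tau t)^[j] g =ᵐ[μT] fun x => g (x + j • t) := by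
  induction j with
  | zero => simp
  | succ j ih =>
    rw [Function.iterate_succ_apply']
    filter_upwards [coeFn_tau t ((tau t)^[j] g), ae_add ih t] with x h1 h2
    rw [h1, h2, succ_nsmul', add_assoc]

/-- The mean ergodic theorem for an irrational rotation. -/
theorem tendsto_avg {θ : ℝ} (hθ : Irrational θ) (g : LL) :
    Tendsto (fun l => birkhoffAverage ℂ (tau (θ : TT)) id l g) atTop
      (𝓝 (⟪fb 0, g⟫_ℂ • fb 0)) := by
  have h := (tau (θ : TT)).tendsto_birkhoffAverage_orthogonalProjection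
    (ContinuousLinearMap.opNorm_le_bound _ zero_le_one fun g => by rw [norm_tau, one_mul]) g
  convert h using 2
  set K := (tau (θ : TT)).eqLocus (1 : LL →L[ℂ] LL)
  have hy : tau (θ : TT) (K.orthogonalProjectionOnto g : LL) = K.orthogonalProjectionOnto g :=
    (K.orthogonalProjectionOnto g).2
  refine LL_ext_vec fun b => ?_
  rw [inner_smul_right, inner_fb]
  split_ifs with hb
  · subst hb
    have h0 : fb 0 ∈ K := by
      change tau _ (fb 0) = fb 0
      simp [tau_fb]
    rw [mul_one, ← Submodule.starProjection_apply, ← Submodule.inner_starProjection_left_eq_right,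
      Submodule.starProjection_eq_self_iff.2 h0]
  · have h1 := inner_tau (θ : TT) (fb b) (K.orthogonalProjectionOnto g)
    rw [hy, tau_fb, inner_smul_left, ← sub_eq_zero, ← sub_one_mul, mul_eq_zero] at h1
    rw [mul_zero]
    refine (h1.resolve_left fun h2 => ?_).symm
    rw [sub_eq_zero, ← fourier_neg, fourier_coe_apply, Complex.exp_eq_one_iff] at h2
    obtain ⟨n, hn⟩ := h2
    have h3 : ((-b : ℤ) : ℂ) * θ = n := by
      have h4 : (2 * Real.pi * Complex.I : ℂ) ≠ 0 := by simp [Real.pi_ne_zero]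
      apply mul_left_cancel₀ h4
      rw [mul_comm _ (n : ℂ), ← hn]
      simp [mul_assoc]
    have h5 : ((-b : ℤ) : ℝ) * θ = n := by exact_mod_cast h3
    exact (hθ.intCast_mul (neg_ne_zero.2 hb)).ne_int n h5

/-! ### Rows -/

theorem exists_row (k : ℤ) : ∃ J : LL →ₗᵢ[ℂ] HH, ∀ b, J (fb b) = dd (k, b) := by
  obtain ⟨A, hA⟩ := exists_iso (v := fun b => dd (k, b))
    (orthonormal_dd.comp _ fun a b h => (Prod.mk.inj h).2)
  refine ⟨A.comp (fourierBasis : HilbertBasis ℤ ℂ LL).repr.toLinearIsometry, fun b => ?_⟩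
  rw [← hA, ← fourierBasis_apply]
  exact congrArg A (HilbertBasis.repr_self _ b)

/-- The embedding of `L²` as row `k`. -/
def JJ (k : ℤ) : LL →L[ℂ] HH := (exists_row k).choose.toContinuousLinearMap

theorem JJ_fb (k b : ℤ) : JJ k (fb b) = dd (k, b) := (exists_row k).choose_spec b

/-- The Fourier transform of row `j`. -/
def hat (j : ℤ) : HH →L[ℂ] LL := ContinuousLinearMap.adjoint (JJ j)

theorem inner_hat (j : ℤ) (g : LL) (v : HH) : ⟪g, hat j v⟫_ℂ = ⟪JJ j g, v⟫_ℂ :=
  ContinuousLinearMap.adjoint_inner_right _ _ _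

theorem hat_inner (j : ℤ) (g : LL) (v : HH) : ⟪hat j v, g⟫_ℂ = ⟪v, JJ j g⟫_ℂ :=
  ContinuousLinearMap.adjoint_inner_left _ _ _

theorem hat_dd (j k b : ℤ) : hat j (dd (k, b)) = if j = k then fb b else 0 :=
  LL_ext_vec fun a => by
    rw [inner_hat, JJ_fb, inner_dd]
    by_cases h : j = k <;> simp [h, inner_fb]

theorem hat_JJ (j k : ℤ) (g : LL) : hat j (JJ k g) = if j = k then g else 0 := by
  have : (hat j).comp (JJ k) = if j = k then 1 else 0 := LL_ext fun b => by
    rw [ContinuousLinearMap.comp_apply, JJ_fb, hat_dd]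
    split_ifs <;> rfl
  rw [← ContinuousLinearMap.comp_apply, this]
  split_ifs <;> rfl

theorem hasSum_hat (v : HH) : HasSum (fun j => ‖hat j v‖ ^ 2) (‖v‖ ^ 2) :=
  (hasSum_norm_sq_lp v).prod_fiberwise fun j => by
    simpa only [inner_hat, JJ_fb, inner_dd_left] using hasSum_norm_sq_LL (hat j v)

theorem sum_hat_le (s : Finset ℤ) (v : HH) : ∑ j ∈ s, ‖hat j v‖ ^ 2 ≤ ‖v‖ ^ 2 :=
  sum_le_hasSum s (fun _ _ => by positivity) (hasSum_hat v)

/-- The projection on the rows `0, …, n - 1`. -/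
def PE (n : ℕ) : HH →L[ℂ] HH := ∑ l ∈ Finset.range n, (JJ l).comp (hat l)

theorem PE_apply (n : ℕ) (v : HH) : PE n v = ∑ l ∈ Finset.range n, JJ l (hat l v) := by
  simp [PE]

theorem hat_PE (j : ℤ) (n : ℕ) (v : HH) :
    hat j (PE n v) = if 0 ≤ j ∧ j < n then hat j v else 0 := by
  rw [PE_apply, map_sum]
  simp only [hat_JJ]
  split_ifs with h
  · obtain ⟨l, rfl⟩ := Int.eq_ofNat_of_zero_le h.1
    rw [Finset.sum_eq_single l]
    · simp
    · intro b _ hb
      rw [if_neg (by omega)]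
    · intro hl
      simp at hl; omega
  · exact Finset.sum_eq_zero fun l hl => if_neg (by simp at hl; omega)

theorem PE_JJ (n : ℕ) (k : ℤ) (g : LL) :
    PE n (JJ k g) = if 0 ≤ k ∧ k < n then JJ k g else 0 := by
  rw [PE_apply]
  simp only [hat_JJ]
  split_ifs with h
  · obtain ⟨l, rfl⟩ := Int.eq_ofNat_of_zero_le h.1
    rw [Finset.sum_eq_single l]
    · simp
    · intro b _ hb
      rw [if_neg (by omega), map_zero]
    · intro hl
      simp at hl; omega
  · exact Finset.sum_eq_zero fun l hl => by rw [if_neg (by simp at hl; omega), map_zero]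

theorem norm_one_sub_PE (n : ℕ) (v : HH) (s : Finset ℤ) (hs : ∀ j ∈ s, 0 ≤ j ∧ j < n) :
    ‖(1 - PE n) v‖ ^ 2 + ∑ j ∈ s, ‖hat j v‖ ^ 2 ≤ ‖v‖ ^ 2 := by
  have h1 : HasSum (fun j => if j ∈ s then ‖hat j v‖ ^ 2 else 0) (∑ j ∈ s, ‖hat j v‖ ^ 2) := by
    rw [Finset.sum_congr rfl fun j (hj : j ∈ s) =>
      (if_pos (t := ‖hat j v‖ ^ 2) (e := 0) hj).symm]
    exact hasSum_sum_of_ne_finset_zero fun j hj => if_neg hj
  refine hasSum_le (fun j => ?_) ((hasSum_hat ((1 - PE n) v)).add h1) (hasSum_hat v)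
  rw [sub_apply, map_sub, hat_PE, one_apply_eq_self]
  split_ifs with h h' h'
  · simp
  · simp
  · exact absurd (hs j h') h
  · simp

end Crest.Agent.R113.Red
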