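import Crest.Agent.R113.LemmaS

/-! Row 113, S0149: existence of the frequencies. -/

set_option autoImplicit false

noncomputable section

namespace Crest.Agent.R113

open Filter Finset

namespace SeqExists

theorem approx {α : ℝ} (hα : Irrational α) (x ε : ℝ) (hε : 0 < ε) (N : ℕ) :
    ∃ (n : ℕ) (y : ℝ), N ≤ n ∧ (((n : ℝ) * α : ℝ) : TT) = (y : TT) ∧ |y - x| ≤ ε := by
  have h1 : DenseRange (fun n : ℤ => n • (α : TT)) :=
    AddCircle.denseRange_zsmul_coe_iff.2 (by simpa using hα)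
  have h2 : MapClusterPt (x : TT) atTop (fun n : ℕ => n • (α : TT)) :=
    mapClusterPt_atTop_nsmul_iff_mem_topologicalClosure_zmultiples.2 (h1 _)
  obtain ⟨n, hn1, hn2⟩ := ((h2.frequently (Metric.ball_mem_nhds _ hε)).and_eventually
    (eventually_ge_atTop N)).exists
  refine ⟨n, n * α - round (n * α - x), hn2, ?_, ?_⟩
  · rw [AddCircle.coe_sub]
    have : (((round (n * α - x) : ℤ) : ℝ) : TT) = 0 :=
      (AddCircle.coe_eq_zero_iff _).2 ⟨round (n * α - x), by simp⟩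
    rw [this, sub_zero]
  · rw [dist_eq_norm, ← AddCircle.coe_nsmul, ← AddCircle.coe_sub, UnitAddCircle.norm_eq,
      nsmul_eq_mul] at hn1
    rw [sub_right_comm]
    exact hn1.le

theorem exists_mth {θ : ℝ} (hθ : Irrational θ) (x ε : ℕ → ℝ) (hε : ∀ i, 0 < ε i) (c : ℕ → ℕ) :
    ∃ (m : ℕ → ℕ) (th : ℕ → ℝ), (∀ j, 0 < m j) ∧ (∀ j, m j ∣ m (j + 1)) ∧
      (∀ j, (((m j : ℝ) * θ : ℝ) : TT) = ((th j : ℝ) : TT)) ∧ (∀ j, |th j - x j| ≤ ε j) ∧
      ∀ i, c i * ∑ j ∈ range i, m j ≤ m i := by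
  have step : ∀ i p s : ℕ, 0 < p → ∃ (q : ℕ) (y : ℝ), 0 < q ∧ p ∣ q ∧ c i * s ≤ q ∧
      (((q : ℝ) * θ : ℝ) : TT) = (y : TT) ∧ |y - x i| ≤ ε i := by
    intro i p s hp
    obtain ⟨n, y, h1, h2, h3⟩ := approx (hθ.natCast_mul hp.ne') (x i) (ε i) (hε i) (c i * s + 1)
    refine ⟨n * p, y, Nat.mul_pos (by omega) hp, Dvd.intro_left _ rfl, ?_, ?_, h3⟩
    · have := Nat.le_mul_of_pos_right n hp
      omega
    · rw [← h2, Nat.cast_mul, mul_assoc]
  choose! f g h1 h2 h3 h4 h5 using step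
  let u : ℕ → ℕ × ℕ := fun n => Nat.rec (1, 0) (fun i v => (f i v.1 v.2, v.2 + f i v.1 v.2)) n
  have hu : ∀ i, u (i + 1) = (f i (u i).1 (u i).2, (u i).2 + f i (u i).1 (u i).2) := fun i => rfl
  have hpos : ∀ i, 0 < (u i).1 := by
    intro i
    induction i with
    | zero => exact one_pos
    | succ i ih => rw [hu]; exact h1 i _ _ ih
  have hsum : ∀ i, ∑ j ∈ range i, f j (u j).1 (u j).2 = (u i).2 := by
    intro i
    induction i with
    | zero => rfl
    | succ i ih => rw [sum_range_succ, ih, hu]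
  refine ⟨fun i => f i (u i).1 (u i).2, fun i => g i (u i).1 (u i).2, fun j => h1 j _ _ (hpos j),
    fun j => h2 (j + 1) _ _ (hpos (j + 1)), fun j => h4 j _ _ (hpos j), fun j => h5 j _ _ (hpos j),
    fun i => ?_⟩
  rw [hsum]
  exact h3 i _ _ (hpos i)

/-- remove the leading binary digit -/
def off (i : ℕ) : ℕ := i - 2 ^ Nat.log 2 i

theorem log_add {t a : ℕ} (h : a < 2 ^ t) : Nat.log 2 (2 ^ t + a) = t :=
  Nat.log_eq_of_pow_le_of_lt_pow (by omega) (by rw [pow_succ]; omega)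

theorem off_add {t a : ℕ} (h : a < 2 ^ t) : off (2 ^ t + a) = a := by
  rw [off, log_add h]; omega

end SeqExists

open SeqExists in
theorem exists_seq (θ : ℝ) (hθ : Irrational θ) : Nonempty (Seq θ) := by
  obtain ⟨R, hR⟩ : ∃ R : ℕ, 2 ^ 44 ≤ R := ⟨_, le_rfl⟩
  have hR2 : 2 ≤ R := le_trans (by norm_num) hR
  obtain ⟨δ, hδ0, hδ1, hG⟩ := lemmaS R hR2
  have hG' : ∀ len : ℕ, ∃ γ : ℕ → ℝ, (∀ i, 1 ≤ γ i ∧ γ i ≤ 2) ∧ (4 ≤ len →
      ∀ D : ℝ, (R : ℝ) ^ len ≤ D → D ≤ (R : ℝ) ^ (5 * len) →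
        2 * ((range len).filter fun i => ‖((D * (γ i / (R : ℝ) ^ i) : ℝ) : TT)‖ < 2 * δ).card
          ≤ len) := by
    intro len
    by_cases h : 4 ≤ len
    · obtain ⟨γ, h1, h2⟩ := hG len h
      exact ⟨γ, h1, fun _ => h2⟩
    · exact ⟨fun _ => 1, fun _ => ⟨le_rfl, one_le_two⟩, fun h' => absurd h' h⟩
  choose G hG1 hG2 using hG'
  have hR1 : (1 : ℝ) ≤ R := by exact_mod_cast (by omega : 1 ≤ R)
  have hR0 : (0 : ℝ) < R := by linarith
  obtain ⟨m, th, h1, h2, h3, h4, h5⟩ := exists_mth hθ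
    (fun i => G (2 ^ Nat.log 2 (off i)) (off (off i)) / (R : ℝ) ^ i)
    (fun i => δ / (R : ℝ) ^ (3 * i)) (fun i => by positivity) (fun i => R ^ i * 2 ^ i)
  have herr : ∀ i, δ / (R : ℝ) ^ (3 * i) ≤ 1 / 2 / (R : ℝ) ^ i := by
    intro i
    have h6 : δ ≤ 1 / 2 := hδ1.trans (one_div_le_one_div_of_le two_pos (by linarith))
    exact div_le_div₀ (by norm_num) h6 (by positivity) (pow_le_pow_right₀ hR1 (by omega))
  refine ⟨⟨R, δ, m, th, hR, hδ0, hδ1, h1, h2, h3, fun j => ?_, fun j => ?_, h5, ?_⟩⟩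
  · have h6 := (abs_le.1 ((h4 j).trans (herr j))).1
    have h7 := div_le_div_of_nonneg_right (hG1 (2 ^ Nat.log 2 (off j)) (off (off j))).1
      (pow_nonneg hR0.le j)
    have h8 : 1 / (2 * (R : ℝ) ^ j) = 1 / (R : ℝ) ^ j - 1 / 2 / (R : ℝ) ^ j := by
      field_simp; norm_num
    linarith
  · have h6 := (abs_le.1 ((h4 j).trans (herr j))).2
    have h7 := div_le_div_of_nonneg_right (hG1 (2 ^ Nat.log 2 (off j)) (off (off j))).2
      (pow_nonneg hR0.le j)
    have h8 : 3 / (R : ℝ) ^ j = 2 / (R : ℝ) ^ j + 1 / 2 / (R : ℝ) ^ j + 1 / 2 / (R : ℝ) ^ j := by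
      ring
    have h9 : 0 ≤ 1 / 2 / (R : ℝ) ^ j := by positivity
    linarith
  · intro t e he het D hD1 hD2
    have hv : (0 : ℝ) < (R : ℝ) ^ blkS t e := by positivity
    have h4e : 4 ≤ 2 ^ e := by
      calc 4 = 2 ^ 2 := by norm_num
        _ ≤ 2 ^ e := Nat.pow_le_pow_right two_pos (by omega)
    have het2 : 2 * 2 ^ e ≤ 2 ^ t := by
      rw [← pow_succ']; exact Nat.pow_le_pow_right two_pos het
    have key := hG2 (2 ^ e) h4e (D / (R : ℝ) ^ blkS t e)
      (by rw [le_div_iff₀ hv, ← pow_add, add_comm]; exact hD1)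
      (by rw [div_le_iff₀ hv, ← pow_add, add_comm]; exact hD2)
    refine le_trans (Nat.mul_le_mul_left 2 ?_) key
    refine card_le_card_of_injOn (fun i => i - blkS t e) (fun i hi => ?_) (fun i hi i' hi' h => ?_)
    · obtain ⟨hi1, hi2⟩ := mem_filter.1 (mem_coe.1 hi)
      obtain ⟨a, rfl⟩ := Nat.exists_eq_add_of_le (mem_Ico.1 hi1).1
      have ha : a < 2 ^ e := by have := (mem_Ico.1 hi1).2; omega
      refine mem_coe.2 (mem_filter.2 ⟨mem_range.2 (by simpa using ha), ?_⟩)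
      have e1 : off (blkS t e + a) = 2 ^ e + a := by
        rw [blkS, add_assoc]; exact off_add (by omega)
      have h6 := h4 (blkS t e + a)
      simp only [e1, log_add ha, off_add ha] at h6
      simp only [Nat.add_sub_cancel_left]
      have hD0 : 0 ≤ D := le_trans (by positivity) hD1
      have e2 : D / (R : ℝ) ^ blkS t e * (G (2 ^ e) a / (R : ℝ) ^ a) =
          D * th (blkS t e + a) -
            D * (th (blkS t e + a) - G (2 ^ e) a / (R : ℝ) ^ (blkS t e + a)) := by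
        rw [pow_add]; field_simp; ring
      rw [e2, AddCircle.coe_sub]
      refine (norm_sub_le _ _).trans_lt ?_
      have h7 : ‖((D * (th (blkS t e + a) - G (2 ^ e) a / (R : ℝ) ^ (blkS t e + a)) : ℝ) : TT)‖ ≤
          δ := by
        refine (QuotientAddGroup.norm_mk_le_norm).trans ?_
        rw [Real.norm_eq_abs, abs_mul, abs_of_nonneg hD0]
        have h8 : D ≤ (R : ℝ) ^ (3 * (blkS t e + a)) :=
          hD2.trans (pow_le_pow_right₀ hR1 (by unfold blkS; omega))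
        calc _ ≤ (R : ℝ) ^ (3 * (blkS t e + a)) * (δ / (R : ℝ) ^ (3 * (blkS t e + a))) :=
              mul_le_mul h8 h6 (abs_nonneg _) (by positivity)
          _ = δ := by field_simp
      linarith
    · have := (mem_Ico.1 (mem_filter.1 (mem_coe.1 hi)).1).1
      have := (mem_Ico.1 (mem_filter.1 (mem_coe.1 hi')).1).1
      simp only at h
      omega

end Crest.Agent.R113
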