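import Crest.Prelude.Def_TwoAdicShift
import Crest.Agent.R113.Domar

/-!
Weighted shifts on `ℓ²(ℤ)`: construction, tail subspaces and unicellularity.
-/

set_option autoImplicit false

namespace Crest.Agent.R113

open Crest.AnalysisR.TwoAdic

theorem hasSum_norm_sq (v : seqHilbert) : HasSum (fun j => ‖v j‖ ^ 2) (‖v‖ ^ 2) := by
  simpa using lp.hasSum_norm (p := 2) (by norm_num) v

theorem memℓp_of_le {u : ℤ → ℂ} (v : seqHilbert) (d : ℤ) {C : ℝ}
    (h : ∀ j, ‖u (j + d)‖ ≤ C * ‖v j‖) : Memℓp u 2 := by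
  refine memℓp_gen ?_
  rw [← (Equiv.addRight d).summable_iff]
  refine Summable.of_nonneg_of_le (fun j => by simp) (fun j => ?_)
    ((hasSum_norm_sq v).summable.mul_left (C ^ 2))
  simp only [Function.comp, Equiv.coe_addRight, ENNReal.toReal_ofNat, Real.rpow_ofNat]
  rw [← mul_pow]
  exact pow_le_pow_left₀ (norm_nonneg _) (h j) 2

theorem norm_le_of_le (u v : seqHilbert) (d : ℤ) {C : ℝ} (hC : 0 ≤ C)
    (h : ∀ j, ‖u (j + d)‖ ≤ C * ‖v j‖) : ‖u‖ ≤ C * ‖v‖ := by
  refine (pow_le_pow_iff_left₀ (norm_nonneg _) (by positivity) two_ne_zero).1 ?_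
  have h1 := (Equiv.addRight d).hasSum_iff.2 (hasSum_norm_sq u)
  rw [mul_pow]
  refine hasSum_le (fun j => ?_) h1 ((hasSum_norm_sq v).mul_left (C ^ 2))
  simp only [Function.comp, Equiv.coe_addRight]
  rw [← mul_pow]
  exact pow_le_pow_left₀ (norm_nonneg _) (h j) 2

/-- Existence of weighted shifts. -/
theorem exists_wop (w : ℤ → ℂ) (d : ℤ) {C : ℝ} (hC : 0 ≤ C) (hw : ∀ j, ‖w j‖ ≤ C) :
    ∃ T : seqHilbert →L[ℂ] seqHilbert, (∀ v j, T v (j + d) = w j * v j) ∧ ‖T‖ ≤ C := by
  have hb : ∀ (v : seqHilbert) j, ‖w (j + d - d) * v (j + d - d)‖ ≤ C * ‖v j‖ := by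
    intro v j
    rw [add_sub_cancel_right, norm_mul]
    exact mul_le_mul_of_nonneg_right (hw j) (norm_nonneg _)
  let L : seqHilbert →ₗ[ℂ] seqHilbert :=
    { toFun := fun v => ⟨fun j => w (j - d) * v (j - d), memℓp_of_le v d (hb v)⟩
      map_add' := fun u v => by
        ext j
        simp [mul_add]
      map_smul' := fun c v => by
        ext j
        simp [mul_left_comm] }
  refine ⟨L.mkContinuous C fun v => norm_le_of_le _ v d hC (hb v), fun v j => ?_,
    LinearMap.mkContinuous_norm_le _ hC _⟩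
  change w (j + d - d) * v (j + d - d) = _
  rw [add_sub_cancel_right]

theorem basisVec_apply (i j : ℤ) : basisVec i j = if j = i then 1 else 0 := by
  simp [basisVec, lp.single_apply, Pi.single_apply]

theorem norm_basisVec (i : ℤ) : ‖basisVec i‖ = 1 := by
  simp [basisVec, lp.norm_single]

theorem inner_basisVec (i : ℤ) (v : seqHilbert) : inner ℂ (basisVec i) v = v i := by
  simp [basisVec, lp.inner_single_left]

theorem apply_basisVec {T : seqHilbert →L[ℂ] seqHilbert} {w : ℤ → ℂ} {d : ℤ}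
    (hT : ∀ v j, T v (j + d) = w j * v j) (i : ℤ) : T (basisVec i) = w i • basisVec (i + d) := by
  ext j
  obtain ⟨j, rfl⟩ : ∃ k, j = k + d := ⟨j - d, by ring⟩
  rw [hT]
  simp only [lp.coeFn_smul, Pi.smul_apply, basisVec_apply, add_left_inj, smul_eq_mul]
  split_ifs with h
  · rw [h]
  · simp

theorem hasSum_basisVec (v : seqHilbert) : HasSum (fun j => v j • basisVec j) v := by
  convert lp.hasSum_single (p := 2) (by norm_num) v using 2 with j
  rw [basisVec, ← lp.single_smul, smul_eq_mul, mul_one]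

theorem mem_of_support {W : Submodule ℂ seqHilbert} (hW : IsClosed (W : Set seqHilbert))
    {v : seqHilbert} (h : ∀ j, v j ≠ 0 → basisVec j ∈ W) : v ∈ W := by
  refine hW.mem_of_tendsto (hasSum_basisVec v) (Filter.Eventually.of_forall fun s => ?_)
  refine W.sum_mem fun j _ => ?_
  by_cases hj : v j = 0
  · simp [hj]
  · exact W.smul_mem _ (h j hj)

theorem isClosed_tailSpace (h : ℤ) : IsClosed (tailSpace h : Set seqHilbert) :=
  Submodule.isClosed_topologicalClosure _

theorem basisVec_mem_tailSpace {h j : ℤ} (hj : h ≤ j) : basisVec j ∈ tailSpace h :=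
  Submodule.le_topologicalClosure _ (Submodule.subset_span ⟨⟨j, hj⟩, rfl⟩)

theorem mem_tailSpace {h : ℤ} {v : seqHilbert} : v ∈ tailSpace h ↔ ∀ j, j < h → v j = 0 := by
  constructor
  · intro hv j hj
    have : tailSpace h ≤ LinearMap.ker (innerSL ℂ (basisVec j)).toLinearMap := by
      refine Submodule.topologicalClosure_minimal _ (Submodule.span_le.2 ?_)
        (ContinuousLinearMap.isClosed_ker _)
      rintro _ ⟨⟨i, hi⟩, rfl⟩
      change inner ℂ (basisVec j) (basisVec i) = 0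
      rw [inner_basisVec, basisVec_apply, if_neg (by omega)]
    have h2 : inner ℂ (basisVec j) v = 0 := this hv
    rwa [inner_basisVec] at h2
  · intro hv
    exact mem_of_support (isClosed_tailSpace h) fun j hj =>
      basisVec_mem_tailSpace (not_lt.1 fun hc => hj (hv j hc))

theorem pow_apply_of_shift {T : seqHilbert →L[ℂ] seqHilbert} {φ : ℤ → ℝ}
    (hT : ∀ v j, T v (j + 1) = (Real.exp (φ j - φ (j + 1)) : ℂ) * v j) (n : ℕ) (v : seqHilbert)
    (j : ℤ) : (T ^ n) v (j + n) = (Real.exp (φ j - φ (j + n)) : ℂ) * v j := by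
  induction n with
  | zero => simp
  | succ n ih =>
    rw [pow_succ', mul_apply_eq_comp, Nat.cast_succ, ← add_assoc, hT, ih, ← mul_assoc,
      ← Complex.ofReal_mul, ← Real.exp_add]
    congr 3
    ring

theorem Good.norm_pow_le {T : seqHilbert →L[ℂ] seqHilbert} {φ : ℤ → ℝ} (h : Good φ)
    (hT : ∀ v j, T v (j + 1) = (Real.exp (φ j - φ (j + 1)) : ℂ) * v j) (n : ℕ) (hn : 1 ≤ n)
    (v : seqHilbert) :
    ‖(T ^ n) v‖ ≤ Real.exp (-10 * (((n + 1) ^ 2 / 4 : ℕ) : ℝ)) * ‖v‖ := by
  refine norm_le_of_le _ v n (Real.exp_pos _).le fun j => ?_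
  rw [pow_apply_of_shift hT, norm_mul, Complex.norm_real, Real.norm_eq_abs, Real.abs_exp]
  refine mul_le_mul_of_nonneg_right (Real.exp_le_exp.2 ?_) (norm_nonneg _)
  linarith [h.pow_le j n hn]

/-- The Domar lemma for a weighted shift. -/
theorem Good.lt_of_inner {T : seqHilbert →L[ℂ] seqHilbert} {φ : ℤ → ℝ} (h : Good φ)
    (hT : ∀ v j, T v (j + 1) = (Real.exp (φ j - φ (j + 1)) : ℂ) * v j) {f g : seqHilbert}
    (h0 : ∀ n : ℕ, inner ℂ g ((T ^ n) f) = 0) {j k : ℤ} (hf : f j ≠ 0) (hg : g k ≠ 0) :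
    k < j := by
  have key : ∀ n : ℤ, (Summable fun j => ‖f j‖ * ‖(starRingEnd ℂ) (g (j + n))‖) ∧
      ∑' j, ‖f j‖ * ‖(starRingEnd ℂ) (g (j + n))‖ ≤ ‖f‖ * ‖g‖ := by
    intro n
    obtain ⟨U, hU, hU1⟩ := exists_wop (fun _ => 1) (-n) zero_le_one (fun _ => by simp)
    have e : ∀ j, ‖(starRingEnd ℂ) (g (j + n))‖ = ‖U g j‖ := by
      intro j
      have := hU g (j + n)
      rw [add_neg_cancel_right, one_mul] at this
      rw [this, RCLike.norm_conj]
    simp only [e]
    have h2 := lp.tsum_mul_le_mul_norm (p := 2) (q := 2)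
      (by simpa using Real.HolderConjugate.two_two) f (U g)
    refine ⟨h2.1, h2.2.trans (mul_le_mul_of_nonneg_left ?_ (norm_nonneg _))⟩
    exact (U.le_of_opNorm_le hU1 g).trans_eq (one_mul _)
  refine h.lt_of_ne_zero f (fun k => (starRingEnd ℂ) (g k)) (‖f‖ * ‖g‖) (fun n => (key n).1)
    (fun n => (key n).2) (fun n => ?_) hf (by simpa using hg)
  rw [← h0 n, lp.inner_eq_tsum,
    ← (Equiv.addRight (n : ℤ)).tsum_eq fun j => inner ℂ (g j) ((T ^ n) f j)]
  refine tsum_congr fun j => ?_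
  simp only [Equiv.coe_addRight, pow_apply_of_shift hT, RCLike.inner_apply]
  ring

/-- Unicellularity. -/
theorem Good.unicellular {T : seqHilbert →L[ℂ] seqHilbert} {φ : ℤ → ℝ} (h : Good φ)
    (hT : ∀ v j, T v (j + 1) = (Real.exp (φ j - φ (j + 1)) : ℂ) * v j)
    (W : Submodule ℂ seqHilbert) (hW : IsClosed (W : Set seqHilbert)) :
    (∀ v ∈ W, T v ∈ W) ↔ (W = ⊥ ∨ W = ⊤ ∨ ∃ h : ℤ, W = tailSpace h) := by
  constructor
  · intro hinv
    have : CompleteSpace W := hW.completeSpace_coe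
    have hpow : ∀ (n : ℕ), ∀ v ∈ W, (T ^ n) v ∈ W := by
      intro n v hv
      induction n with
      | zero => simpa using hv
      | succ n ih => rw [pow_succ']; exact hinv _ ih
    have hb : ∀ f ∈ W, ∀ j k, f j ≠ 0 → j ≤ k → basisVec k ∈ W := by
      intro f hf j k hj hjk
      rw [← W.orthogonal_orthogonal, Submodule.mem_orthogonal']
      intro g hg
      rw [inner_basisVec]
      by_contra hc
      exact absurd (h.lt_of_inner hT
        (fun n => Submodule.inner_left_of_mem_orthogonal (hpow n f hf) hg) hj hc) (not_lt.2 hjk)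
    by_cases h1 : W = ⊥
    · exact Or.inl h1
    obtain ⟨f, hf, hf0⟩ := (Submodule.ne_bot_iff W).1 h1
    have hne : ∃ j, ∃ f ∈ W, f j ≠ 0 := by
      by_contra hc
      push Not at hc
      exact hf0 (lp.ext (funext fun j => hc j f hf))
    by_cases h2 : ∃ b : ℤ, ∀ j, (∃ f ∈ W, f j ≠ 0) → b ≤ j
    · obtain ⟨m, ⟨f, hf, hm⟩, hmin⟩ := Int.exists_least_of_bdd h2 hne
      refine Or.inr (Or.inr ⟨m, le_antisymm (fun v hv => mem_tailSpace.2 fun j hj => ?_)
        fun v hv => mem_of_support hW fun j hj => hb f hf m j hm ?_⟩)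
      · by_contra hc
        exact absurd (hmin j ⟨v, hv, hc⟩) (not_le.2 hj)
      · exact not_lt.1 fun hc => hj (mem_tailSpace.1 hv j hc)
    · push Not at h2
      refine Or.inr (Or.inl (eq_top_iff.2 fun v _ => mem_of_support hW fun k _ => ?_))
      obtain ⟨j, ⟨f, hf, hj⟩, hjk⟩ := h2 k
      exact hb f hf j k hj hjk.le
  · rintro (rfl | rfl | ⟨m, rfl⟩) v hv
    · simp [(Submodule.mem_bot ℂ).1 hv]
    · trivial
    · refine mem_tailSpace.2 fun j hj => ?_
      obtain ⟨j, rfl⟩ : ∃ k, j = k + 1 := ⟨j - 1, by ring⟩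
      rw [hT, mem_tailSpace.1 hv j (by omega), mul_zero]

/-- A backward shift with nonzero weights maps tails densely into the next tails. -/
theorem closure_image_tail {T : seqHilbert →L[ℂ] seqHilbert} {w : ℤ → ℂ}
    (hT : ∀ v j, T v (j + -1) = w j * v j) (hw : ∀ j, w j ≠ 0) (h : ℤ) :
    closure (T '' (tailSpace h : Set seqHilbert)) = (tailSpace (h - 1) : Set seqHilbert) := by
  refine subset_antisymm (closure_minimal ?_ (isClosed_tailSpace _)) fun v hv => ?_
  · rintro _ ⟨v, hv, rfl⟩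
    refine mem_tailSpace.2 fun j hj => ?_
    obtain ⟨j, rfl⟩ : ∃ k, j = k + -1 := ⟨j + 1, by ring⟩
    rw [hT, mem_tailSpace.1 hv j (by omega), mul_zero]
  · change v ∈ ((tailSpace h).map T.toLinearMap).topologicalClosure
    refine mem_of_support (Submodule.isClosed_topologicalClosure _) fun j hj => ?_
    refine Submodule.le_topologicalClosure _ ⟨(w (j + 1))⁻¹ • basisVec (j + 1),
      Submodule.smul_mem _ _ (basisVec_mem_tailSpace ?_), ?_⟩
    · have := not_lt.1 fun hc => hj (mem_tailSpace.1 hv j hc)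
      omega
    · simp [apply_basisVec hT, smul_smul, hw]

theorem closure_range_eq {T : seqHilbert →L[ℂ] seqHilbert} {w : ℤ → ℂ}
    (hT : ∀ v j, T v (j + -1) = w j * v j) (hw : ∀ j, w j ≠ 0) :
    closure (Set.range T) = Set.univ := by
  refine Set.eq_univ_of_forall fun v => ?_
  change v ∈ (LinearMap.range T.toLinearMap).topologicalClosure
  refine mem_of_support (Submodule.isClosed_topologicalClosure _) fun j _ => ?_
  refine Submodule.le_topologicalClosure _ ⟨(w (j + 1))⁻¹ • basisVec (j + 1), ?_⟩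
  simp [apply_basisVec hT, smul_smul, hw]

end Crest.Agent.R113
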