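import Crest.Agent.R113.FinDefs

/-! Row 113, S0149: the wall system on the circle. -/

set_option autoImplicit false

noncomputable section

namespace Crest.Agent.R113

open Finset

/-- The circle `ℝ / ℤ`. -/
abbrev TT : Type := UnitAddCircle

/-- The representative in `[0,1)` of a point of the circle. -/
def fr (y : TT) : ℝ := (AddCircle.equivIco 1 0 y : ℝ)

/-- Real-valued indicator. -/
def ind (A : Set TT) (y : TT) : ℝ := A.indicator 1 y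

/-- Start of the block with parameters `t, e`; the block is `[blkS t e, blkS t e + 2 ^ e)`. -/
def blkS (t e : ℕ) : ℕ := 2 ^ t + 2 ^ e

/-- Frequencies `m j` and their rotation numbers `th j ≡ m j * θ`. -/
structure Seq (θ : ℝ) where
  R : ℕ
  δ : ℝ
  m : ℕ → ℕ
  th : ℕ → ℝ
  R_ge : 2 ^ 44 ≤ R
  δ_pos : 0 < δ
  δ_le : δ ≤ 1 / (12 * (R : ℝ))
  m_pos : ∀ j, 0 < m j
  m_dvd : ∀ j, m j ∣ m (j + 1)
  th_eq : ∀ j, (((m j : ℝ) * θ : ℝ) : TT) = ((th j : ℝ) : TT)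
  th_lo : ∀ j, 1 / (2 * (R : ℝ) ^ j) ≤ th j
  th_hi : ∀ j, th j ≤ 3 / (R : ℝ) ^ j
  m_grow : ∀ i, R ^ i * 2 ^ i * ∑ j ∈ range i, m j ≤ m i
  nonres : ∀ t e : ℕ, 27 ≤ e → e < t → ∀ D : ℝ, (R : ℝ) ^ (blkS t e + 2 ^ e) ≤ D →
    D ≤ (R : ℝ) ^ (blkS t e + 5 * 2 ^ e) →
    2 * ((Ico (blkS t e) (blkS t e + 2 ^ e)).filter
      fun i => ‖((D * th i : ℝ) : TT)‖ < δ).card ≤ 2 ^ e

namespace Seq

variable {θ : ℝ} (S : Seq θ)

/-- A class `j` wall lies right after `y`. -/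
def wall1 (j : ℕ) : Set TT := {y | 1 - fr (S.m j • y) ≤ S.th j}

/-- The zone of `3 (j+1)` sites before a class `j` wall. -/
def zone1 (j : ℕ) : Set TT := {y | 1 - fr (S.m j • y) ≤ 3 * ((j : ℝ) + 1) * S.th j}

/-- Walls of class at least `i`. -/
def Wall (i : ℕ) : Set TT := {y | ∃ j, i ≤ j ∧ y ∈ S.wall1 j}

/-- Zones of class at least `i`. -/
def Zone (i : ℕ) : Set TT := {y | ∃ j, i ≤ j ∧ y ∈ S.zone1 j}

/-- Period of class `i`. -/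
def N (i : ℕ) : ℕ := ⌈1 / S.th i⌉₊

/-- Cut-off for the base cost. -/
def Kc (i : ℕ) : ℝ := 3 * (S.R : ℝ) ^ i * 4 ^ i

/-- Points with large base cost. -/
def Base (i : ℕ) : Set TT := {y | ‖y‖ < 1 / S.Kc i}

/-- A wall of class at least `i` is crossed within `t` steps. -/
def Aset (i t : ℕ) : Set TT := {y | ∃ l : ℕ, l < t ∧ y + l • (θ : TT) ∈ S.Wall i}

/-- Number of steps needed to cross a wall of class at least `i`. -/
def P (i : ℕ) (y : TT) : ℕ := sInf {t | y ∈ S.Aset i t}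

/-- Exceptional set of the test `(i,t)`. -/
def Xset (i t : ℕ) : Set TT :=
  {y | y ∈ S.Zone i ∨ y + t • (θ : TT) ∈ S.Zone i ∨ y - t • (θ : TT) ∈ S.Zone i ∨
    ∃ l : ℕ, l < t ∧ y + l • (θ : TT) ∈ S.Base i}

/-- Harmonic weights. -/
def om (m i : ℕ) : ℝ := 1 / (((i - m : ℕ) : ℝ) + 1)

/-- Averaged test function of class `i`. -/
def NN1 (i : ℕ) (y : TT) : ℝ := (∑ t ∈ Icc 1 (S.N i), ind (S.Aset i t) y) / S.N i

/-- Averaged difference between the test sets of class `i` and their shifts. -/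
def Xi1 (i : ℕ) (y : TT) : ℝ :=
  (∑ t ∈ Icc 1 (S.N i), (ind (S.Aset i t) y - ind (S.Aset i t) (y - t • (θ : TT)))) / S.N i

/-- Averaged exceptional sets of class `i`. -/
def Exc1 (i : ℕ) (y : TT) : ℝ := (∑ t ∈ Icc 1 (S.N i), ind (S.Xset i t) y) / S.N i

def NN (m M : ℕ) (y : TT) : ℝ := ∑ i ∈ Icc m M, om m i * S.NN1 i y

def Xi (m M : ℕ) (y : TT) : ℝ := ∑ i ∈ Icc m M, om m i * S.Xi1 i y

def Exc (m M : ℕ) (y : TT) : ℝ := ∑ i ∈ Icc m M, S.Exc1 i y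

/-- Separation of two points by the tests. -/
def sepf (m M : ℕ) (y y' : TT) : ℝ :=
  ∑ i ∈ Icc m M, om m i * (|(S.P i y : ℝ) - (S.P i y' : ℝ)| / S.N i)

/-- Class `i` is disturbed at `y` by a higher wall. -/
def bad (i : ℕ) : Set TT := S.Aset (i + 1) (2 * S.N i)

/-- Fraction of disturbed classes in a block. -/
def frac (t e : ℕ) (y : TT) : ℝ :=
  (∑ i ∈ Ico (blkS t e) (blkS t e + 2 ^ e), ind (S.bad i) y) / 2 ^ e

/-- Last class used when the first class is `2 ^ s` and the last block is `e1`. -/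
def top (s e1 : ℕ) : ℕ := 2 ^ max s (e1 + 2) + 2 ^ (e1 + 2)

/-- Sites that are not good. -/
def BadSet (s e1 : ℕ) : Set TT :=
  {y | (∃ e, 27 ≤ e ∧ e ≤ e1 ∧ 1 / 8 ≤ S.frac (max s (e + 1)) e y) ∨
    (∃ i, 2 ^ s ≤ i ∧ i ≤ 2 ^ s + 2 ^ 28 + 1 ∧ y ∈ S.bad i) ∨
    (S.P (2 ^ s) y : ℝ) ≤ 2 * S.δ * S.N (2 ^ s)}

end Seq

/-- A wall system: frequencies together with the weight `F`. -/
structure Sys (θ : ℝ) extends Seq θ where
  F : TT → ℝ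
  Low : ℕ → ℝ
  c : ℕ → ℝ
  lam : ℕ → ℝ
  Low_nonneg : ∀ i, 0 ≤ Low i
  Low_mono : Monotone Low
  lam_ge : ∀ i : ℕ, ((i : ℝ) + 1) * (3 * (R : ℝ) ^ i * Low i + 9 * ((R : ℝ) ^ i) ^ 2) ≤ lam i
  lam_mono : Monotone lam
  c_ge : ∀ i : ℕ, 12 * (R : ℝ) ^ i * Low i + 9 * lam i + 2 * i ≤ c i
  c_mono : Monotone c
  F_cont : Continuous F
  F_nonneg : ∀ y, 0 ≤ F y
  F_le_one : ∀ y, F y ≤ 1
  F_eq_zero : ∀ y, F y = 0 ↔ y = 0
  F_le : ∀ y, y ≠ 0 → F y ≤ Real.exp (-‖y‖⁻¹)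
  F_lo : ∀ i y, y ∉ toSeq.Zone i → y ∉ toSeq.Base i → Real.exp (-Low i) ≤ F y
  F_hi : ∀ j y, y ∉ toSeq.zone1 j →
    ∃ l : ℕ, (l : ℝ) * th j < 1 - fr (m j • y) ∧ F (y + l • (θ : TT)) ≤ Real.exp (-c j)

/-- Bound for the tilts used at level `i`. -/
def Sys.Gam {θ : ℝ} (S : Sys θ) (i : ℕ) : ℝ := 3 * (S.R : ℝ) ^ i * S.Low i + 3 * S.lam i

/-- The fibre matrix built from the symbols `a`. -/
def Pm (a : ℤ → TT → ℂ) (θ : ℝ) (n : ℕ) (x : TT) : Matrix (Fin n) (Fin n) ℂ :=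
  fun j k => a (((j : ℕ) : ℤ) - ((k : ℕ) : ℤ)) (x + (k : ℕ) • (θ : TT))

end Crest.Agent.R113
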