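import Crest.Agent.R113.Orbit1

/-! Row 113, S0149: construction of the weight. -/

set_option autoImplicit false

noncomputable section

namespace Crest.Agent.R113

open MeasureTheory

namespace SysEx

open Filter Topology Finset

theorem exists_cover {θ : ℝ} (hθ : Irrational θ) {ε : ℝ} (hε : 0 < ε) :
    ∃ N : ℕ, ∀ y : TT, ∃ a : ℕ, a ≤ N ∧ ‖y + a • (θ : TT)‖ < ε := by
  have hd : DenseRange fun n : ℕ => n • (θ : TT) :=
    denseRange_zsmul_iff_nsmul.1 (AddCircle.denseRange_zsmul_coe_iff.2 (by simpa using hθ))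
  obtain ⟨N, hN⟩ := (isCompact_univ (X := TT)).elim_directed_cover
    (fun N : ℕ => {y : TT | ∃ a : ℕ, a ≤ N ∧ ‖y + a • (θ : TT)‖ < ε}) (fun N => by
      have : {y : TT | ∃ a : ℕ, a ≤ N ∧ ‖y + a • (θ : TT)‖ < ε} =
          ⋃ a : ℕ, ⋃ _ : a ≤ N, {y : TT | ‖y + a • (θ : TT)‖ < ε} := by
        ext y; simp
      rw [this]
      exact isOpen_iUnion fun a => isOpen_iUnion fun _ =>
        isOpen_lt (by fun_prop) continuous_const)
    (fun y _ => by
      obtain ⟨a, ha⟩ := Metric.denseRange_iff.1 hd (-y) ε hε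
      refine Set.mem_iUnion.2 ⟨a, a, le_rfl, ?_⟩
      rw [dist_comm, dist_eq_norm, sub_neg_eq_add, add_comm] at ha
      exact ha)
    (Monotone.directed_le fun N N' h y ⟨a, ha, hy⟩ => ⟨a, ha.trans h, hy⟩)
  exact ⟨N, fun y => hN (Set.mem_univ y)⟩

theorem exists_radius {θ : ℝ} (hθ : Irrational θ) :
    ∃ r : ℕ → ℝ, (∀ j, 0 < r j) ∧ Tendsto r atTop (𝓝 0) ∧
      ∀ (j : ℕ) (y : TT), ∃ a : ℕ, a ≤ j ∧ ‖y + a • (θ : TT)‖ ≤ r j := by
  let A : ℕ → Set ℝ := fun j => {ε | 0 ≤ ε ∧ ∀ y : TT, ∃ a : ℕ, a ≤ j ∧ ‖y + a • (θ : TT)‖ ≤ ε}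
  have hne : ∀ j, (A j).Nonempty := fun j =>
    ⟨|1| / 2, by norm_num, fun y => ⟨0, Nat.zero_le _, AddCircle.norm_le_half_period 1 one_ne_zero⟩⟩
  have hbd : ∀ j, BddBelow (A j) := fun j => ⟨0, fun ε h => h.1⟩
  have h0 : ∀ j, 0 ≤ sInf (A j) := fun j => le_csInf (hne j) fun ε h => h.1
  refine ⟨fun j => sInf (A j) + 1 / ((j : ℝ) + 1), fun j => ?_, ?_, fun j y => ?_⟩
  · have := h0 j
    positivity
  · have h1 : Tendsto (fun j => sInf (A j)) atTop (𝓝 0) := by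
      refine tendsto_order.2 ⟨fun a ha => Eventually.of_forall fun j => ha.trans_le (h0 j),
        fun ε hε => ?_⟩
      obtain ⟨N, hN⟩ := exists_cover hθ (half_pos hε)
      filter_upwards [eventually_ge_atTop N] with j hj
      refine lt_of_le_of_lt (csInf_le (hbd j) ⟨(half_pos hε).le, fun y => ?_⟩) (half_lt_self hε)
      obtain ⟨a, ha, hy⟩ := hN y
      exact ⟨a, ha.trans hj, hy.le⟩
    simpa using h1.add tendsto_one_div_add_atTop_nhds_zero_nat
  · obtain ⟨ε, hε, hlt⟩ := exists_lt_of_csInf_lt (hne j)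
      (lt_add_of_pos_right (sInf (A j)) (show 0 < 1 / ((j : ℝ) + 1) by positivity))
    obtain ⟨a, ha, hy⟩ := hε.2 y
    exact ⟨a, ha, hy.trans hlt.le⟩

variable {θ : ℝ} (S : Seq θ)

/-- partial sums of the costs -/
def CC : ℕ → ℝ
  | 0 => 0
  | i + 1 => CC i + (12 * (S.R : ℝ) ^ i * (S.Kc i + CC i) +
      9 * (((i : ℝ) + 1) * (3 * (S.R : ℝ) ^ i * (S.Kc i + CC i) + 9 * ((S.R : ℝ) ^ i) ^ 2)) + 2 * i)

/-- lower exponents -/
def Low (i : ℕ) : ℝ := S.Kc i + CC S i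

/-- slopes -/
def lam (i : ℕ) : ℝ := ((i : ℝ) + 1) * (3 * (S.R : ℝ) ^ i * Low S i + 9 * ((S.R : ℝ) ^ i) ^ 2)

/-- costs -/
def cc (i : ℕ) : ℝ := 12 * (S.R : ℝ) ^ i * Low S i + 9 * lam S i + 2 * i

theorem CC_succ (i : ℕ) : CC S (i + 1) = CC S i + cc S i := rfl

theorem CC_eq (i : ℕ) : CC S i = ∑ j ∈ range i, cc S j := by
  induction i with
  | zero => rfl
  | succ i ih => rw [CC_succ, ih, sum_range_succ]

theorem Kc_pos (i : ℕ) : 0 < S.Kc i := by
  have := S.two_le_R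
  unfold Seq.Kc
  positivity

theorem CC_nonneg (i : ℕ) : 0 ≤ CC S i := by
  induction i with
  | zero => exact le_rfl
  | succ i ih =>
    have := (Kc_pos S i).le
    unfold CC
    positivity

theorem Low_nonneg (i : ℕ) : 0 ≤ Low S i := add_nonneg (Kc_pos S i).le (CC_nonneg S i)

theorem lam_nonneg (i : ℕ) : 0 ≤ lam S i := by
  have := Low_nonneg S i
  unfold lam
  positivity

theorem cc_nonneg (i : ℕ) : 0 ≤ cc S i := by
  have := Low_nonneg S i
  have := lam_nonneg S i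
  unfold cc
  positivity

theorem Low_mono : Monotone (Low S) := by
  refine monotone_nat_of_le_succ fun i => add_le_add ?_ ?_
  · have h := S.two_le_R
    unfold Seq.Kc
    gcongr
    · linarith
    · omega
    · norm_num
    · omega
  · rw [CC_succ]
    exact le_add_of_nonneg_right (cc_nonneg S i)

theorem lam_mono : Monotone (lam S) := by
  intro i j h
  have h1 := Low_mono S h
  have h2 := Low_nonneg S i
  have h3 : (1 : ℝ) ≤ S.R := by linarith [S.two_le_R]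
  unfold lam
  gcongr

theorem cc_mono : Monotone (cc S) := by
  intro i j h
  have h1 := Low_mono S h
  have h2 := Low_nonneg S i
  have h3 : (1 : ℝ) ≤ S.R := by linarith [S.two_le_R]
  have h4 := lam_mono S h
  unfold cc
  gcongr

/-- the bumps -/
def g (r : ℕ → ℝ) (j : ℕ) (y : TT) : ℝ :=
  cc S j * Real.smoothTransition (2 - ‖y‖ / r j) *
    Real.smoothTransition (3 / 2 -
      ‖S.m j • y + ((3 / 2 * (((j : ℝ) + 1) * S.th j) : ℝ) : TT)‖ / (((j : ℝ) + 1) * S.th j))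

theorem g_cont (r : ℕ → ℝ) (j : ℕ) : Continuous (g S r j) := by
  unfold g
  have := Real.smoothTransition.continuous
  fun_prop

theorem g_nonneg (r : ℕ → ℝ) (j : ℕ) (y : TT) : 0 ≤ g S r j y :=
  mul_nonneg (mul_nonneg (cc_nonneg S j) (Real.smoothTransition.nonneg _))
    (Real.smoothTransition.nonneg _)

theorem g_le (r : ℕ → ℝ) (j : ℕ) (y : TT) : g S r j y ≤ cc S j :=
  (mul_le_of_le_one_right (mul_nonneg (cc_nonneg S j) (Real.smoothTransition.nonneg _))
    (Real.smoothTransition.le_one _)).trans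
    (mul_le_of_le_one_right (cc_nonneg S j) (Real.smoothTransition.le_one _))

theorem g_far {r : ℕ → ℝ} {j : ℕ} (hr : 0 < r j) {y : TT} (h : 2 * r j ≤ ‖y‖) :
    g S r j y = 0 := by
  unfold g
  rw [Real.smoothTransition.zero_of_nonpos (x := 2 - ‖y‖ / r j)
    (sub_nonpos.2 ((le_div_iff₀ hr).2 h)), mul_zero, zero_mul]

theorem coe_one_add (x : ℝ) : ((x + 1 : ℝ) : TT) = (x : TT) := AddCircle.coe_add_period 1 x

theorem add_coe_eq (z : TT) (x : ℝ) : z + (x : TT) = ((x - (1 - fr z) : ℝ) : TT) := by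
  rw [← coe_one_add (x - (1 - fr z)), show x - (1 - fr z) + 1 = fr z + x by ring,
    AddCircle.coe_add, coe_fr]

theorem g_zone (r : ℕ → ℝ) {j : ℕ} {y : TT} (h : y ∉ S.zone1 j) : g S r j y = 0 := by
  have hT : 0 < ((j : ℝ) + 1) * S.th j := mul_pos (by positivity) (S.th_pos j)
  have h1 : 3 * (((j : ℝ) + 1) * S.th j) < 1 - fr (S.m j • y) := by
    rw [← mul_assoc]; exact not_le.1 h
  unfold g
  generalize ((j : ℝ) + 1) * S.th j = T at hT h1
  rw [Real.smoothTransition.zero_of_nonpos (x := 3 / 2 - _), mul_zero]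
  rw [sub_nonpos, le_div_iff₀ hT, add_coe_eq, UnitAddCircle.norm_eq]
  have h2 : 1 - fr (S.m j • y) ≤ 1 := sub_le_self _ (fr_nonneg _)
  generalize 1 - fr (S.m j • y) = u at h1 h2 ⊢
  generalize round (3 / 2 * T - u) = n
  rw [le_abs]
  rcases le_or_gt 0 n with hn | hn
  · have : (0 : ℝ) ≤ n := by exact_mod_cast hn
    right; linarith
  · have : (n : ℝ) ≤ -1 := by exact_mod_cast Int.le_sub_one_of_lt hn
    left; linarith

theorem g_top {r : ℕ → ℝ} {j : ℕ} (hr : 0 < r j) {y : TT} (h : ‖y‖ ≤ r j)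
    (h1 : ((j : ℝ) + 1) * S.th j ≤ 1 - fr (S.m j • y))
    (h2 : 1 - fr (S.m j • y) ≤ 2 * (((j : ℝ) + 1) * S.th j)) : g S r j y = cc S j := by
  have hT : 0 < ((j : ℝ) + 1) * S.th j := mul_pos (by positivity) (S.th_pos j)
  unfold g
  generalize ((j : ℝ) + 1) * S.th j = T at hT h1 h2
  rw [Real.smoothTransition.one_of_one_le, Real.smoothTransition.one_of_one_le, mul_one, mul_one]
  · have h3 : ‖S.m j • y + ((3 / 2 * T : ℝ) : TT)‖ ≤ 1 / 2 * T := by
      rw [add_coe_eq]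
      refine (QuotientAddGroup.norm_mk_le_norm).trans ?_
      rw [Real.norm_eq_abs, abs_le]
      constructor <;> linarith
    have := (div_le_iff₀ hT).2 h3
    linarith
  · have := (div_le_one hr).2 h
    linarith

/-- the weight -/
def F (r : ℕ → ℝ) (y : TT) : ℝ := expNegInvGlue ‖y‖ * Real.exp (-∑' j, g S r j y)

theorem glue_eq {x : ℝ} (hx : 0 < x) : expNegInvGlue x = Real.exp (-x⁻¹) := by
  simp [expNegInvGlue, not_le.2 hx]

theorem glue_le_one (x : ℝ) : expNegInvGlue x ≤ 1 := by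
  rcases le_or_gt x 0 with h | h
  · rw [expNegInvGlue.zero_of_nonpos h]; exact zero_le_one
  · rw [glue_eq h]
    exact Real.exp_le_one_iff.2 (neg_nonpos.2 (by positivity))

theorem F_nonneg (r : ℕ → ℝ) (y : TT) : 0 ≤ F S r y :=
  mul_nonneg (expNegInvGlue.nonneg _) (Real.exp_pos _).le

theorem F_le_glue (r : ℕ → ℝ) (y : TT) : F S r y ≤ expNegInvGlue ‖y‖ :=
  mul_le_of_le_one_right (expNegInvGlue.nonneg _)
    (Real.exp_le_one_iff.2 (neg_nonpos.2 (tsum_nonneg fun j => g_nonneg S r j y)))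

theorem F_eq_zero (r : ℕ → ℝ) (y : TT) : F S r y = 0 ↔ y = 0 := by
  simp [F]

theorem exists_cut {r : ℕ → ℝ} (hr : ∀ j, 0 < r j) (h0 : Tendsto r atTop (𝓝 0)) {d : ℝ}
    (hd : 0 < d) : ∃ J : ℕ, ∀ y : TT, d ≤ ‖y‖ → ∀ j, j ∉ range J → g S r j y = 0 := by
  obtain ⟨J, hJ⟩ := eventually_atTop.1 ((tendsto_order.1 h0).2 (d / 2) (half_pos hd))
  refine ⟨J, fun y hy j hj => g_far S (hr j) ?_⟩
  have := hJ j (by simpa using hj)
  linarith

theorem F_cont {r : ℕ → ℝ} (hr : ∀ j, 0 < r j) (h0 : Tendsto r atTop (𝓝 0)) :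
    Continuous (F S r) := by
  have hg : Continuous fun y : TT => expNegInvGlue ‖y‖ :=
    (expNegInvGlue.contDiff (n := 0)).continuous.comp continuous_norm
  refine continuous_iff_continuousAt.2 fun y0 => ?_
  by_cases hy : y0 = 0
  · subst hy
    rw [ContinuousAt, (F_eq_zero S r 0).2 rfl]
    refine squeeze_zero (F_nonneg S r) (F_le_glue S r) ?_
    simpa using hg.tendsto 0
  · have hd : 0 < ‖y0‖ := norm_pos_iff.2 hy
    obtain ⟨J, hJ⟩ := exists_cut S hr h0 (half_pos hd)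
    have h1 : Continuous fun y : TT =>
        expNegInvGlue ‖y‖ * Real.exp (-∑ j ∈ range J, g S r j y) :=
      hg.mul (Real.continuous_exp.comp (continuous_finsetSum _ fun j _ => g_cont S r j).neg)
    refine h1.continuousAt.congr ?_
    filter_upwards [(continuous_norm.tendsto y0).eventually (lt_mem_nhds (half_lt_self hd))]
      with y hy'
    rw [F, tsum_eq_sum (hJ y hy'.le)]

theorem F_lo (r : ℕ → ℝ) (i : ℕ) (y : TT) (h1 : y ∉ S.Zone i) (h2 : y ∉ S.Base i) :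
    Real.exp (-Low S i) ≤ F S r y := by
  have hK := Kc_pos S i
  have h3 : 1 / S.Kc i ≤ ‖y‖ := not_lt.1 h2
  have h4 : 0 < ‖y‖ := lt_of_lt_of_le (by positivity) h3
  have h5 : ‖y‖⁻¹ ≤ S.Kc i := by
    rw [one_div] at h3
    exact inv_le_of_inv_le₀ hK h3
  have h6 : ∀ j, j ∉ range i → g S r j y = 0 := fun j hj =>
    g_zone S r fun hz => h1 ⟨j, by simpa using hj, hz⟩
  rw [F, tsum_eq_sum h6, glue_eq h4, ← Real.exp_add, Real.exp_le_exp, Low, CC_eq]
  have := sum_le_sum fun j (_ : j ∈ range i) => g_le S r j y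
  linarith

theorem F_le_exp {r : ℕ → ℝ} (hr : ∀ j, 0 < r j) (h0 : Tendsto r atTop (𝓝 0)) (j : ℕ) (y : TT)
    (h : g S r j y = cc S j) : F S r y ≤ Real.exp (-cc S j) := by
  by_cases hy : y = 0
  · rw [(F_eq_zero S r y).2 hy]; exact (Real.exp_pos _).le
  · obtain ⟨J, hJ⟩ := exists_cut S hr h0 (norm_pos_iff.2 hy)
    have hs : Summable fun j => g S r j y := summable_of_ne_finset_zero (hJ y le_rfl)
    refine (mul_le_of_le_one_left (Real.exp_pos _).le (glue_le_one _)).trans ?_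
    rw [Real.exp_le_exp, neg_le_neg_iff, ← h]
    exact hs.le_tsum j fun k _ => g_nonneg S r k y

theorem F_hi {r : ℕ → ℝ} (hr : ∀ j, 0 < r j) (h0 : Tendsto r atTop (𝓝 0))
    (hc : ∀ (j : ℕ) (y : TT), ∃ a : ℕ, a ≤ j ∧ ‖y + a • (θ : TT)‖ ≤ r j) (j : ℕ) (y : TT)
    (h : y ∉ S.zone1 j) : ∃ l : ℕ, (l : ℝ) * S.th j < 1 - fr (S.m j • y) ∧
      F S r (y + l • (θ : TT)) ≤ Real.exp (-cc S j) := by
  have ht := S.th_pos j
  have h1 : 3 * ((j : ℝ) + 1) * S.th j < 1 - fr (S.m j • y) := not_le.1 h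
  obtain ⟨ρ, hρ⟩ : ∃ ρ : ℝ, 1 - fr (S.m j • y) = ρ * S.th j :=
    ⟨(1 - fr (S.m j • y)) / S.th j, by field_simp⟩
  have h2 : 3 * ((j : ℝ) + 1) < ρ := by
    rw [hρ] at h1; exact lt_of_mul_lt_mul_right h1 ht.le
  have hj : (0 : ℝ) ≤ j := Nat.cast_nonneg _
  have h3 := Nat.le_ceil (ρ - 2 * ((j : ℝ) + 1))
  have h4 := Nat.ceil_lt_add_one (show 0 ≤ ρ - 2 * ((j : ℝ) + 1) by linarith)
  generalize ⌈ρ - 2 * ((j : ℝ) + 1)⌉₊ = l0 at h3 h4
  obtain ⟨a, ha, hy⟩ := hc j (y + l0 • (θ : TT))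
  have ha' : (a : ℝ) ≤ j := by exact_mod_cast ha
  have ha0 : (0 : ℝ) ≤ a := Nat.cast_nonneg _
  have h5 : ((l0 + a : ℕ) : ℝ) * S.th j < 1 - fr (S.m j • y) := by
    rw [hρ]
    push_cast
    exact mul_lt_mul_of_pos_right (by linarith) ht
  refine ⟨l0 + a, h5, F_le_exp S hr h0 j _ (g_top S (hr j) ?_ ?_ ?_)⟩
  · rwa [add_nsmul, ← add_assoc]
  · rw [S.fr_smul_add j _ y h5, ← sub_sub, hρ, ← sub_mul]
    push_cast
    exact mul_le_mul_of_nonneg_right (by linarith) ht.le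
  · rw [S.fr_smul_add j _ y h5, ← sub_sub, hρ, ← sub_mul, ← mul_assoc]
    push_cast
    exact mul_le_mul_of_nonneg_right (by linarith) ht.le

end SysEx

theorem exists_sys {θ : ℝ} (hθ : Irrational θ) (S : Seq θ) : ∃ S' : Sys θ, S'.toSeq = S := by
  obtain ⟨r, hr, h0, hc⟩ := SysEx.exists_radius hθ
  exact ⟨{ toSeq := S
           F := SysEx.F S r
           Low := SysEx.Low S
           c := SysEx.cc S
           lam := SysEx.lam S
           Low_nonneg := SysEx.Low_nonneg S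
           Low_mono := SysEx.Low_mono S
           lam_ge := fun _ => le_rfl
           lam_mono := SysEx.lam_mono S
           c_ge := fun _ => le_rfl
           c_mono := SysEx.cc_mono S
           F_cont := SysEx.F_cont S hr h0
           F_nonneg := SysEx.F_nonneg S r
           F_le_one := fun y => (SysEx.F_le_glue S r y).trans (SysEx.glue_le_one _)
           F_eq_zero := SysEx.F_eq_zero S r
           F_le := fun y hy =>
             (SysEx.F_le_glue S r y).trans_eq (SysEx.glue_eq (norm_pos_iff.2 hy))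
           F_lo := SysEx.F_lo S r
           F_hi := SysEx.F_hi S hr h0 hc }, rfl⟩

end Crest.Agent.R113
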