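import Crest.Agent.R113.SysDefs

/-! Row 113, S0149: extension of the weight to the plane. -/

set_option autoImplicit false

noncomputable section

namespace Crest.Agent.R113

open MeasureTheory

namespace SysExtAux

theorem inj : Function.Injective fun y : TT => (AddCircle.toCircle y : ℂ) := fun _ _ h =>
  AddCircle.injective_toCircle one_ne_zero (Circle.ext h)

theorem cont : Continuous fun y : TT => (AddCircle.toCircle y : ℂ) :=
  continuous_induced_dom.comp AddCircle.continuous_toCircle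

theorem exp_eq (t : ℝ) : (AddCircle.toCircle ((t / (2 * Real.pi) : ℝ) : TT) : ℂ) =
    Complex.exp ((t : ℂ) * Complex.I) := by
  rw [AddCircle.toCircle_apply_mk, Circle.coe_exp]
  congr 3
  have := Real.pi_pos
  field_simp

theorem surj {z : ℂ} (hz : ‖z‖ = 1) : ∃ y : TT, (AddCircle.toCircle y : ℂ) = z := by
  refine ⟨((z.arg / (2 * Real.pi) : ℝ) : TT), ?_⟩
  rw [exp_eq]
  have := Complex.norm_mul_exp_arg_mul_I z
  rwa [hz, Complex.ofReal_one, one_mul] at this

theorem lint_inv {a : ℝ} (ha : 0 < a) : ∫⁻ t in Set.Ioo (0 : ℝ) a, ENNReal.ofReal t⁻¹ = ⊤ := by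
  by_contra h
  have h1 : IntegrableOn (fun t : ℝ => t⁻¹) (Set.Ioo 0 a) := by
    refine ⟨measurable_inv.aestronglyMeasurable, ?_⟩
    rw [hasFiniteIntegral_iff_ofReal]
    · exact lt_top_iff_ne_top.2 h
    · filter_upwards [ae_restrict_mem measurableSet_Ioo] with t ht
      exact (inv_pos.2 ht.1).le
  have h2 : IntervalIntegrable (fun t : ℝ => t⁻¹) volume 0 a :=
    (intervalIntegrable_iff_integrableOn_Ioo_of_le ha.le).2 h1
  rw [intervalIntegrable_inv_iff] at h2
  rcases h2 with h2 | h2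
  · exact ha.ne h2
  · exact h2 Set.left_mem_uIcc

end SysExtAux

open SysExtAux

/-- Extension of the weight to the plane, with the analytic properties required. -/
theorem Sys.exists_ext {θ : ℝ} (S : Sys θ) : ∃ f : ℂ → ℝ, Continuous f ∧
    (∀ y : TT, f (AddCircle.toCircle y : ℂ) = S.F y) ∧
    (∀ z : ℂ, ‖z‖ = 1 → 0 ≤ f z ∧ f z ≤ 1) ∧ (∀ z : ℂ, ‖z‖ = 1 → (f z = 0 ↔ z = 1)) ∧
    (∫⁻ t in Set.Ioc (0 : ℝ) (2 * Real.pi),
      ENNReal.ofReal (- Real.log (f (Complex.exp ((t : ℂ) * Complex.I)))) = ⊤) := by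
  obtain ⟨g, hg⟩ := ContinuousMap.exists_extension' (cont.isClosedEmbedding inj) ⟨S.F, S.F_cont⟩
  have hg' : ∀ y : TT, g (AddCircle.toCircle y : ℂ) = S.F y := fun y => congrFun hg y
  refine ⟨g, g.continuous, hg', fun z hz => ?_, fun z hz => ?_, ?_⟩
  · obtain ⟨y, rfl⟩ := surj hz
    rw [hg']
    exact ⟨S.F_nonneg y, S.F_le_one y⟩
  · obtain ⟨y, rfl⟩ := surj hz
    rw [hg', S.F_eq_zero]
    have h0 : (AddCircle.toCircle (0 : TT) : ℂ) = 1 := by simp
    rw [← h0]
    exact inj.eq_iff.symm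
  · have hpi : 0 < 2 * Real.pi := by positivity
    rw [← top_le_iff, ← lint_inv hpi]
    refine le_trans (setLIntegral_mono' measurableSet_Ioo fun t ht => ?_)
      (lintegral_mono_set Set.Ioo_subset_Ioc_self)
    refine ENNReal.ofReal_le_ofReal ?_
    rw [← exp_eq, hg']
    set y : TT := ((t / (2 * Real.pi) : ℝ) : TT) with hy
    have h1 : 0 < t / (2 * Real.pi) := div_pos ht.1 hpi
    have h2 : t / (2 * Real.pi) < 1 := (div_lt_one hpi).2 ht.2
    have hy0 : y ≠ 0 := by
      intro h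
      obtain ⟨n, hn⟩ := (AddCircle.coe_eq_zero_iff (1 : ℝ)).1 h
      rw [zsmul_eq_mul, mul_one] at hn
      rw [← hn] at h1 h2
      have h3 : (0 : ℤ) < n := by exact_mod_cast h1
      have h4 : n < (1 : ℤ) := by exact_mod_cast h2
      omega
    have h3 : 0 < S.F y := lt_of_le_of_ne (S.F_nonneg y) fun h => hy0 ((S.F_eq_zero y).1 h.symm)
    have h4 : Real.log (S.F y) ≤ -‖y‖⁻¹ := (Real.log_le_iff_le_exp h3).2 (S.F_le y hy0)
    have h5 : ‖y‖ ≤ t := by
      refine (QuotientAddGroup.norm_mk_le_norm (m := t / (2 * Real.pi))).trans ?_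
      rw [Real.norm_of_nonneg h1.le]
      exact div_le_self ht.1.le (by linarith [Real.pi_gt_three])
    have h6 : t⁻¹ ≤ ‖y‖⁻¹ := inv_anti₀ (norm_pos_iff.2 hy0) h5
    linarith

end Crest.Agent.R113
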