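import Crest.Agent.R113.Fibre

/-!
Infinite-dimensional separable Hilbert spaces are unitarily equivalent; the model space is one.
-/

set_option autoImplicit false

namespace Crest.Agent.R113

open Crest.AnalysisR.TwoAdic MeasureTheory TopologicalSpace

theorem countable_of_orthonormal {H ι : Type*} [NormedAddCommGroup H] [InnerProductSpace ℂ H]
    [SeparableSpace H] {v : ι → H} (hv : Orthonormal ℂ v) : Countable ι := by
  refine Pairwise.countable_of_isOpen_disjoint (s := fun i => Metric.ball (v i) (1 / 2))
    (fun i j hij => Metric.ball_disjoint_ball ?_) (fun _ => Metric.isOpen_ball)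
    fun _ => Metric.nonempty_ball.2 (by norm_num)
  have h1 := norm_sub_sq (𝕜 := ℂ) (v i) (v j)
  rw [hv.1, hv.1, hv.2 hij, map_zero] at h1
  rw [dist_eq_norm]
  nlinarith [norm_nonneg (v i - v j)]

theorem nonempty_hilbertBasis_nat (H : Type*) [NormedAddCommGroup H] [InnerProductSpace ℂ H]
    [CompleteSpace H] [SeparableSpace H] (hH : ¬ FiniteDimensional ℂ H) :
    Nonempty (HilbertBasis ℕ ℂ H) := by
  obtain ⟨w, b, -⟩ := exists_hilbertBasis ℂ H
  have := countable_of_orthonormal b.orthonormal
  have : Infinite w := by
    refine not_finite_iff_infinite.1 fun h => hH ?_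
    have := Fintype.ofFinite w
    exact Module.Finite.of_basis b.toOrthonormalBasis.toBasis
  obtain ⟨e⟩ : Nonempty (ℕ ≃ w) := inferInstance
  refine ⟨HilbertBasis.mk (b.orthonormal.comp e e.injective) ?_⟩
  rw [e.surjective.range_comp]
  exact b.dense_span.ge

theorem nonempty_linearIsometryEquiv (H K : Type*) [NormedAddCommGroup H] [InnerProductSpace ℂ H]
    [CompleteSpace H] [SeparableSpace H] (hH : ¬ FiniteDimensional ℂ H) [NormedAddCommGroup K]
    [InnerProductSpace ℂ K] [CompleteSpace K] [SeparableSpace K] (hK : ¬ FiniteDimensional ℂ K) :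
    Nonempty (H ≃ₗᵢ[ℂ] K) := by
  obtain ⟨b⟩ := nonempty_hilbertBasis_nat H hH
  obtain ⟨c⟩ := nonempty_hilbertBasis_nat K hK
  exact ⟨b.repr.trans c.repr.symm⟩

theorem separableSpace_seqHilbert : SeparableSpace seqHilbert := by
  rw [← isSeparable_univ_iff]
  have h : IsSeparable (Submodule.span ℂ (Set.range basisVec) : Set seqHilbert) :=
    (Set.countable_range _).isSeparable.span
  refine h.closure.mono fun v _ => ?_
  change v ∈ (Submodule.span ℂ (Set.range basisVec)).topologicalClosure
  exact mem_of_support (Submodule.isClosed_topologicalClosure _) fun j _ =>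
    Submodule.le_topologicalClosure _ (Submodule.subset_span ⟨j, rfl⟩)

theorem not_finiteDimensional_Lp {X : Type*} [MeasurableSpace X] (μ : Measure X)
    [IsProbabilityMeasure μ] : ¬ FiniteDimensional ℂ (Lp seqHilbert 2 μ) := by
  intro h
  have ho : Orthonormal ℂ fun j : ℤ => Lp.const 2 μ (basisVec j) := by
    classical
    rw [orthonormal_iff_ite]
    intro i j
    rw [L2.inner_def, integral_congr_ae (g := fun _ => if i = j then (1 : ℂ) else 0)]
    · simp
    · filter_upwards [Lp.coeFn_const 2 μ (basisVec i), Lp.coeFn_const 2 μ (basisVec j)]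
        with x h1 h2
      rw [h1, h2, Function.const_apply, Function.const_apply, inner_basisVec, basisVec_apply]
  exact not_finite_iff_infinite.2 (inferInstance : Infinite ℤ) ho.linearIndependent.finite

end Crest.Agent.R113
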