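import Crest.Prelude.Def_TwoAdicShift
import Crest.Agent.R113.Domar

/-!
The weights over the 2-adic odometer.
-/

set_option autoImplicit false

namespace Crest.Agent.R113

open Crest.AnalysisR.TwoAdic PadicInt

attribute [local instance] borelTwoAdic borelSpace_twoAdic

theorem toZModPow_eq (x : ℤ_[2]) (n : ℕ) : toZModPow n x = (x.appr n : ZMod (2 ^ n)) := rfl

theorem appr_eq_iff (x : ℤ_[2]) (n a : ℕ) :
    x.appr n = a ↔ a < 2 ^ n ∧ toZModPow n x = (a : ZMod (2 ^ n)) := by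
  constructor
  · rintro rfl
    exact ⟨appr_lt x n, rfl⟩
  · rintro ⟨h1, h2⟩
    rw [toZModPow_eq, ZMod.natCast_eq_natCast_iff', Nat.mod_eq_of_lt h1,
      Nat.mod_eq_of_lt (appr_lt x n)] at h2
    exact h2

theorem appr_add_one {x : ℤ_[2]} {n : ℕ} (h : x.appr n + 1 < 2 ^ n) :
    (x + 1).appr n = x.appr n + 1 := by
  refine (appr_eq_iff _ _ _).2 ⟨h, ?_⟩
  rw [map_add, map_one, toZModPow_eq]
  push_cast
  rfl

theorem eventually_appr {x : ℤ_[2]} (hx : x ≠ -1) :
    ∃ k₀, ∀ k, k₀ ≤ k → x.appr k + 1 < 2 ^ k := by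
  have h1 : x + 1 ≠ 0 := fun h => hx (eq_neg_of_add_eq_zero_left h)
  obtain ⟨k₀, hk₀⟩ := not_forall.1 (mt ext_of_toZModPow.1 h1)
  refine ⟨k₀, fun k hk => lt_of_le_of_ne (appr_lt x k) fun he => hk₀ ?_⟩
  have h2 : toZModPow k (x + 1) = 0 := by
    rw [map_add, map_one, toZModPow_eq, ← Nat.cast_succ, Nat.succ_eq_add_one, he,
      ZMod.natCast_self]
  rw [← cast_toZModPow k₀ k hk, h2, ZMod.cast_zero, map_zero]

theorem measurable_appr (n : ℕ) : Measurable fun x : ℤ_[2] => x.appr n := by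
  refine measurable_to_countable' fun a => ?_
  have : (fun x : ℤ_[2] => x.appr n) ⁻¹' {a} =
      {_x | a < 2 ^ n} ∩ Metric.closedBall (a : ℤ_[2]) ((2 : ℕ) ^ (-n : ℤ)) := by
    ext x
    simp only [Set.mem_preimage, Set.mem_singleton_iff, appr_eq_iff, Set.mem_inter_iff,
      Set.mem_ofPred_eq, Metric.mem_closedBall, dist_eq_norm]
    rw [norm_le_pow_iff_mem_span_pow, ← ker_toZModPow, RingHom.mem_ker, map_sub, map_natCast,
      sub_eq_zero]
  rw [this]
  exact (MeasurableSet.const _).inter measurableSet_closedBall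

/-- The slowly refined residue. -/
noncomputable def res (i : ℕ) (x : ℤ_[2]) : ℕ := x.appr (Nat.log 2 (i / 2))

theorem two_mul_res_le (i : ℕ) (x : ℤ_[2]) : 2 * res i x ≤ i := by
  have h1 := appr_lt x (Nat.log 2 (i / 2))
  rcases Nat.eq_zero_or_pos (i / 2) with h | h
  · simp only [res, h] at h1 ⊢
    simp only [Nat.log_zero_right, pow_zero] at h1 ⊢
    omega
  · have h2 := Nat.pow_log_le_self 2 h.ne'
    simp only [res]
    omega

theorem res_mono {i j : ℕ} (h : i ≤ j) (x : ℤ_[2]) : res i x ≤ res j x :=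
  appr_mono x (Nat.log_mono_right (Nat.div_le_div_right h))

/-- The one-sided logarithmic weights. -/
noncomputable def ap (i : ℕ) (x : ℤ_[2]) : ℝ := 10 * ((i : ℝ) + 1 + 2 * res i x)

theorem measurable_ap (i : ℕ) : Measurable (ap i) :=
  (measurable_from_nat (f := fun r : ℕ => 10 * ((i : ℝ) + 1 + 2 * r))).comp (measurable_appr _)

theorem le_ap (i : ℕ) (x : ℤ_[2]) : 10 * ((i : ℝ) + 1) ≤ ap i x := by
  have : (0 : ℝ) ≤ res i x := Nat.cast_nonneg _
  simp only [ap]
  linarith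

theorem ap_mono {i j : ℕ} (h : i ≤ j) (x : ℤ_[2]) : ap i x ≤ ap j x := by
  have h1 : (res i x : ℝ) ≤ res j x := by exact_mod_cast res_mono h x
  have h2 : (i : ℝ) ≤ j := by exact_mod_cast h
  simp only [ap]
  linarith

/-- The potential. -/
noncomputable def pot (x : ℤ_[2]) (j : ℤ) : ℝ :=
  ∑ i ∈ Finset.range j.toNat, ap i x - ∑ i ∈ Finset.range (-j).toNat, ap i (-1 - x)

theorem pot_nat (x : ℤ_[2]) (n : ℕ) : pot x n = ∑ i ∈ Finset.range n, ap i x := by
  simp [pot]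

theorem pot_neg (x : ℤ_[2]) (n : ℕ) : pot x (-n) = -∑ i ∈ Finset.range n, ap i (-1 - x) := by
  simp [pot]

theorem pot_succ_of_nonneg (x : ℤ_[2]) {j : ℤ} (hj : 0 ≤ j) :
    pot x (j + 1) - pot x j = ap j.toNat x := by
  obtain ⟨n, rfl⟩ := Int.eq_ofNat_of_zero_le hj
  rw [← Nat.cast_succ, pot_nat, pot_nat, Finset.sum_range_succ]
  simp

theorem pot_succ_of_neg (x : ℤ_[2]) {j : ℤ} (hj : j < 0) :
    pot x (j + 1) - pot x j = ap (-j - 1).toNat (-1 - x) := by
  obtain ⟨n, rfl⟩ : ∃ n : ℕ, j = -((n + 1 : ℕ) : ℤ) := ⟨(-j - 1).toNat, by omega⟩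
  rw [show -((n + 1 : ℕ) : ℤ) + 1 = -(n : ℤ) by omega, pot_neg, pot_neg, Finset.sum_range_succ,
    show (- -((n + 1 : ℕ) : ℤ) - 1).toNat = n by omega]
  ring

theorem good_pot (x : ℤ_[2]) : Good (pot x) where
  pos j hj := by
    rw [pot_succ_of_nonneg x hj]
    refine le_of_eq_of_le ?_ (le_ap _ _)
    obtain ⟨n, rfl⟩ := Int.eq_ofNat_of_zero_le hj
    simp
  neg j hj := by
    rw [pot_succ_of_neg x hj]
    refine le_of_eq_of_le ?_ (le_ap _ _)
    obtain ⟨n, rfl⟩ : ∃ n : ℕ, j = -((n + 1 : ℕ) : ℤ) := ⟨(-j - 1).toNat, by omega⟩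
    rw [show (- -((n + 1 : ℕ) : ℤ) - 1).toNat = n by omega]
    push_cast
    ring
  mono i j hi hij := by
    rw [pot_succ_of_nonneg x hi, pot_succ_of_nonneg x (hi.trans hij)]
    exact ap_mono (by omega) _
  anti i j hi hij := by
    rw [pot_succ_of_neg x hi, pot_succ_of_neg x (hij.trans_lt hi)]
    exact ap_mono (by omega) _

theorem measurable_pot (j : ℤ) : Measurable fun x => pot x j :=
  (Finset.measurable_sum _ fun i _ => measurable_ap i).sub
    (Finset.measurable_sum _ fun i _ => (measurable_ap i).comp (measurable_id.const_sub _))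

theorem bddAbove_diff {y : ℤ_[2]} (hy : y ≠ -1) : BddAbove (Set.range fun n : ℕ =>
    ∑ i ∈ Finset.range (n + 1), ap i y - ∑ i ∈ Finset.range n, ap i (y + 1)) := by
  obtain ⟨k₀, hk₀⟩ := eventually_appr hy
  set Q : ℕ → ℝ := fun n =>
    ∑ i ∈ Finset.range (n + 1), ap i y - ∑ i ∈ Finset.range n, ap i (y + 1) with hQ
  set i₀ := 2 * 2 ^ k₀ with hi₀
  have key : ∀ n, i₀ ≤ n → Q n - 10 * (2 * res n y - n) = Q i₀ - 10 * (2 * res i₀ y - i₀) := by
    intro n hn
    induction n, hn using Nat.le_induction with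
    | base => rfl
    | succ n hn ih =>
      rw [← ih]
      have h1 : res n (y + 1) = res n y + 1 :=
        appr_add_one (hk₀ _ (Nat.le_log_of_pow_le (by norm_num) (by omega)))
      simp only [hQ, Finset.sum_range_succ _ (n + 1), Finset.sum_range_succ (fun i => ap i (y + 1)),
        show ap n (y + 1) = 10 * ((n : ℝ) + 1 + 2 * (res n y + 1)) by rw [ap, h1]; push_cast; ring,
        show ap (n + 1) y = 10 * ((n : ℝ) + 1 + 1 + 2 * res (n + 1) y) by rw [ap]; push_cast; ring]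
      push_cast
      ring
  refine Filter.IsBoundedUnder.bddAbove_range (Filter.isBoundedUnder_of_eventually_le
    (a := Q i₀ - 10 * (2 * res i₀ y - i₀)) (Filter.eventually_atTop.2 ⟨i₀, fun n hn => ?_⟩))
  rw [← key n hn]
  have : (2 * res n y : ℝ) ≤ n := by exact_mod_cast two_mul_res_le n y
  linarith

theorem bddAbove_pot {x : ℤ_[2]} (hx : x ≠ -1) :
    BddAbove (Set.range fun j : ℤ => pot x j - pot (x + 1) (j - 1)) := by
  have hy : -1 - (x + 1) ≠ -1 := fun h => hx (by linear_combination -h)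
  refine ((bddAbove_diff hx).union (bddAbove_diff hy)).mono ?_
  rintro _ ⟨j, rfl⟩
  rcases lt_or_ge 0 j with hj | hj
  · obtain ⟨n, rfl⟩ : ∃ n : ℕ, j = ((n + 1 : ℕ) : ℤ) := ⟨(j - 1).toNat, by omega⟩
    refine Or.inl ⟨n, ?_⟩
    simp only
    rw [show ((n + 1 : ℕ) : ℤ) - 1 = (n : ℤ) by omega, pot_nat, pot_nat]
  · obtain ⟨n, rfl⟩ : ∃ n : ℕ, j = -(n : ℤ) := ⟨(-j).toNat, by omega⟩
    refine Or.inr ⟨n, ?_⟩
    simp only
    rw [show -(n : ℤ) - 1 = -((n + 1 : ℕ) : ℤ) by omega, pot_neg, pot_neg,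
      show -1 - (x + 1) + 1 = -1 - x by ring]
    ring

/-- The weights of the model. -/
theorem exists_weights : ∃ (φ : ℤ_[2] → ℤ → ℝ) (b : ℤ → ℤ_[2] → ℝ), (∀ x, Good (φ x)) ∧
    (∀ j, Measurable fun x => φ x j) ∧ (∀ x, φ x 0 - φ x (0 + 1) = -10) ∧
    (∀ j, Measurable (b j)) ∧ (∀ j x, 0 ≤ b j x ∧ b j x ≤ 1) ∧
    (∀ x, x ≠ -1 → ∀ j, 0 < b j x) ∧
    ∀ j x, b (j + 1) x * Real.exp (φ x j - φ x (j + 1)) =
      Real.exp (φ (x + 1) (j + -1) - φ (x + 1) (j + -1 + 1)) * b j x := by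
  classical
  have hD : ∀ j : ℤ, Measurable fun x => pot x j - pot (x + 1) (j - 1) := fun j =>
    (measurable_pot j).sub ((measurable_pot (j - 1)).comp (measurable_id.add_const 1))
  refine ⟨pot, fun j x => if x = -1 then 0 else Real.exp (pot x j - pot (x + 1) (j - 1) -
    ⨆ i : ℤ, (pot x i - pot (x + 1) (i - 1))), good_pot, measurable_pot, fun x => ?_,
    fun j => ?_, fun j x => ?_, fun x hx j => ?_, fun j x => ?_⟩
  · have := pot_succ_of_nonneg x le_rfl
    simp only [Int.toNat_zero, ap, res] at this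
    simp only [Nat.zero_div, Nat.log_zero_right, appr, Nat.cast_zero] at this
    linarith
  · exact Measurable.ite (measurableSet_singleton (-1)) measurable_const
      (((hD j).sub (Measurable.iSup hD)).exp)
  · simp only
    split_ifs with hx
    · simp
    · exact ⟨(Real.exp_pos _).le, Real.exp_le_one_iff.2 (sub_nonpos.2 (le_ciSup (bddAbove_pot hx) j))⟩
  · simp only [if_neg hx]
    exact Real.exp_pos _
  · simp only
    split_ifs with hx
    · simp
    · rw [← Real.exp_add, ← Real.exp_add, add_sub_cancel_right, neg_add_cancel_right,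
        ← sub_eq_add_neg]
      congr 1
      ring

end Crest.Agent.R113
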